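import Vale.Agent.P146.Power.Defs
import Vale.Agent.P146.Gap.SmoothMax

/-!
Derivatives of the extended free energy, Hermite polynomials of the symmetrised disorder, the
Hermite coefficients as mean derivatives, and the norm bound for Hermite sums.
-/

namespace Vale.Agent.P146.Power

open MeasureTheory ProbabilityTheory Finset
open Vale.Agent.P157 (gauss)
open Vale.Agent.P157.Parisi (Tame GradOf Tame.add Tame.sub Tame.mul tame_const tame_sum tame_coord
  gauss_ibp)
open Vale.Agent.P146.Gap

variable {n : ℕ} {β : ℝ}

/-! ### Gradients -/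

section Grad

variable {ι : Type} [Fintype ι]

lemma gradOf_congr {u : (ι → ℝ) → ℝ} {g g' : ι → (ι → ℝ) → ℝ} (h : GradOf u g)
    (hg : ∀ i y, g i y = g' i y) : GradOf u g' := by
  have : g = g' := funext fun i => funext (hg i)
  exact this ▸ h

lemma gradOf_const (c : ℝ) : GradOf (fun _ : ι → ℝ => c) fun _ _ => 0 := fun y v => by
  simpa using hasDerivAt_const (0 : ℝ) c

lemma gradOf_const_mul {u : (ι → ℝ) → ℝ} {g : ι → (ι → ℝ) → ℝ} (h : GradOf u g) (c : ℝ) :
    GradOf (fun y => c * u y) fun i y => c * g i y := fun y v =>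
  ((h y v).const_mul c).congr_deriv (by rw [mul_sum]; exact sum_congr rfl fun i _ => by ring)

lemma gradOf_sum {κ : Type*} (T : Finset κ) {u : κ → (ι → ℝ) → ℝ}
    {g : κ → ι → (ι → ℝ) → ℝ} (h : ∀ k ∈ T, GradOf (u k) (g k)) :
    GradOf (fun y => ∑ k ∈ T, u k y) fun i y => ∑ k ∈ T, g k i y := fun y v =>
  (HasDerivAt.fun_sum fun k hk => h k hk y v).congr_deriv
    (by rw [sum_comm]; simp [mul_sum])

lemma gradOf_sub {u w : (ι → ℝ) → ℝ} {g h : ι → (ι → ℝ) → ℝ} (hu : GradOf u g) (hw : GradOf w h) :
    GradOf (fun y => u y - w y) fun i y => g i y - h i y := fun y v =>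
  ((hu y v).fun_sub (hw y v)).congr_deriv (by simp [mul_sub])

lemma gradOf_listSum {κ : Type*} (L : List κ) {u : κ → (ι → ℝ) → ℝ}
    {g : κ → ι → (ι → ℝ) → ℝ} (h : ∀ k ∈ L, GradOf (u k) (g k)) :
    GradOf (fun y => (L.map fun k => u k y).sum) fun i y => (L.map fun k => g k i y).sum := by
  induction L with
  | nil => simpa using gradOf_const (ι := ι) 0
  | cons a L ih =>
    simp only [List.map_cons, List.sum_cons]
    intro y v
    refine (((h a (by simp)) y v).fun_add
      (ih (fun k hk => h k (List.mem_cons_of_mem _ hk)) y v)).congr_deriv ?_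
    simp [mul_add, sum_add_distrib]

lemma tame_listSum {κ : Type*} (L : List κ) {f : κ → (ι → ℝ) → ℝ} (h : ∀ k ∈ L, Tame (f k)) :
    Tame fun y => (L.map fun k => f k y).sum := by
  induction L with
  | nil => simpa using tame_const (ι := ι) 0
  | cons a L ih =>
    simp only [List.map_cons, List.sum_cons]
    exact (h a (by simp)).add (ih fun k hk => h k (List.mem_cons_of_mem _ hk))

lemma tame_prod {κ : Type*} (T : Finset κ) {f : κ → (ι → ℝ) → ℝ} (h : ∀ k ∈ T, Tame (f k)) :
    Tame fun y => ∏ k ∈ T, f k y := by
  classical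
  induction T using Finset.induction with
  | empty => simpa using tame_const (ι := ι) 1
  | insert a T ha ih =>
    simp only [prod_insert ha]
    exact (h a (mem_insert_self a T)).mul (ih fun b hb => h b (mem_insert_of_mem hb))

end Grad

/-! ### The free energy and its derivatives -/

/-- The weighted pair spins. -/
noncomputable def vE (n : ℕ) (β : ℝ) (σ : Fin n → Bool) (e : Edge n) : ℝ :=
  coef n β * pairSpin σ e

lemma vE_swap (σ : Fin n → Bool) (e : Edge n) : vE n β σ e.swap = vE n β σ e := by
  simp [vE, pairSpin, mul_comm]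

lemma abs_spin (b : Bool) : |spin b| = 1 := by cases b <;> simp [spin]

lemma extFree_eq (n : ℕ) (β : ℝ) :
    extFree n β = fun G => lse 1 (linForms (vE n β) G) := by
  funext G
  simp only [extFree, lse, linForms, inv_one, one_mul, vE, mul_sum]
  refine congrArg Real.log (sum_congr rfl fun σ _ => congrArg Real.exp (sum_congr rfl fun e _ => ?_))
  ring

/-- The product of the Gibbs weights of replicas. -/
noncomputable def repW (n : ℕ) (β : ℝ) {p : ℕ} (σ : Fin p → Fin n → Bool) (G : Arr n) : ℝ :=
  ∏ r, wgt 1 (vE n β) (σ r) G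

lemma gradOf_repW : ∀ {p : ℕ} (σ : Fin p → Fin n → Bool),
    GradOf (repW n β σ) fun a G => repW n β σ G *
      (∑ r, vE n β (σ r) a - p * avgCoef 1 (vE n β) a G) := by
  intro p
  induction p with
  | zero =>
    intro σ
    have : repW n β σ = fun _ => 1 := funext fun G => by simp [repW]
    rw [this]
    exact gradOf_congr (gradOf_const 1) fun a G => by simp
  | succ p ih =>
    intro σ
    have hfun : repW n β σ = fun G => wgt 1 (vE n β) (σ 0) G * repW n β (Fin.tail σ) G :=
      funext fun G => by simp [repW, Fin.prod_univ_succ, Fin.tail]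
    rw [hfun]
    refine gradOf_congr ((gradOf_wgt 1 (vE n β) (σ 0)).mul (ih (Fin.tail σ))) fun a G => ?_
    simp only [Fin.sum_univ_succ, Fin.tail, Nat.cast_succ]
    ring

variable {I : Type} [Fintype I]

/-- A combination of Gibbs averages of products of pair spins of replicas. -/
noncomputable def gForm (n : ℕ) (β : ℝ) {p : ℕ} (c : I → ℝ) (rep : I → Fin p → Fin p)
    (e : Fin p → Edge n) (G : Arr n) : ℝ :=
  ∑ i, c i * ∑ σ : Fin p → Fin n → Bool, repW n β σ G * ∏ j, vE n β (σ (rep i j)) (e j)

lemma tame_gForm {p : ℕ} (c : I → ℝ) (rep : I → Fin p → Fin p) (e : Fin p → Edge n) :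
    Tame (gForm n β c rep e) :=
  tame_sum _ fun _ _ => (tame_const _).mul (tame_sum _ fun σ _ =>
    (tame_prod _ fun _ _ => tame_wgt _ _ _).mul (tame_const _))

/-- The new coefficients after one derivative. -/
def nextC {p : ℕ} (c : I → ℝ) (i : I × Fin (p + 1)) : ℝ := c i.1 * if i.2 = 0 then -(p : ℝ) else 1

/-- The new replica maps after one derivative. -/
def nextR {p : ℕ} (rep : I → Fin p → Fin p) (i : I × Fin (p + 1)) : Fin (p + 1) → Fin (p + 1) :=
  Fin.cons i.2 fun j => (rep i.1 j).succ

lemma sum_abs_nextC {p : ℕ} (c : I → ℝ) :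
    ∑ i, |nextC (p := p) c i| = 2 * p * ∑ i, |c i| := by
  rw [Fintype.sum_prod_type, mul_sum]
  refine sum_congr rfl fun i _ => ?_
  simp [Fin.sum_univ_succ, nextC, abs_mul, Fin.succ_ne_zero]
  ring

lemma gradOf_gForm {p : ℕ} (c : I → ℝ) (rep : I → Fin p → Fin p) (e : Fin p → Edge n) :
    GradOf (gForm n β c rep e) fun a => gForm n β (nextC c) (nextR rep) (Fin.cons a e) := by
  have h : GradOf (gForm n β c rep e) fun a G => ∑ i, c i * ∑ σ : Fin p → Fin n → Bool,
      repW n β σ G * (∑ r, vE n β (σ r) a - p * avgCoef 1 (vE n β) a G) *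
        ∏ j, vE n β (σ (rep i j)) (e j) := by
    refine gradOf_congr (gradOf_sum univ fun i _ => gradOf_const_mul (gradOf_sum univ fun σ _ =>
      (gradOf_repW σ).mul (gradOf_const (∏ j, vE n β (σ (rep i j)) (e j)))) (c i)) fun a G => ?_
    simp
  refine gradOf_congr h fun a G => ?_
  simp only [gForm, Fintype.sum_prod_type]
  refine sum_congr rfl fun i _ => ?_
  set P : (Fin p → Fin n → Bool) → ℝ := fun σ => ∏ j, vE n β (σ (rep i j)) (e j)
  have hr : ∀ r : Fin (p + 1), ∑ τ : Fin (p + 1) → Fin n → Bool, repW n β τ G *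
      ∏ j, vE n β (τ (nextR rep (i, r) j)) ((Fin.cons a e : Fin (p + 1) → Edge n) j) =
      ∑ σ : Fin p → Fin n → Bool, (∑ s, wgt 1 (vE n β) s G *
        vE n β ((Fin.cons s σ : Fin (p + 1) → Fin n → Bool) r) a) * (repW n β σ G * P σ) := by
    intro r
    rw [← (Fin.consEquiv fun _ => Fin n → Bool).sum_comp, Fintype.sum_prod_type, sum_comm]
    refine sum_congr rfl fun σ _ => ?_
    rw [sum_mul]
    refine sum_congr rfl fun s _ => ?_
    simp only [Fin.consEquiv_apply, repW, Fin.prod_univ_succ, nextR, Fin.cons_zero, Fin.cons_succ, P]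
    ring
  simp only [hr, Fin.sum_univ_succ, Fin.cons_zero, Fin.cons_succ, nextC, Fin.succ_ne_zero,
    if_true, if_false, mul_one, mul_sum]
  rw [sum_comm (γ := Fin p), ← sum_add_distrib]
  refine sum_congr rfl fun σ _ => ?_
  simp only [← sum_mul, sum_wgt, one_mul, ← mul_sum, avgCoef, P]
  ring

lemma dFree_cons_eq {l : List (Edge n)} {g : Edge n → Arr n → ℝ} (h : GradOf (dFree n β l) g)
    (a : Edge n) : dFree n β (a :: l) = g a := by
  funext G
  have h' := h G (fun b => if b = a then 1 else 0)
  simp only [mul_ite, mul_one, mul_zero, ite_mul, one_mul, zero_mul, sum_ite_eq', mem_univ,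
    if_true] at h'
  exact h'.deriv

/-- The first derivative. -/
lemma gradOf_extFree (n : ℕ) (β : ℝ) : GradOf (dFree n β []) fun a =>
    gForm n β (fun _ : Unit => 1) (fun _ => id) (fun _ : Fin 1 => a) := by
  refine gradOf_congr (g := avgCoef 1 (vE n β)) ?_ fun a G => ?_
  · rw [show dFree n β [] = extFree n β from rfl, extFree_eq]
    exact gradOf_lse one_ne_zero _
  · simp only [gForm, avgCoef, repW, univ_unique, sum_singleton, prod_singleton, one_mul, id_eq]
    rw [← (Equiv.funUnique (Fin 1) (Fin n → Bool)).symm.sum_comp]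
    rfl

/-- Every derivative of positive order is a combination of Gibbs averages. -/
lemma exists_gForm (n : ℕ) (β : ℝ) : ∀ p : ℕ, ∃ (I : Type) (_ : Fintype I) (c : I → ℝ)
    (rep : I → Fin (p + 1) → Fin (p + 1)), ∑ i, |c i| ≤ 2 ^ p * p.factorial ∧
      ∀ e : Fin (p + 1) → Edge n, dFree n β (List.ofFn e) = gForm n β c rep e := by
  intro p
  induction p with
  | zero =>
    refine ⟨Unit, inferInstance, fun _ => 1, fun _ => id, by simp, fun e => ?_⟩
    rw [List.ofFn_succ, List.ofFn_zero, dFree_cons_eq (gradOf_extFree n β)]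
    congr 1
    funext j
    rw [Subsingleton.elim j 0]
  | succ p ih =>
    obtain ⟨I, _, c, rep, hc, he⟩ := ih
    refine ⟨I × Fin (p + 1 + 1), inferInstance, nextC c, nextR rep, ?_, fun e => ?_⟩
    · rw [sum_abs_nextC]
      refine (mul_le_mul_of_nonneg_left hc (by positivity)).trans_eq ?_
      rw [Nat.factorial_succ, pow_succ]
      push_cast
      ring
    · rw [List.ofFn_succ, dFree_cons_eq (by rw [he]; exact gradOf_gForm c rep _)]
      congr 1
      exact Fin.cons_self_tail e

lemma exists_gForm_list (l : List (Edge n)) :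
    ∃ (I : Type) (_ : Fintype I) (c : I → ℝ) (rep : I → Fin (l.length + 1) → Fin (l.length + 1)),
      ∀ b : Edge n, dFree n β (b :: l) = gForm n β c rep (Fin.cons b l.get) := by
  obtain ⟨I, _, c, rep, -, he⟩ := exists_gForm n β l.length
  refine ⟨I, inferInstance, c, rep, fun b => ?_⟩
  rw [← he, List.ofFn_succ]
  simp

lemma gradOf_dFree : ∀ l : List (Edge n),
    GradOf (dFree n β l) fun a => dFree n β (a :: l)
  | [] => gradOf_congr (gradOf_extFree n β) fun a G => by rw [dFree_cons_eq (gradOf_extFree n β)]
  | b :: l => by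
    obtain ⟨I, _, c, rep, h⟩ := exists_gForm_list (β := β) l
    have hg : GradOf (dFree n β (b :: l)) fun a =>
        gForm n β (nextC c) (nextR rep) (Fin.cons a (Fin.cons b l.get)) := by
      rw [h]; exact gradOf_gForm _ _ _
    exact gradOf_congr hg fun a G => by rw [dFree_cons_eq hg]

lemma tame_dFree : ∀ l : List (Edge n), Tame (dFree n β l)
  | [] => by
    rw [show dFree n β [] = extFree n β from rfl, extFree_eq]
    exact tame_lse one_pos _
  | b :: l => by
    obtain ⟨I, _, c, rep, h⟩ := exists_gForm_list (β := β) l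
    rw [h]; exact tame_gForm _ _ _

lemma dFree_swap (a : Edge n) (l : List (Edge n)) :
    dFree n β (a.swap :: l) = dFree n β (a :: l) := by
  obtain ⟨I, _, c, rep, h⟩ := exists_gForm_list (β := β) l
  rw [h, h]
  funext G
  simp only [gForm]
  refine sum_congr rfl fun i _ => congrArg _ (sum_congr rfl fun σ _ => congrArg _ ?_)
  refine prod_congr rfl fun j _ => ?_
  cases j using Fin.cases with
  | zero => simp [vE_swap]
  | succ j => simp

lemma closed_form (n : ℕ) (β : ℝ) (p : ℕ) (hp : 0 < p) (G : Arr n) :
    ∃ (N : ℕ) (c : Fin N → ℝ) (u : Fin N → Sl p → Fin n → ℝ),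
      ∑ i, |c i| ≤ |coef n β| ^ p * (2 ^ p * p.factorial) ∧ (∀ i l v, |u i l v| ≤ 1) ∧
        ∀ e : Fin p → Edge n, dFree n β (List.ofFn e) G =
          ∑ i, c i * ∏ j, u i (j, false) (e j).1 * u i (j, true) (e j).2 := by
  obtain ⟨q, rfl⟩ : ∃ q, p = q + 1 := ⟨p - 1, by omega⟩
  obtain ⟨I, _, c, rep, hc, he⟩ := exists_gForm n β q
  let J := I × (Fin (q + 1) → Fin n → Bool)
  let eqv := (Fintype.equivFin J).symm
  refine ⟨Fintype.card J, fun k => coef n β ^ (q + 1) * (c (eqv k).1 * repW n β (eqv k).2 G),
    fun k l v => spin ((eqv k).2 (rep (eqv k).1 l.1) v), ?_, fun i l v => (abs_spin _).le, fun e => ?_⟩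
  · rw [eqv.sum_comp (fun x : J => |coef n β ^ (q + 1) * (c x.1 * repW n β x.2 G)|)]
    simp only [abs_mul, abs_pow, ← mul_sum]
    refine mul_le_mul_of_nonneg_left ?_ (by positivity)
    rw [Fintype.sum_prod_type]
    have h1 : ∑ σ : Fin (q + 1) → Fin n → Bool, |repW n β σ G| = 1 := by
      refine (sum_congr rfl fun σ _ => abs_of_nonneg
        (prod_nonneg fun r _ => wgt_nonneg 1 (vE n β) (σ r) G)).trans ?_
      simp only [repW]
      rw [← Fintype.prod_sum fun (_ : Fin (q + 1)) s => wgt 1 (vE n β) s G]
      simp [sum_wgt]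
    simp only [← mul_sum, h1, mul_one]
    refine hc.trans ?_
    have h2 : (2 : ℝ) ^ q ≤ 2 ^ (q + 1) := pow_le_pow_right₀ one_le_two (by omega)
    have h3 : (q.factorial : ℝ) ≤ ((q + 1).factorial : ℝ) := by
      exact_mod_cast Nat.factorial_le (by omega)
    exact mul_le_mul h2 h3 (Nat.cast_nonneg _) (by positivity)
  · rw [he, eqv.sum_comp (fun x : J => coef n β ^ (q + 1) * (c x.1 * repW n β x.2 G) *
      ∏ j, spin (x.2 (rep x.1 j) (e j).1) * spin (x.2 (rep x.1 j) (e j).2)), Fintype.sum_prod_type]
    simp only [gForm, vE, pairSpin, prod_mul_distrib, prod_const, card_univ, Fintype.card_fin,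
      mul_sum]
    exact sum_congr rfl fun i _ => sum_congr rfl fun σ _ => by ring

/-! ### Hermite polynomials -/

lemma symDelta_comm (e f : Edge n) : symDelta e f = symDelta f e := by
  have : (e = f.swap) ↔ (f = e.swap) := ⟨fun h => by simp [h], fun h => by simp [h]⟩
  simp only [symDelta, eq_comm (a := e) (b := f), this]

lemma symDelta_swap_left (e f : Edge n) : symDelta e.swap f = symDelta e f := by
  have h1 : (e.swap = f) ↔ (e = f.swap) := ⟨fun h => by simp [← h], fun h => by simp [h]⟩
  simp only [symDelta, Prod.swap_inj, h1]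
  ring

lemma symDelta_nonneg (e f : Edge n) : 0 ≤ symDelta e f := by
  unfold symDelta; positivity

lemma sum_symDelta (e : Edge n) : ∑ f, symDelta e f = 1 := by
  have : ∀ f : Edge n, (e = f.swap) ↔ (e.swap = f) :=
    fun f => ⟨fun h => by simp [h], fun h => by simp [← h]⟩
  simp only [symDelta, ← sum_div, sum_add_distrib, this, sum_ite_eq, mem_univ, if_true]
  norm_num

/-- The contraction of `a` with a list. -/
noncomputable def contr (a : Edge n) (l : List (Edge n)) (G : Arr n) : ℝ :=
  ((sel l).map fun p => symDelta a p.1 * he p.2 G).sum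

lemma he_nil (G : Arr n) : he [] G = 1 := by rw [he]

lemma he_cons (e : Edge n) (l : List (Edge n)) (G : Arr n) :
    he (e :: l) G = symE G e * he l G - contr e l G := by
  rw [he]
  simp only [contr]
  congr 2
  exact List.attach_map_val (l := sel l) (f := fun p => symDelta e p.1 * he p.2 G)

lemma selPair_symm {α : Type*} : ∀ (l : List α) (φ : α → α → List α → ℝ),
    ((sel l).map fun p => ((sel p.2).map fun q => φ p.1 q.1 q.2).sum).sum =
      ((sel l).map fun p => ((sel p.2).map fun q => φ q.1 p.1 q.2).sum).sum
  | [], _ => by simp [sel]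
  | x :: l, φ => by
    have ih := selPair_symm l fun a b r => φ a b (x :: r)
    simp only [sel, List.map_cons, List.map_map, Function.comp_def, List.sum_cons,
      List.sum_map_add] at ih ⊢
    linarith

lemma selSum_perm {α : Type*} {l l' : List α} (h : l.Perm l') :
    ∀ φ : α → List α → ℝ, (∀ f r r', r.Perm r' → r.length < l.length → φ f r = φ f r') →
      ((sel l).map fun p => φ p.1 p.2).sum = ((sel l').map fun p => φ p.1 p.2).sum := by
  induction h with
  | nil => simp
  | @cons x l l' h ih =>
    intro φ hφ
    simp only [sel, List.map_cons, List.map_map, Function.comp_def, List.sum_cons]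
    rw [hφ x l l' h (by simp)]
    congr 1
    exact ih (fun f r => φ f (x :: r)) fun f r r' hr hlen =>
      hφ f _ _ (hr.cons x) (by simp; omega)
  | swap x y l =>
    intro φ hφ
    simp only [sel, List.map_cons, List.map_map, Function.comp_def, List.sum_cons]
    have : ∀ p ∈ sel l, φ p.1 (y :: x :: p.2) = φ p.1 (x :: y :: p.2) := fun p hp =>
      hφ p.1 _ _ (List.Perm.swap _ _ _) (by have := length_of_mem_sel hp; simp; omega)
    rw [List.map_congr_left this]
    ring
  | trans h h' ih ih' =>
    intro φ hφ
    rw [ih φ hφ]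
    exact ih' φ fun f r r' hr hlen => hφ f r r' hr (by rw [h.length_eq]; exact hlen)

lemma he_perm (G : Arr n) : ∀ (N : ℕ) {l l' : List (Edge n)}, l.length ≤ N → l.Perm l' →
    he l G = he l' G := by
  intro N
  induction N with
  | zero => intro l l' hl h; rw [List.length_eq_zero_iff.1 (Nat.le_zero.1 hl)] at h ⊢
            rw [List.nil_perm.1 h]
  | succ N ih =>
    intro l l' hl h
    induction h with
    | nil => rfl
    | @cons x l l' h _ =>
      simp only [List.length_cons] at hl
      rw [he_cons, he_cons, ih (by omega) h]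
      congr 1
      exact selSum_perm h (fun f r => symDelta x f * he r G) fun f r r' hr hlen => by
        rw [ih (by omega) hr]
    | swap x y l =>
      simp only [List.length_cons] at hl
      have expand : ∀ e f : Edge n, he (e :: f :: l) G = symE G e * symE G f * he l G -
          symE G e * contr f l G - symDelta e f * he l G - symE G f * contr e l G +
          ((sel l).map fun p => ((sel p.2).map fun q =>
            symDelta e p.1 * symDelta f q.1 * he q.2 G).sum).sum := by
        intro e f
        rw [he_cons, he_cons]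
        have hc : contr e (f :: l) G = symDelta e f * he l G + symE G f * contr e l G -
            ((sel l).map fun p => ((sel p.2).map fun q =>
              symDelta e p.1 * symDelta f q.1 * he q.2 G).sum).sum := by
          simp only [contr, sel, List.map_cons, List.map_map, Function.comp_def, List.sum_cons,
            he_cons, add_sub_assoc]
          congr 1
          rw [← List.sum_map_mul_left]
          induction sel l with
          | nil => simp
          | cons p L ihL =>
            simp only [List.map_cons, List.sum_cons, ihL]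
            simp only [mul_sub, mul_assoc, List.sum_map_mul_left]
            ring
        rw [hc]
        ring
      rw [expand, expand, symDelta_comm y x,
        selPair_symm l fun a b r => symDelta y a * symDelta x b * he r G]
      simp only [mul_comm (symDelta y _) (symDelta x _)]
      ring
    | trans h₁ h₂ ih₁ ih₂ => exact (ih₁ hl).trans (ih₂ (by rw [← h₁.length_eq]; exact hl))

lemma gradOf_symE (e : Edge n) :
    GradOf (fun G => symE G e) fun a _ => symDelta e a := by
  intro G v
  have h1 := fun b : Edge n => ((hasDerivAt_id (0 : ℝ)).mul_const (v b)).const_add (G b)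
  refine (((h1 e).fun_add (h1 e.swap)).div_const 2).congr_deriv ?_
  have : ∀ a : Edge n, (e = a.swap) ↔ (e.swap = a) :=
    fun a => ⟨fun h => by simp [h], fun h => by simp [← h]⟩
  simp only [symDelta, this, mul_div_assoc', mul_add, mul_ite, mul_one, mul_zero, ← sum_div,
    sum_add_distrib, sum_ite_eq, mem_univ, if_true, one_mul]

lemma tame_he : ∀ (N : ℕ) (l : List (Edge n)), l.length ≤ N → Tame (he l)
  | _, [], _ => by
    rw [show he ([] : List (Edge n)) = fun _ => 1 from funext he_nil]
    exact tame_const 1
  | 0, _ :: _, h => by simp at h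
  | N + 1, e :: l, h => by
    simp only [List.length_cons] at h
    rw [show he (e :: l) = fun G => symE G e * he l G - contr e l G from funext (he_cons e l)]
    refine Tame.sub (Tame.mul ?_ (tame_he N l (by omega))) (tame_listSum _ fun p hp =>
      (tame_const _).mul (tame_he N p.2 (by have := length_of_mem_sel hp; omega)))
    have h2 := ((tame_coord e).add (tame_coord e.swap)).mul (tame_const (ι := Edge n) (1 / 2))
    convert h2 using 1
    funext G
    simp only [symE]
    ring

lemma tame_contr (a : Edge n) (l : List (Edge n)) : Tame (contr a l) :=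
  tame_listSum _ fun p _ => (tame_const _).mul (tame_he _ p.2 le_rfl)

lemma gradOf_he : ∀ (N : ℕ) (l : List (Edge n)), l.length ≤ N →
    GradOf (he l) fun a => contr a l
  | _, [], _ => by
    rw [show he ([] : List (Edge n)) = fun _ => 1 from funext he_nil]
    exact gradOf_congr (gradOf_const 1) fun a G => by simp [contr, sel]
  | 0, _ :: _, h => by simp at h
  | N + 1, e :: l, h => by
    simp only [List.length_cons] at h
    rw [show he (e :: l) = fun G => symE G e * he l G - contr e l G from funext (he_cons e l)]
    have hc : GradOf (contr e l) fun a G =>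
        ((sel l).map fun p => symDelta e p.1 * contr a p.2 G).sum :=
      gradOf_listSum _ fun p hp => gradOf_const_mul
        (gradOf_he N p.2 (by have := length_of_mem_sel hp; omega)) _
    refine gradOf_congr (gradOf_sub ((gradOf_symE e).mul (gradOf_he N l (by omega))) hc)
      fun a G => ?_
    have hsym := selPair_symm l fun g g' r => symDelta e g * symDelta a g' * he r G
    have h1 : contr a (e :: l) G = symDelta a e * he l G + symE G e * contr a l G -
        ((sel l).map fun p => symDelta a p.1 * contr e p.2 G).sum := by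
      simp only [contr, sel, List.map_cons, List.map_map, Function.comp_def, List.sum_cons,
        he_cons, add_sub_assoc]
      congr 1
      rw [← List.sum_map_mul_left]
      induction sel l with
      | nil => simp
      | cons p L ihL => simp only [List.map_cons, List.sum_cons, ihL]; ring
    have h2 : ((sel l).map fun p => symDelta e p.1 * contr a p.2 G).sum =
        ((sel l).map fun p => symDelta a p.1 * contr e p.2 G).sum := by
      simp only [contr, ← List.sum_map_mul_left, ← mul_assoc]
      rw [hsym]
      exact congrArg List.sum (List.map_congr_left fun p _ => congrArg List.sum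
        (List.map_congr_left fun q _ => by ring))
    rw [h1, h2, symDelta_comm a e]

/-! ### Integration by parts -/

lemma integral_he_cons {F : Arr n → ℝ} {g : Edge n → Arr n → ℝ} (hF : Tame F)
    (hg : ∀ a, Tame (g a)) (hgrad : GradOf F g) (a : Edge n) (hsym : g a.swap = g a)
    (l : List (Edge n)) :
    ∫ G, F G * he (a :: l) G ∂gauss (Edge n) = ∫ G, g a G * he l G ∂gauss (Edge n) := by
  have hl := tame_he _ l le_rfl
  have hfl := hF.mul hl
  have hprod : ∀ b, Tame fun G => g b G * he l G + F G * contr b l G :=
    fun b => ((hg b).mul hl).add (hF.mul (tame_contr b l))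
  have ibp := fun b => gauss_ibp hfl hprod (hgrad.mul (gradOf_he _ l le_rfl)) b
  have hcs : contr a.swap l = contr a l := by
    funext G; simp [contr, symDelta_swap_left]
  have e1 : ∀ G : Arr n, F G * he (a :: l) G =
      (G a * (F G * he l G) + G a.swap * (F G * he l G)) / 2 - F G * contr a l G := fun G => by
    rw [he_cons, symE]; ring
  simp only [e1]
  have i1 := ((tame_coord a).mul hfl).integrable
  have i2 := ((tame_coord a.swap).mul hfl).integrable
  have i3 := (hF.mul (tame_contr a l)).integrable
  rw [integral_sub ((i1.fun_add i2).div_const 2) i3, integral_div, integral_add i1 i2, ibp a,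
    ibp a.swap, hsym, hcs,
    integral_add ((hg a).mul hl).integrable i3]
  ring

lemma integral_dFree_he : ∀ (l acc r : List (Edge n)),
    ∫ G, dFree n β acc G * he (l ++ r) G ∂gauss (Edge n) =
      ∫ G, dFree n β (l.reverse ++ acc) G * he r G ∂gauss (Edge n)
  | [], acc, r => by simp
  | a :: l, acc, r => by
    rw [List.cons_append, integral_he_cons (tame_dFree acc) (fun b => tame_dFree (b :: acc))
      (gradOf_dFree acc) a (dFree_swap a acc), integral_dFree_he l (a :: acc) r,
      List.reverse_cons, List.append_assoc]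
    rfl

lemma tW_split (n : ℕ) (β : ℝ) (k : ℕ) (w : Fin k → Edge n) (l₁ l₂ : List (Edge n))
    (h : (List.ofFn w).Perm (l₁ ++ l₂)) :
    tW n β w = ∫ G, dFree n β l₁ G * he l₂ G ∂gauss (Edge n) := by
  have hp : (List.ofFn w).Perm (l₁.reverse ++ l₂) :=
    h.trans ((List.reverse_perm l₁).symm.append_right l₂)
  have := integral_dFree_he (β := β) l₁.reverse [] l₂
  rw [List.reverse_reverse, List.append_nil] at this
  rw [← this, tW]
  exact integral_congr_ae (.of_forall fun G => by
    show extFree n β G * _ = dFree n β [] G * _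
    rw [show dFree n β [] = extFree n β from rfl, he_perm G _ le_rfl hp])

/-- The pairing of two Hermite polynomials. -/
noncomputable def pairing (l l' : List (Edge n)) : ℝ := ∫ G, he l G * he l' G ∂gauss (Edge n)

lemma pairing_cons (a : Edge n) (l l' : List (Edge n)) :
    pairing (a :: l) l' = ((sel l').map fun p => symDelta a p.1 * pairing l p.2).sum := by
  have hsym : contr a.swap l' = contr a l' := funext fun G => by simp [contr, symDelta_swap_left]
  have h := integral_he_cons (tame_he _ l' le_rfl) (fun b => tame_contr b l')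
    (gradOf_he _ l' le_rfl) a hsym l
  simp only [pairing, mul_comm (he (a :: l) _)]
  rw [h]
  simp only [contr]
  induction sel l' with
  | nil => simp
  | cons p L ih =>
    simp only [List.map_cons, List.sum_cons, add_mul]
    have i1 : Integrable (fun G => symDelta a p.1 * he p.2 G * he l G) (gauss (Edge n)) :=
      (((tame_const _).mul (tame_he _ p.2 le_rfl)).mul (tame_he _ l le_rfl)).integrable
    have i2 : Integrable (fun G => (L.map fun q => symDelta a q.1 * he q.2 G).sum * he l G)
        (gauss (Edge n)) :=
      ((tame_listSum _ fun q _ => (tame_const _).mul (tame_he _ q.2 le_rfl)).mul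
        (tame_he _ l le_rfl)).integrable
    rw [integral_add i1 i2, ih, ← integral_const_mul]
    congr 1
    exact integral_congr_ae (.of_forall fun G => by ring)

lemma pairing_nonneg : ∀ l l' : List (Edge n), 0 ≤ pairing l l'
  | [], [] => by simp [pairing, he_nil]
  | [], b :: l' => by
    have : pairing ([] : List (Edge n)) (b :: l') = pairing (b :: l') [] := by
      simp [pairing, mul_comm]
    rw [this, pairing_cons]
    simp [sel]
  | a :: l, l' => by
    rw [pairing_cons]
    refine List.sum_nonneg fun x hx => ?_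
    obtain ⟨p, -, rfl⟩ := List.mem_map.1 hx
    exact mul_nonneg (symDelta_nonneg _ _) (pairing_nonneg l p.2)

lemma sum_sel_ofFn : ∀ (m : ℕ) (ψ : Edge n → List (Edge n) → ℝ),
    ∑ w : Fin (m + 1) → Edge n, ((sel (List.ofFn w)).map fun p => ψ p.1 p.2).sum =
      (m + 1 : ℕ) * ∑ g, ∑ w : Fin m → Edge n, ψ g (List.ofFn w) := by
  intro m
  induction m with
  | zero =>
    intro ψ
    rw [← (Fin.consEquiv fun _ => Edge n).sum_comp
      (fun w => ((sel (List.ofFn w)).map fun p => ψ p.1 p.2).sum), Fintype.sum_prod_type]
    simp [sel]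
  | succ m ih =>
    intro ψ
    rw [← (Fin.consEquiv fun _ => Edge n).sum_comp
      (fun w => ((sel (List.ofFn w)).map fun p => ψ p.1 p.2).sum), Fintype.sum_prod_type]
    simp only [show ∀ (x : Edge n) (y : Fin (m + 1) → Edge n),
        (Fin.consEquiv fun _ => Edge n) (x, y) = Fin.cons x y from fun _ _ => rfl,
      List.ofFn_cons, sel, List.map_cons, List.map_map,
      Function.comp_def, List.sum_cons, sum_add_distrib]
    have h : ∀ x : Edge n, ∑ w : Fin (m + 1) → Edge n,
        ((sel (List.ofFn w)).map fun p => ψ p.1 (x :: p.2)).sum =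
        (m + 1 : ℕ) * ∑ g, ∑ w : Fin m → Edge n, ψ g (x :: List.ofFn w) :=
      fun x => ih fun g r => ψ g (x :: r)
    simp only [h, ← mul_sum]
    have h' : ∑ x : Edge n, ∑ g, ∑ w : Fin m → Edge n, ψ g (x :: List.ofFn w) =
        ∑ g, ∑ w : Fin (m + 1) → Edge n, ψ g (List.ofFn w) := by
      rw [sum_comm]
      refine sum_congr rfl fun g _ => ?_
      conv_rhs => rw [← (Fin.consEquiv fun _ => Edge n).sum_comp (fun w => ψ g (List.ofFn w)),
        Fintype.sum_prod_type]
      simp [Fin.consEquiv]
    rw [h']
    push_cast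
    ring

lemma sum_pairing : ∀ (m : ℕ) (l : List (Edge n)), l.length = m →
    ∑ w : Fin m → Edge n, pairing l (List.ofFn w) = m.factorial
  | 0, l, h => by
    rw [List.length_eq_zero_iff.1 h]
    simp [pairing, he_nil]
  | m + 1, [], h => by simp at h
  | m + 1, a :: l, h => by
    simp only [pairing_cons, sum_sel_ofFn m fun g r => symDelta a g * pairing l r, ← mul_sum,
      sum_pairing m l (by simpa using h), ← sum_mul, sum_symDelta, one_mul, Nat.factorial_succ,
      Nat.cast_mul]

lemma norm_le (m : ℕ) (h : (Fin m → Edge n) → ℝ) :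
    ∫ G, (∑ w, h w * he (List.ofFn w) G) ^ 2 ∂gauss (Edge n) ≤ m.factorial * ∑ w, h w ^ 2 := by
  have hi : ∀ w w' : Fin m → Edge n, Integrable
      (fun G => h w * h w' * (he (List.ofFn w) G * he (List.ofFn w') G)) (gauss (Edge n)) :=
    fun w w' => ((tame_const _).mul ((tame_he _ _ le_rfl).mul (tame_he _ _ le_rfl))).integrable
  have e1 : ∀ G : Arr n, (∑ w, h w * he (List.ofFn w) G) ^ 2 =
      ∑ w, ∑ w', h w * h w' * (he (List.ofFn w) G * he (List.ofFn w') G) := fun G => by
    rw [sq, sum_mul_sum]
    exact sum_congr rfl fun w _ => sum_congr rfl fun w' _ => by ring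
  simp only [e1]
  rw [integral_finsetSum _ fun w _ => integrable_finsetSum _ fun w' _ => hi w w']
  simp only [integral_finsetSum _ fun w' _ => hi _ w', integral_const_mul]
  have hcomm : ∀ w w' : Fin m → Edge n, pairing (List.ofFn w) (List.ofFn w') =
      pairing (List.ofFn w') (List.ofFn w) := fun w w' => by simp [pairing, mul_comm]
  calc ∑ w, ∑ w', h w * h w' * pairing (List.ofFn w) (List.ofFn w')
      ≤ ∑ w, ∑ w', ((h w ^ 2 + h w' ^ 2) / 2) * pairing (List.ofFn w) (List.ofFn w') :=
        sum_le_sum fun w _ => sum_le_sum fun w' _ => mul_le_mul_of_nonneg_right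
          (by nlinarith [sq_nonneg (h w - h w')]) (pairing_nonneg _ _)
    _ = ∑ w, h w ^ 2 * ∑ w', pairing (List.ofFn w) (List.ofFn w') := by
        simp only [add_div, add_mul, sum_add_distrib, mul_sum]
        rw [sum_comm (f := fun w w' => h w' ^ 2 / 2 * pairing (List.ofFn w) (List.ofFn w')),
          ← sum_add_distrib]
        refine sum_congr rfl fun w _ => ?_
        rw [← sum_add_distrib]
        refine sum_congr rfl fun w' _ => ?_
        rw [hcomm w' w]
        ring
    _ = m.factorial * ∑ w, h w ^ 2 := by
        simp only [sum_pairing m _ (List.length_ofFn), mul_sum]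
        exact sum_congr rfl fun w _ => mul_comm _ _

/-- Derivatives and Hermite coefficients. -/
theorem calc_statement : CalcStatement := fun n β _ =>
  ⟨fun l => ⟨tame_dFree l, gradOf_dFree l⟩, closed_form n β, fun l => tame_he _ l le_rfl,
    fun k w l₁ l₂ h => tW_split n β k w l₁ l₂ h, norm_le⟩

end Vale.Agent.P146.Power
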