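import Vale.Agent.P146.Power.Defs

/-!
Elementary inequalities for the pairing bound.
-/

namespace Vale.Agent.P146.Power

open MeasureTheory Finset

/-- Cauchy-Schwarz for integrals. -/
lemma cs_integral {Ω : Type*} [MeasurableSpace Ω] {μ : Measure Ω} {f h : Ω → ℝ}
    (hf : Integrable (fun ω => f ω ^ 2) μ) (hh : Integrable (fun ω => h ω ^ 2) μ)
    (hfh : Integrable (fun ω => f ω * h ω) μ) :
    (∫ ω, f ω * h ω ∂μ) ^ 2 ≤ (∫ ω, f ω ^ 2 ∂μ) * ∫ ω, h ω ^ 2 ∂μ := by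
  have hq : ∀ t : ℝ, 0 ≤ (∫ ω, f ω ^ 2 ∂μ) * (t * t) + (2 * ∫ ω, f ω * h ω ∂μ) * t +
      ∫ ω, h ω ^ 2 ∂μ := by
    intro t
    have h0 : 0 ≤ ∫ ω, (t * f ω + h ω) ^ 2 ∂μ := integral_nonneg fun ω => sq_nonneg _
    have e : (fun ω => (t * f ω + h ω) ^ 2) =
        fun ω => t ^ 2 * f ω ^ 2 + 2 * t * (f ω * h ω) + h ω ^ 2 := by funext ω; ring
    rw [e, integral_add (by exact (hf.const_mul _).add (hfh.const_mul _)) hh,
      integral_add (hf.const_mul _) (hfh.const_mul _), integral_const_mul,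
      integral_const_mul] at h0
    linarith
  have := discrim_le_zero hq
  rw [discrim] at this
  linarith

/-- A product of bounded factors against a vector, by Cauchy-Schwarz. -/
lemma abs_sum_prod_le {n : ℕ} {Q : Type} [Fintype Q] [DecidableEq Q] (T : (Q → Fin n) → ℝ)
    (u : Q → Fin n → ℝ) (hu : ∀ q v, |u q v| ≤ 1) :
    |∑ x : Q → Fin n, T x * ∏ q, u q (x q)| ≤
      Real.sqrt ((n : ℝ) ^ Fintype.card Q * ∑ x, T x ^ 2) := by
  refine Real.abs_le_sqrt ((sum_mul_sq_le_sq_mul_sq _ _ _).trans ?_)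
  rw [mul_comm ((n : ℝ) ^ _)]
  refine mul_le_mul_of_nonneg_left ?_ (sum_nonneg fun x _ => sq_nonneg _)
  have h1 : ∀ x : Q → Fin n, (∏ q, u q (x q)) ^ 2 ≤ 1 := fun x => by
    rw [← sq_abs, abs_prod]
    exact pow_le_one₀ (prod_nonneg fun q _ => abs_nonneg _)
      (prod_le_one (fun q _ => abs_nonneg _) fun q _ => hu q _)
  exact (sum_le_sum fun x _ => h1 x).trans_eq (by simp)

/-- Contraction with the representation of a derivative. -/
lemma abs_contract_le {N : ℕ} {X : Type} [Fintype X] (c a : Fin N → ℝ) (ha : ∀ i, |a i| ≤ 1)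
    (v : Fin N → X → ℝ) (T : X → ℝ) {B : ℝ} (hB : ∀ i, |∑ x, T x * v i x| ≤ B) :
    |∑ x, (∑ i, c i * (a i * v i x)) * T x| ≤ (∑ i, |c i|) * B := by
  have e : ∑ x, (∑ i, c i * (a i * v i x)) * T x = ∑ i, c i * (a i * ∑ x, T x * v i x) := by
    simp only [sum_mul, mul_sum]
    rw [sum_comm]
    exact sum_congr rfl fun i _ => sum_congr rfl fun x _ => by ring
  rw [e, sum_mul]
  refine (abs_sum_le_sum_abs _ _).trans (sum_le_sum fun i _ => ?_)
  rw [abs_mul, abs_mul]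
  exact mul_le_mul_of_nonneg_left
    ((mul_le_of_le_one_left (abs_nonneg _) (ha i)).trans (hB i)) (abs_nonneg _)

end Vale.Agent.P146.Power
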