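import Vale.Agent.P146.Power.Split
import Vale.Agent.P146.Power.Tools

/-!
The coefficients against the extension of the patterns of one core.
-/

namespace Vale.Agent.P146.Power

open MeasureTheory Finset
open Vale.Agent.P157 (gauss)
open Vale.Agent.P157.Parisi (Tame GradOf tame_sum)

variable {n K k r : ℕ}

attribute [local irreducible] slotEquiv stubs zOf ext

/-- A likely set inside the good event. -/
def GoodSet (n K : ℕ) (s : Set (Arr n)) : Prop :=
  MeasurableSet s ∧ (∀ G ∈ s, GoodArr K G) ∧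
    (gauss (Edge n)).real sᶜ ≤ ((n : ℝ) ^ (100 * (K + 1)))⁻¹

/-- The constant of one core. -/
noncomputable def coreBd (β : ℝ) (K p : ℕ) : ℝ :=
  4 * (2 * β ^ 2) ^ p * (p.factorial : ℝ) ^ 2 * (20 * ((K : ℝ) + 1)) ^ (12 * p)

lemma coef_pow_mul (hn : 0 < n) (β : ℝ) (p P j : ℕ) (hp : p = P + j) :
    (|coef n β| ^ p * (2 ^ p * (p.factorial : ℝ))) ^ 2 * (n : ℝ) ^ P =
      (2 * β ^ 2) ^ p * (p.factorial : ℝ) ^ 2 / (n : ℝ) ^ j := by
  have hn' : (0 : ℝ) < n := by exact_mod_cast hn
  have e : |coef n β| ^ 2 = β ^ 2 / (2 * n) := by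
    rw [sq_abs, coef, div_pow, Real.sq_sqrt (by positivity)]
  have e2 : (|coef n β| ^ p * (2 ^ p * (p.factorial : ℝ))) ^ 2 =
      (4 * (β ^ 2 / (2 * n))) ^ p * (p.factorial : ℝ) ^ 2 := by
    rw [mul_pow, mul_pow, pow_right_comm, e, pow_right_comm (2 : ℝ) p 2, mul_pow (4 : ℝ)]
    norm_num
    ring
  rw [e2, show 4 * (β ^ 2 / (2 * (n : ℝ))) = 2 * β ^ 2 / n by field_simp; ring, div_pow,
    show (n : ℝ) ^ p = (n : ℝ) ^ P * (n : ℝ) ^ j by rw [hp, pow_add]]
  field_simp

lemma excess_lt (hk : 1 ≤ k) {p : Pat n k} (hp : p ∈ pats n k r) : r < k := by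
  classical
  obtain ⟨z, hz, -⟩ := mem_pats.1 hp
  obtain ⟨-, hex⟩ := mem_words.1 hz
  have : 0 < (univ.image z).card :=
    card_pos.2 ⟨z (⟨0, hk⟩, false), mem_image_of_mem z (mem_univ _)⟩
  have : excess z = k - (univ.image z).card := rfl
  omega

lemma stubs_pos (hk : 1 ≤ k) (y : Sl k → Option (Fin n)) : 0 < (stubs y).card := by
  unfold stubs
  split
  · next h => exact card_pos.2 (h.image _)
  · exact card_pos.2 ⟨⟨0, hk⟩, by simp⟩

/-- The number of stubs. -/
lemma stubs_le_excess {p : Pat n k} (hp : p ∈ pats n k r) :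
    (stubs (core p)).card ≤ 4 * r + 1 := by
  have := core_card hp
  have := stubs_card_le (core p)
  omega

/-- The tensor of the extension of the patterns of one core is a network. -/
lemma ext_mem_net {y : Sl k → Option (Fin n)} {S : Finset (Pat n k)}
    (hS : ∀ p ∈ S, p ∈ pats n k r ∧ core p = y) (c : Pat n k → ℝ)
    (M : Matrix (Fin n) (Fin n) ℝ) :
    (fun v : Port y ⊕ Sl (stubs y)ᶜ.card → Fin n =>
        ext S c (zOf y (fun q => v (.inl q)) fun b => v (.inr b))) ∈
      Net M (Port y ⊕ Sl (stubs y)ᶜ.card) 0 := by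
  classical
  have e : (fun v : Port y ⊕ Sl (stubs y)ᶜ.card → Fin n =>
        ext S c (zOf y (fun q => v (.inl q)) fun b => v (.inr b))) =
      ∑ q ∈ S, c q • fun v : Port y ⊕ Sl (stubs y)ᶜ.card → Fin n =>
        if Compat (zOf y (fun i => v (.inl i)) fun b => v (.inr b)) q then (1 : ℝ) else 0 := by
    funext v
    simp only [ext, Finset.sum_apply, Pi.smul_apply, smul_eq_mul, mul_ite, mul_one, mul_zero,
      sum_filter]
  rw [e]
  refine Submodule.sum_mem _ fun q hq => Submodule.smul_mem _ _ ?_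
  obtain ⟨hqp, hqy⟩ := hS q hq
  obtain ⟨π, hinv, hfix, hc⟩ := compat_pairing hqp hqy
  convert pairing_mem_net M π hinv hfix using 1
  funext v
  refine if_congr ?_ rfl rfl
  have hv : Sum.elim (fun i => v (.inl i)) (fun b => v (.inr b)) = v := by
    funext i; cases i <;> rfl
  rw [hc, hv]

/-- The chaos contracted with the derivative of the stubs. -/
noncomputable def chaos (y : Sl k → Option (Fin n)) (S : Finset (Pat n k)) (c : Pat n k → ℝ)
    (x : Port y → Fin n) (G : Arr n) : ℝ :=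
  ∑ w : Sl (stubs y)ᶜ.card → Fin n, ext S c (zOf y x w) * he (List.ofFn (edges w)) G

lemma chaos_mem_net (hSp : SpanStatement) {y : Sl k → Option (Fin n)} {S : Finset (Pat n k)}
    (hS : ∀ p ∈ S, p ∈ pats n k r ∧ core p = y) (c : Pat n k → ℝ) (G : Arr n) :
    (fun x => chaos y S c x G) ∈ Net (symMat G) (Port y) (stubs y)ᶜ.card := by
  classical
  have := hSp n G (Port y) _ 0 _ (ext_mem_net hS c (symMat G))
  simp only [Sum.elim_inl, Sum.elim_inr, zero_add] at this
  exact this

lemma tame_chaos (hH : ∀ l : List (Edge n), Tame (he l)) (y : Sl k → Option (Fin n))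
    (S : Finset (Pat n k)) (c : Pat n k → ℝ) (x : Port y → Fin n) : Tame (chaos y S c x) :=
  tame_sum _ fun _ _ => (hH _).const_mul _

/-- The coefficients against the extension are an expectation. -/
lemma pairing_eq_integral (hC : CalcStatement) (hn : 0 < n) (β : ℝ) {y : Sl k → Option (Fin n)}
    {S : Finset (Pat n k)} (hS : ∀ p ∈ S, p ∈ pats n k r ∧ core p = y) (c : Pat n k → ℝ) :
    ∑ z, tHat n β z * ext S c z =
      ∫ G, ∑ x, dFree n β (List.ofFn (edges (full y x))) G * chaos y S c x G ∂gauss (Edge n) := by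
  classical
  obtain ⟨hT, -, hH, hsplit, -⟩ := hC n β hn
  have hDt : ∀ l, Tame (dFree n β l) := fun l => (hT l).1
  have hzero : ∀ z, z ∉ Set.range (fun q : (Port y → Fin n) × (Sl (stubs y)ᶜ.card → Fin n) =>
      zOf y q.1 q.2) → tHat n β z * ext S c z = 0 := by
    intro z hz
    rw [ext, filter_eq_empty_iff.2, sum_empty, mul_zero]
    intro q hq hcq
    obtain ⟨x, w, hxw⟩ := exists_zOf (y := y) (z := z) fun l v hl =>
      (compat_iff.1 hcq).1 l v (core_eq_some.1 (by rw [(hS q hq).2]; exact hl))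
    exact hz ⟨(x, w), hxw⟩
  rw [← Fintype.sum_of_injective _ (zOf_injective y)
    (fun q => tHat n β (zOf y q.1 q.2) * ext S c (zOf y q.1 q.2))
    (fun z => tHat n β z * ext S c z) hzero (fun q => rfl),
    Fintype.sum_prod_type,
    integral_finsetSum _ fun x _ => ((hDt _).mul (tame_chaos hH y S c x)).integrable]
  refine sum_congr rfl fun x _ => ?_
  simp only [chaos, mul_sum]
  rw [integral_finsetSum _ fun w _ => ((hDt _).mul ((hH _).const_mul _)).integrable]
  refine sum_congr rfl fun w _ => ?_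
  simp only [tHat]
  rw [hsplit k _ _ _ (edges_zOf_perm y x w), ← integral_mul_const]
  exact integral_congr_ae (.of_forall fun G => by ring)

/-- A product of factors at fixed and free slots. -/
lemma prod_fixed_free {α : Type} [Fintype α] (o : α → Option (Fin n))
    (x : {a // o a = none} → Fin n) (f : α → Fin n) (h1 : ∀ a h, f a = x ⟨a, h⟩)
    (h2 : ∀ a v, o a = some v → f a = v) (u : α → Fin n → ℝ) :
    ∏ a, u a (f a) = (∏ a, (o a).elim 1 (u a)) * ∏ q : {a // o a = none}, u q.1 (x q) := by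
  classical
  have e : ∀ a, u a (f a) =
      (o a).elim 1 (u a) * if h : o a = none then u a (x ⟨a, h⟩) else 1 := fun a => by
    by_cases ho : o a = none
    · rw [dif_pos ho, h1 a ho, ho]; simp
    · obtain ⟨v, hv⟩ := Option.ne_none_iff_exists'.1 ho
      rw [dif_neg ho, h2 a v hv, hv]; simp
  simp only [e, prod_mul_distrib]
  congr 1
  rw [← prod_subset (subset_univ (univ.filter fun a => o a = none)) fun a _ ha => by
    simp only [mem_filter, mem_univ, true_and] at ha; simp [ha],
    prod_subtype (p := fun a => o a = none) _ (fun a => by simp)]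
  exact prod_congr rfl fun q _ => by rw [dif_pos q.2]

/-- The derivative of the stubs as a combination of product vectors. -/
lemma deriv_rep {p : ℕ} {y : Sl k → Option (Fin n)} (hp : p = (stubs y).card) (hp1 : 0 < p)
    (hC : CalcStatement) (hn : 0 < n) (β : ℝ) (G : Arr n) :
    ∃ (N : ℕ) (c a : Fin N → ℝ) (w : Fin N → Port y → Fin n → ℝ),
      ∑ i, |c i| ≤ |coef n β| ^ p * (2 ^ p * p.factorial) ∧ (∀ i, |a i| ≤ 1) ∧
        (∀ i q v, |w i q v| ≤ 1) ∧
        ∀ x, dFree n β (List.ofFn (edges (full y x))) G =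
          ∑ i, c i * (a i * ∏ q, w i q (x q)) := by
  subst hp
  obtain ⟨N, cc, u, hcs, hu, hrep⟩ := (hC n β hn).2.1 _ hp1 G
  refine ⟨N, cc, fun i => ∏ q, (y (slotEquiv y (.inl q))).elim 1 (u i q),
    fun i q => u i q.1, hcs, ?_, ?_, ?_⟩
  · intro i
    rw [abs_prod]
    refine prod_le_one (fun q _ => abs_nonneg _) fun q _ => ?_
    rcases y (slotEquiv y (.inl q)) with _ | v
    · simp
    · exact hu i q v
  · exact fun i q v => hu i _ v
  intro x
  rw [hrep]
  refine sum_congr rfl fun i _ => congrArg (cc i * ·) ?_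
  have e : ∏ j, u i (j, false) (edges (full y x) j).1 * u i (j, true) (edges (full y x) j).2 =
      ∏ q : Sl (stubs y).card, u i q (full y x q) := by
    rw [Fintype.prod_prod_type]
    simp only [Fintype.prod_bool, edges]
    exact prod_congr rfl fun j _ => mul_comm _ _
  rw [e]
  exact prod_fixed_free (fun q => y (slotEquiv y (.inl q))) x _
    (fun q h => by rw [full, dif_pos h])
    (fun q v h => by
      have hne : ¬ y (slotEquiv y (.inl q)) = none := by simp [h]
      rw [full, dif_neg hne]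
      simp [h]) (u i)

/-- The contraction on and off the good event. -/
lemma contract_bound (hC : CalcStatement) (hE : EigenStatement) (β : ℝ)
    {y : Sl k → Option (Fin n)} {P d : ℕ} (hp1 : 0 < (stubs y).card) (hn0 : 0 < n)
    (hn : (20 * ((K : ℝ) + 1)) ^ 5 ≤ n) (hQ : Fintype.card (Port y) = 2 * P)
    (hPK : P ≤ 4 * K) (hdK : d ≤ K) {s : Set (Arr n)} (hsg : ∀ G ∈ s, GoodArr K G) (G : Arr n)
    {T : (Port y → Fin n) → ℝ} (hT : T ∈ Net (symMat G) (Port y) d) :
    |∑ x, dFree n β (List.ofFn (edges (full y x))) G * T x| ≤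
      |coef n β| ^ (stubs y).card * (2 ^ (stubs y).card * (stubs y).card.factorial) *
        ((20 * ((K : ℝ) + 1)) ^ (6 * P) * Real.sqrt ((n : ℝ) ^ P) +
          sᶜ.indicator (fun _ => (n : ℝ) ^ P) G) * Real.sqrt (∑ x, T x ^ 2) := by
  obtain ⟨N, cc, a, w, hcs, ha, hw, hrep⟩ := deriv_rep rfl hp1 hC hn0 β G
  simp only [hrep]
  set B := (20 * ((K : ℝ) + 1)) ^ (6 * P) * Real.sqrt ((n : ℝ) ^ P) +
    sᶜ.indicator (fun _ => (n : ℝ) ^ P) G
  have hB0 : 0 ≤ B := add_nonneg (by positivity)
    (Set.indicator_nonneg (fun _ _ => by positivity) G)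
  have hb : ∀ i, |∑ x, T x * ∏ q, w i q (x q)| ≤ B * Real.sqrt (∑ x, T x ^ 2) := by
    intro i
    by_cases hG : G ∈ s
    · refine (hE n K G (Port y) P d (hsg G hG) hn0 hQ hPK hdK hn T hT (w i)
        fun q v => hw i q v).trans_eq ?_
      simp only [B, Set.indicator_of_notMem (Set.notMem_compl_iff.2 hG), add_zero]
      rw [Real.sqrt_mul (by positivity)]; ring
    · refine (abs_sum_prod_le T (w i) fun q v => hw i q v).trans ?_
      rw [Real.sqrt_mul (by positivity), hQ, mul_comm 2 P, pow_mul,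
        Real.sqrt_sq (by positivity)]
      refine mul_le_mul_of_nonneg_right ?_ (Real.sqrt_nonneg _)
      simp only [B, Set.indicator_of_mem (Set.mem_compl hG)]
      exact le_add_of_nonneg_left (by positivity)
  have hfin := abs_contract_le cc a ha (X := Port y → Fin n) (fun i x => ∏ q, w i q (x q)) T hb
  refine le_trans hfin ?_
  rw [← mul_assoc]
  exact mul_le_mul_of_nonneg_right (mul_le_mul_of_nonneg_right hcs hB0) (Real.sqrt_nonneg _)

/-- Integration of a bound by a constant plus a rare term. -/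
lemma sq_integral_le {s : Set (Arr n)} (hs : MeasurableSet s) {F S : Arr n → ℝ} (hF : Tame F)
    (hS : Tame S) (hS0 : ∀ G, 0 ≤ S G) {a b : ℝ} (ha : 0 ≤ a) (hb : 0 ≤ b)
    (h : ∀ G, |F G| ≤ (a + sᶜ.indicator (fun _ => b) G) * Real.sqrt (S G)) :
    (∫ G, F G ∂gauss (Edge n)) ^ 2 ≤
      (2 * a ^ 2 + 2 * (b ^ 2 * (gauss (Edge n)).real sᶜ)) * ∫ G, S G ∂gauss (Edge n) := by
  set μ := gauss (Edge n)
  set g : Arr n → ℝ := fun G => a + sᶜ.indicator (fun _ => b) G
  have hgm : Measurable g := measurable_const.add (measurable_const.indicator hs.compl)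
  have hgi : ∀ G, 0 ≤ g G ∧ g G ≤ a + b ∧
      g G ^ 2 ≤ 2 * a ^ 2 + 2 * sᶜ.indicator (fun _ => b ^ 2) G := fun G => by
    simp only [g]
    by_cases hG : G ∈ sᶜ
    · simp only [Set.indicator_of_mem hG]
      exact ⟨by positivity, le_rfl, by nlinarith [sq_nonneg (a - b)]⟩
    · simp only [Set.indicator_of_notMem hG]
      exact ⟨by positivity, by linarith, by nlinarith⟩
  have hsq : (fun G => Real.sqrt (S G) ^ 2) = S := funext fun G => Real.sq_sqrt (hS0 G)
  have hRb : ∀ G, Real.sqrt (S G) ≤ 1 + S G := fun G => by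
    nlinarith [Real.sqrt_nonneg (S G), Real.sq_sqrt (hS0 G), sq_nonneg (Real.sqrt (S G) - 1)]
  have hi2 : Integrable (fun G => g G ^ 2) μ :=
    Integrable.of_bound (hgm.pow_const 2).aestronglyMeasurable ((a + b) ^ 2)
      (ae_of_all _ fun G => by
        rw [Real.norm_eq_abs, abs_pow, abs_of_nonneg (hgi G).1]
        exact pow_le_pow_left₀ (hgi G).1 (hgi G).2.1 2)
  have higR : Integrable (fun G => g G * Real.sqrt (S G)) μ :=
    (((integrable_const (1 : ℝ)).add hS.integrable).const_mul (a + b)).mono'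
      (hgm.mul (Real.continuous_sqrt.comp hS.1).measurable).aestronglyMeasurable
      (ae_of_all _ fun G => by
        rw [Real.norm_eq_abs, abs_mul, abs_of_nonneg (hgi G).1,
          abs_of_nonneg (Real.sqrt_nonneg _)]
        exact mul_le_mul (hgi G).2.1 (hRb G) (Real.sqrt_nonneg _) (by positivity))
  have hI : Integrable (fun G => sᶜ.indicator (fun _ => b ^ 2) G) μ :=
    (integrable_const (b ^ 2)).indicator hs.compl
  have h1 : |∫ G, F G ∂μ| ≤ ∫ G, g G * Real.sqrt (S G) ∂μ :=
    abs_integral_le_integral_abs.trans (integral_mono hF.abs.integrable higR h)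
  calc (∫ G, F G ∂μ) ^ 2 = |∫ G, F G ∂μ| ^ 2 := (sq_abs _).symm
    _ ≤ (∫ G, g G * Real.sqrt (S G) ∂μ) ^ 2 := pow_le_pow_left₀ (abs_nonneg _) h1 2
    _ ≤ (∫ G, g G ^ 2 ∂μ) * ∫ G, Real.sqrt (S G) ^ 2 ∂μ :=
      cs_integral hi2 (by rw [hsq]; exact hS.integrable) higR
    _ ≤ _ := by
      rw [hsq]
      refine mul_le_mul_of_nonneg_right ?_ (integral_nonneg hS0)
      refine (integral_mono hi2 ((integrable_const _).add (hI.const_mul 2))
        fun G => (hgi G).2.2).trans_eq ?_
      simp only [Pi.add_apply]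
      rw [integral_add (integrable_const _) (hI.const_mul 2), integral_const_mul 2 (fun x => sᶜ.indicator _ x),
        integral_indicator_const _ hs.compl]
      simp [μ, mul_comm]

/-- The square norm of the chaos. -/
lemma chaos_norm_le (hC : CalcStatement) (hn : 0 < n) (β : ℝ) (y : Sl k → Option (Fin n))
    (S : Finset (Pat n k)) (c : Pat n k → ℝ) :
    ∫ G, ∑ x, chaos y S c x G ^ 2 ∂gauss (Edge n) ≤ k.factorial * ∑ z, ext S c z ^ 2 := by
  classical
  obtain ⟨-, -, hH, -, hnorm⟩ := hC n β hn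
  rw [integral_finsetSum _ fun x _ => (tame_chaos hH y S c x).sq.integrable]
  refine (sum_le_sum (g := fun x => ((stubs y)ᶜ.card.factorial : ℝ) *
    ∑ w : Sl (stubs y)ᶜ.card → Fin n, ext S c (zOf y x w) ^ 2) fun x _ => ?_).trans ?_
  · let E : (Sl (stubs y)ᶜ.card → Fin n) ≃ (Fin (stubs y)ᶜ.card → Edge n) :=
      { toFun := edges
        invFun := fun e l => if l.2 then (e l.1).2 else (e l.1).1
        left_inv := fun w => funext fun l => by rcases l with ⟨i, _ | _⟩ <;> rfl
        right_inv := fun e => funext fun i => rfl }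
    have h := hnorm _ fun e => ext S c (zOf y x (E.symm e))
    simp only [← E.sum_comp, Equiv.symm_apply_apply] at h
    exact h
  · rw [← mul_sum, ← Fintype.sum_prod_type (f := fun q : (Port y → Fin n) ×
      (Sl (stubs y)ᶜ.card → Fin n) => ext S c (zOf y q.1 q.2) ^ 2)]
    refine mul_le_mul ?_ ?_ (sum_nonneg fun q _ => sq_nonneg _) (by positivity)
    · exact_mod_cast Nat.factorial_le ((card_le_univ _).trans_eq (Fintype.card_fin k))
    · rw [← sum_image (f := fun z => ext S c z ^ 2) (zOf_injective y).injOn]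
      exact sum_le_univ_sum_of_nonneg fun z => sq_nonneg _

/-- The pairing of the coefficients with the extension of the patterns of one core. -/
theorem core_pairing (hC : CalcStatement) (hSp : SpanStatement) (hE : EigenStatement)
    (β : ℝ) (hk : 1 ≤ k) (hkK : k ≤ K) (hn : (20 * ((K : ℝ) + 1)) ^ 5 ≤ n)
    {s : Set (Arr n)} (hs : GoodSet n K s) {y : Sl k → Option (Fin n)} {S : Finset (Pat n k)}
    (hS : ∀ p ∈ S, p ∈ pats n k r ∧ core p = y) (hne : S.Nonempty) (c : Pat n k → ℝ) :
    (∑ z, tHat n β z * ext S c z) ^ 2 ≤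
      coreBd β K (stubs y).card / (n : ℝ) ^ (r + (coreVal y).card) *
        (k.factorial * ∑ z, ext S c z ^ 2) := by
  classical
  obtain ⟨p0, hp0⟩ := hne
  obtain ⟨hp0', hy⟩ := hS p0 hp0
  obtain ⟨hcard, hVr⟩ := core_card hp0'
  rw [hy] at hcard hVr
  obtain ⟨hsm, hsg, hsp⟩ := hs
  have hn0R : (0 : ℝ) < n := lt_of_lt_of_le (by positivity) hn
  have hn0 : 0 < n := by exact_mod_cast hn0R
  set P := (stubs y).card - (r + (coreVal y).card) with hP
  have hr := excess_lt hk hp0'
  have hport := card_port y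
  have hstub := stubs_card_le y
  have hp1 := stubs_pos hk y
  have hPp : (stubs y).card = P + (r + (coreVal y).card) := by omega
  have hQ : Fintype.card (Port y) = 2 * P := by omega
  have hPK : P ≤ 4 * K := by omega
  have hm : (stubs y)ᶜ.card ≤ K :=
    ((card_le_univ _).trans_eq (Fintype.card_fin k)).trans hkK
  obtain ⟨hT, -, hH, -, -⟩ := hC n β hn0
  rw [pairing_eq_integral hC hn0 β hS c]
  set a := |coef n β| ^ (stubs y).card * (2 ^ (stubs y).card * ((stubs y).card.factorial : ℝ))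
    with ha
  set B := 20 * ((K : ℝ) + 1) with hB
  have ha0 : 0 ≤ a := by rw [ha]; positivity
  have hB1 : 1 ≤ B := by rw [hB]; linarith [(K.cast_nonneg : (0 : ℝ) ≤ K)]
  have h := sq_integral_le (S := fun G => ∑ x, chaos y S c x G ^ 2)
    (F := fun G => ∑ x, dFree n β (List.ofFn (edges (full y x))) G * chaos y S c x G)
    (a := a * (B ^ (6 * P) * Real.sqrt ((n : ℝ) ^ P))) (b := a * (n : ℝ) ^ P) hsm
    (tame_sum _ fun x _ => (hT _).1.mul (tame_chaos hH y S c x))
    (tame_sum _ fun x _ => (tame_chaos hH y S c x).sq) (fun G => sum_nonneg fun x _ => sq_nonneg _)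
    (mul_nonneg ha0 (by positivity)) (mul_nonneg ha0 (by positivity)) fun G => by
      refine (contract_bound hC hE β hp1 hn0 hn hQ hPK hm hsg G
        (chaos_mem_net hSp hS c G)).trans_eq ?_
      by_cases hG : G ∈ sᶜ
      · simp only [Set.indicator_of_mem hG, ← ha, ← hB]; ring
      · simp only [Set.indicator_of_notMem hG, ← ha, ← hB]; ring
  refine h.trans (mul_le_mul ?_ (chaos_norm_le hC hn0 β y S c)
    (integral_nonneg fun G => sum_nonneg fun x _ => sq_nonneg _)
    (by rw [coreBd]; positivity))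
  have hc := coef_pow_mul hn0 β _ P _ hPp
  rw [← ha] at hc
  have h1 : (gauss (Edge n)).real sᶜ * (n : ℝ) ^ P ≤ 1 := by
    refine (mul_le_mul_of_nonneg_right hsp (by positivity)).trans ?_
    rw [inv_mul_le_iff₀ (by positivity), mul_one]
    exact pow_le_pow_right₀ (by exact_mod_cast hn0) (by omega)
  have h2 : B ^ (12 * P) ≤ B ^ (12 * (stubs y).card) := pow_le_pow_right₀ hB1 (by omega)
  have h3 : (1 : ℝ) ≤ B ^ (12 * (stubs y).card) := one_le_pow₀ hB1
  have h4 : 0 ≤ a ^ 2 * (n : ℝ) ^ P := by positivity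
  have h6 : (a * (B ^ (6 * P) * Real.sqrt ((n : ℝ) ^ P))) ^ 2 =
      B ^ (12 * P) * (a ^ 2 * (n : ℝ) ^ P) := by
    rw [mul_pow, mul_pow (B ^ (6 * P)), Real.sq_sqrt (by positivity), ← pow_mul,
      show 6 * P * 2 = 12 * P by ring]
    ring
  have h5 : (a * (n : ℝ) ^ P) ^ 2 * (gauss (Edge n)).real sᶜ ≤ a ^ 2 * (n : ℝ) ^ P := by
    calc _ = a ^ 2 * (n : ℝ) ^ P * ((gauss (Edge n)).real sᶜ * (n : ℝ) ^ P) := by ring
      _ ≤ a ^ 2 * (n : ℝ) ^ P * 1 := mul_le_mul_of_nonneg_left h1 h4
      _ = _ := mul_one _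
  have h7 : coreBd β K (stubs y).card / (n : ℝ) ^ (r + (coreVal y).card) =
      4 * B ^ (12 * (stubs y).card) * (a ^ 2 * (n : ℝ) ^ P) := by
    rw [hc, coreBd, hB]; ring
  rw [h6, h7]
  nlinarith [mul_le_mul_of_nonneg_right h2 h4, mul_le_mul_of_nonneg_right h3 h4]

end Vale.Agent.P146.Power
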