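import Vale.Agent.P146.Power.Recursion

/-!
The number of cores.
-/

namespace Vale.Agent.P146.Power

open Finset

variable {n K k r : ℕ}

/-- The cores with at most `L` fixed slots and exactly `m` fixed vertices are few. -/
lemma cores_card_le (L m : ℕ) (Y : Finset (Sl k → Option (Fin n)))
    (hY : ∀ y ∈ Y, (coreSet y).card ≤ L ∧ (coreVal y).card = m) :
    Y.card ≤ n ^ m * (2 * k * m + 1) ^ L := by
  classical
  let dec : (Fin m → Fin n) × (Fin L → Option (Sl k × Fin m)) → Sl k → Option (Fin n) :=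
    fun q l => if h : ∃ j a, q.2 j = some (l, a) then some (q.1 h.choose_spec.choose) else none
  have hsurj : Y ⊆ univ.image dec := by
    intro y hy
    obtain ⟨hc, hm⟩ := hY y hy
    let eV := (coreVal y).equivFinOfCardEq hm
    let eS := (coreSet y).equivFin
    have hval : ∀ l : coreSet y, ∃ v, y l.1 = some v := fun l =>
      Option.isSome_iff_exists.1 (mem_filter.1 l.2).2
    choose v hv using hval
    have hvm : ∀ l, v l ∈ coreVal y := fun l => mem_filter.2 ⟨mem_univ _, l.1, hv l⟩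
    refine mem_image.2 ⟨(fun a => (eV.symm a).1, fun j => if h : j.1 < (coreSet y).card then
      some ((eS.symm ⟨j.1, h⟩).1, eV ⟨v (eS.symm ⟨j.1, h⟩), hvm _⟩) else none), mem_univ _,
      funext fun l => ?_⟩
    simp only [dec]
    split
    · next h =>
      obtain ha := h.choose_spec.choose_spec
      generalize h.choose_spec.choose = a at ha ⊢
      generalize h.choose = j at ha
      split at ha
      · next hj =>
        simp only [Option.some.injEq, Prod.mk.injEq] at ha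
        obtain ⟨rfl, rfl⟩ := ha
        rw [Equiv.symm_apply_apply, hv]
      · simp at ha
    · next h =>
      symm
      by_contra hne
      have hl : l ∈ coreSet y :=
        mem_filter.2 ⟨mem_univ _, Option.isSome_iff_ne_none.2 hne⟩
      refine h ⟨⟨(eS ⟨l, hl⟩).1, lt_of_lt_of_le (eS ⟨l, hl⟩).2 hc⟩, eV ⟨v ⟨l, hl⟩, hvm _⟩, ?_⟩
      rw [dif_pos (eS ⟨l, hl⟩).2]
      simp
  refine (card_le_card hsurj).trans (card_image_le.trans ?_)
  simp [mul_comm, mul_assoc]

lemma coreBd_le (β : ℝ) {p : ℕ} (hr : r < K) (hp : p ≤ 4 * r + 1) :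
    coreBd β K p ≤ 4 * (20 * (2 * β ^ 2 + 5) * ((K : ℝ) + 1)) ^ (15 * (4 * r + 1)) := by
  set Q := 20 * (2 * β ^ 2 + 5) * ((K : ℝ) + 1) with hQ
  have hK0 : (0 : ℝ) ≤ K := K.cast_nonneg
  have hQ1 : 1 ≤ Q := by rw [hQ]; nlinarith [sq_nonneg β]
  have h1 : 2 * β ^ 2 ≤ Q := by rw [hQ]; nlinarith [sq_nonneg β]
  have h2 : (p.factorial : ℝ) ≤ Q ^ p := by
    refine (Nat.cast_le.2 (Nat.factorial_le_pow p)).trans ?_
    push_cast
    refine pow_le_pow_left₀ (Nat.cast_nonneg _) ?_ _
    have : (p : ℝ) ≤ 4 * K + 1 := by exact_mod_cast (show p ≤ 4 * K + 1 by omega)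
    rw [hQ]; nlinarith [sq_nonneg β]
  have h3 : 20 * ((K : ℝ) + 1) ≤ Q := by rw [hQ]; nlinarith [sq_nonneg β]
  calc coreBd β K p ≤ 4 * Q ^ p * (Q ^ p) ^ 2 * Q ^ (12 * p) := by
        unfold coreBd; gcongr
    _ = 4 * Q ^ (15 * p) := by ring
    _ ≤ _ := by gcongr

/-- The bound of all cores of excess `r`. -/
theorem gradeBd_le (β : ℝ) (hk : 1 ≤ k) (hkK : k ≤ K) (hn : 0 < n) (r : ℕ) :
    gradeBd n β K k r ≤
      ((20 * (2 * β ^ 2 + 5) * ((K : ℝ) + 1)) ^ 70) ^ (r + 1) / (n : ℝ) ^ r := by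
  classical
  set Q := 20 * (2 * β ^ 2 + 5) * ((K : ℝ) + 1) with hQ
  have hK0 : (0 : ℝ) ≤ K := K.cast_nonneg
  have hQ4 : 4 ≤ Q := by rw [hQ]; nlinarith [sq_nonneg β]
  have hQ1 : 1 ≤ Q := by linarith
  rcases lt_or_ge r k with hr | hr
  swap
  · have e : (pats n k r).image core = ∅ := by
      refine image_eq_empty.2 (eq_empty_of_forall_notMem fun p hp => ?_)
      have := excess_lt hk hp
      omega
    rw [gradeBd, e, sum_empty]
    positivity
  set Y := (pats n k r).image core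
  have hY : ∀ y ∈ Y, (stubs y).card ≤ 4 * r + 1 ∧ (coreSet y).card ≤ 4 * r ∧
      (coreVal y).card < r + 1 := by
    intro y hy
    obtain ⟨p, hp, rfl⟩ := mem_image.1 hy
    have := core_card hp
    exact ⟨stubs_le_excess hp, by omega, by omega⟩
  set C := 4 * Q ^ (15 * (4 * r + 1))
  have h1 : gradeBd n β K k r ≤
      C / (n : ℝ) ^ r * ∑ y ∈ Y, 1 / (n : ℝ) ^ (coreVal y).card := by
    rw [gradeBd, mul_sum]
    refine sum_le_sum fun y hy => ?_
    rw [pow_add, div_mul_div_comm, mul_one]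
    exact div_le_div_of_nonneg_right (coreBd_le β (by omega) (hY y hy).1) (by positivity)
  have h2 : ∑ y ∈ Y, 1 / (n : ℝ) ^ (coreVal y).card ≤ Q ^ (r + 1) * (Q ^ 2) ^ (4 * r) := by
    rw [← sum_fiberwise_of_maps_to (g := fun y => (coreVal y).card) (t := range (r + 1))
      fun y hy => mem_range.2 (hY y hy).2.2]
    have h3 : ∀ m ∈ range (r + 1), ∑ y ∈ Y.filter (fun y => (coreVal y).card = m),
        1 / (n : ℝ) ^ (coreVal y).card ≤ (Q ^ 2) ^ (4 * r) := by
      intro m hm
      rw [sum_congr rfl fun y hy => by rw [(mem_filter.1 hy).2], sum_const, nsmul_eq_mul]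
      have hc := cores_card_le (4 * r) m (Y.filter fun y => (coreVal y).card = m)
        fun y hy => ⟨(hY y (mem_filter.1 hy).1).2.1, (mem_filter.1 hy).2⟩
      calc ((Y.filter fun y => (coreVal y).card = m).card : ℝ) * (1 / (n : ℝ) ^ m)
          ≤ ((n ^ m * (2 * k * m + 1) ^ (4 * r) : ℕ) : ℝ) * (1 / (n : ℝ) ^ m) := by
            gcongr
        _ = (((2 * k * m + 1 : ℕ) : ℝ)) ^ (4 * r) := by
            push_cast; field_simp
        _ ≤ _ := by
            refine pow_le_pow_left₀ (Nat.cast_nonneg _) ?_ _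
            have hm' : m ≤ k := by have := mem_range.1 hm; omega
            have h' : 2 * k * m + 1 ≤ 2 * (K + 1) * (K + 1) := by
              have : k * m ≤ K * K := Nat.mul_le_mul hkK (hm'.trans hkK)
              nlinarith
            refine (Nat.cast_le.2 h').trans ?_
            push_cast
            have h100 : 100 * ((K : ℝ) + 1) ≤ Q := by rw [hQ]; nlinarith [sq_nonneg β]
            nlinarith [pow_le_pow_left₀ (by positivity : (0:ℝ) ≤ 100 * ((K : ℝ) + 1)) h100 2]
    refine (sum_le_sum h3).trans ?_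
    rw [sum_const, card_range, nsmul_eq_mul]
    refine mul_le_mul_of_nonneg_right ?_ (by positivity)
    have : (r + 1 : ℕ) < 4 ^ (r + 1) := Nat.lt_pow_self (by norm_num)
    refine (Nat.cast_le.2 this.le).trans ?_
    push_cast
    exact pow_le_pow_left₀ (by norm_num) hQ4 _
  refine h1.trans ((mul_le_mul_of_nonneg_left h2 (by positivity)).trans ?_)
  rw [div_mul_eq_mul_div]
  refine div_le_div_of_nonneg_right ?_ (by positivity)
  simp only [C, ← pow_mul]
  calc 4 * Q ^ (15 * (4 * r + 1)) * (Q ^ (r + 1) * Q ^ (2 * (4 * r)))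
      ≤ Q ^ 1 * Q ^ (15 * (4 * r + 1)) * (Q ^ (r + 1) * Q ^ (2 * (4 * r))) := by
        rw [pow_one]; gcongr
    _ = Q ^ (1 + 15 * (4 * r + 1) + (r + 1 + 2 * (4 * r))) := by simp only [← pow_add]
    _ ≤ _ := pow_le_pow_right₀ hQ1 (by omega)

end Vale.Agent.P146.Power
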