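import Vale.Agent.P146.Defs
import Vale.Agent.P157.Parisi.CalcGauss

/-!
Polynomial superconcentration of the free energy: definitions and interfaces.

The Hermite coefficients `tW` of the extended free energy are paired with extensions of their
values on words of a given excess; the pairing is an expectation of a derivative of the free
energy contracted with a tensor in the span of powers of the symmetrised disorder.
-/

namespace Vale.Agent.P146.Power

open MeasureTheory ProbabilityTheory Finset
open Vale.Agent.P157 (gauss)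
open Vale.Agent.P157.Parisi (Tame GradOf)

/-- An entry of a square array. -/
abbrev Edge (n : ℕ) : Type := Fin n × Fin n

/-- A square array, flattened. -/
abbrev Arr (n : ℕ) : Type := Edge n → ℝ

variable {n : ℕ}

/-! ### The extended free energy and its derivatives -/

/-- The coupling constant of one entry. -/
noncomputable def coef (n : ℕ) (β : ℝ) : ℝ := β / Real.sqrt (2 * n)

/-- The product of the two spins at an entry. -/
def pairSpin (σ : Fin n → Bool) (e : Edge n) : ℝ := spin (σ e.1) * spin (σ e.2)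

/-- The free energy of the array with all `n ^ 2` entries. -/
noncomputable def extFree (n : ℕ) (β : ℝ) (G : Arr n) : ℝ :=
  Real.log (∑ σ : Fin n → Bool, Real.exp (coef n β * ∑ e, G e * pairSpin σ e))

/-- Iterated partial derivatives of the extended free energy. -/
noncomputable def dFree (n : ℕ) (β : ℝ) : List (Edge n) → Arr n → ℝ
  | [] => extFree n β
  | a :: l => fun G => deriv (fun s => dFree n β l fun b => G b + if b = a then s else 0) 0

/-! ### Symmetrised Hermite polynomials -/

/-- The symmetrised entry. -/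
noncomputable def symE (G : Arr n) (e : Edge n) : ℝ := (G e + G e.swap) / 2

/-- The symmetrised Kronecker symbol of entries. -/
noncomputable def symDelta (e f : Edge n) : ℝ :=
  ((if e = f then 1 else 0) + (if e = f.swap then 1 else 0)) / 2

/-- All ways of selecting one element of a list. -/
def sel {α : Type*} : List α → List (α × List α)
  | [] => []
  | x :: l => (x, l) :: (sel l).map fun p => (p.1, x :: p.2)

lemma length_of_mem_sel {α : Type*} {l : List α} {p : α × List α} (h : p ∈ sel l) :
    p.2.length + 1 = l.length := by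
  induction l generalizing p with
  | nil => simp [sel] at h
  | cons x l ih =>
    simp only [sel, List.mem_cons, List.mem_map] at h
    rcases h with rfl | ⟨q, hq, rfl⟩
    · simp
    · simp [ih hq]

/-- Hermite polynomials of the symmetrised entries. -/
noncomputable def he : List (Edge n) → Arr n → ℝ
  | [] => fun _ => 1
  | e :: l => fun G =>
      symE G e * he l G - ((sel l).attach.map fun p => symDelta e p.1.1 * he p.1.2 G).sum
  termination_by l => l.length
  decreasing_by
    · simp
    · have := length_of_mem_sel p.2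
      simp only [List.length_cons]
      omega

/-- The Hermite coefficient of a word. -/
noncomputable def tW (n : ℕ) (β : ℝ) {k : ℕ} (w : Fin k → Edge n) : ℝ :=
  ∫ G, extFree n β G * he (List.ofFn w) G ∂gauss (Edge n)

/-! ### Slots, excess and patterns -/

/-- The endpoints of the letters of a word. -/
abbrev Sl (k : ℕ) : Type := Fin k × Bool

/-- The word with given endpoints. -/
def edges {k : ℕ} (z : Sl k → Fin n) (i : Fin k) : Edge n := (z (i, false), z (i, true))

/-- The slots with the same vertex. -/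
def fib {k : ℕ} (z : Sl k → Fin n) (l : Sl k) : Finset (Sl k) :=
  univ.filter fun l' => z l' = z l

/-- All vertices have even degree. -/
def EvenWord {k : ℕ} (z : Sl k → Fin n) : Prop := ∀ l, Even (fib z l).card

/-- The excess: edges minus vertices. -/
def excess {k : ℕ} (z : Sl k → Fin n) : ℕ := k - (univ.image z).card

/-- The even words of excess `r`. -/
noncomputable def words (n k r : ℕ) : Finset (Sl k → Fin n) := by
  classical exact univ.filter fun z => EvenWord z ∧ excess z = r

/-- The coefficient at given endpoints. -/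
noncomputable def tHat (n : ℕ) (β : ℝ) {k : ℕ} (z : Sl k → Fin n) : ℝ := tW n β (edges z)

/-- A pattern fixes the vertex of a slot, or links it to a partner. -/
abbrev Pat (n k : ℕ) : Type := Sl k → Fin n ⊕ Sl k

/-- The pattern of a word: high vertices are fixed, the slots of a vertex of degree 2 are linked. -/
noncomputable def pat {k : ℕ} (z : Sl k → Fin n) : Pat n k := fun l => by
  classical exact
    if h : (fib z l).card = 2 ∧ ((fib z l).erase l).Nonempty then .inr h.2.choose else .inl (z l)

/-- A word agrees with a pattern. -/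
def Compat {k : ℕ} (z : Sl k → Fin n) (p : Pat n k) : Prop :=
  ∀ l, match p l with
    | .inl v => z l = v
    | .inr l' => z l = z l'

/-- The patterns of excess `r`. -/
noncomputable def pats (n k r : ℕ) : Finset (Pat n k) := by
  classical exact (words n k r).image pat

/-- The fixed part of a pattern. -/
def core {k : ℕ} (p : Pat n k) : Sl k → Option (Fin n) := fun l => (p l).getLeft?

/-- The extension of a function of patterns to words. -/
noncomputable def ext {k : ℕ} (S : Finset (Pat n k)) (c : Pat n k → ℝ) (z : Sl k → Fin n) : ℝ := by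
  classical exact ∑ p ∈ S.filter (Compat z), c p

/-! ### Networks of matrix powers -/

/-- A product over a pairing of the ports of powers of `M`; the index is the total power. -/
inductive Gen (M : Matrix (Fin n) (Fin n) ℝ) :
    (Q : Type) → ℕ → ((Q → Fin n) → ℝ) → Prop
  | nil {Q : Type} (e : Q ≃ Empty) : Gen M Q 0 fun _ => 1
  | cons {Q Q' : Type} (e : Q' ⊕ Bool ≃ Q) {d : ℕ} {g : (Q' → Fin n) → ℝ} (l : ℕ)
      (h : Gen M Q' d g) :
      Gen M Q (d + l) fun x =>
        (M ^ l) (x (e (.inr false))) (x (e (.inr true))) * g fun q => x (e (.inl q))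

/-- Networks of total power at most `d`. -/
def Net (M : Matrix (Fin n) (Fin n) ℝ) (Q : Type) (d : ℕ) :
    Submodule ℝ ((Q → Fin n) → ℝ) :=
  Submodule.span ℝ {f | ∃ d', d' ≤ d ∧ Gen M Q d' f}

/-- The symmetrised array as a matrix. -/
noncomputable def symMat (G : Arr n) : Matrix (Fin n) (Fin n) ℝ :=
  Matrix.of fun i j => symE G (i, j)

/-! ### The good event -/

/-- The enlargement of the spectral interval. -/
noncomputable def eta (K : ℕ) : ℝ := 1 / (100 * ((K : ℝ) + 1) ^ 10)

/-- The precision of the traces. -/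
noncomputable def eps (K : ℕ) : ℝ := 1 / (8 * ((K : ℝ) + 1) ^ 6)

/-- The rescaled coupling. -/
noncomputable def jMat (K : ℕ) (G : Arr n) : Matrix (Fin n) (Fin n) ℝ :=
  Matrix.of fun i j => (G (i, j) + G (j, i)) / ((1 + eta K) * Real.sqrt (2 * n))

/-- Chebyshev polynomials of the second kind, of a matrix. -/
noncomputable def uMat (A : Matrix (Fin n) (Fin n) ℝ) : ℕ → Matrix (Fin n) (Fin n) ℝ
  | 0 => 1
  | 1 => A
  | m + 2 => A * uMat A (m + 1) - uMat A m

/-- The spectrum is in `[-2, 2]` and the traces are those of the semicircle law. -/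
def GoodArr (K : ℕ) (G : Arr n) : Prop :=
  (∀ x : Fin n → ℝ, |∑ i, ∑ j, x i * jMat K G i j * x j| ≤ 2 * ∑ i, x i ^ 2) ∧
    ∀ m, 1 ≤ m → m ≤ 2 * K → |(uMat (jMat K G) m).trace| ≤ eps K * n

/-! ### Interfaces -/

/-- Derivatives and Hermite coefficients. -/
def CalcStatement : Prop :=
  ∀ (n : ℕ) (β : ℝ), 0 < n →
    (∀ l, Tame (dFree n β l) ∧ GradOf (dFree n β l) fun a => dFree n β (a :: l)) ∧
    (∀ p : ℕ, 0 < p → ∀ G : Arr n, ∃ (N : ℕ) (c : Fin N → ℝ) (u : Fin N → Sl p → Fin n → ℝ),
      ∑ i, |c i| ≤ |coef n β| ^ p * (2 ^ p * p.factorial) ∧ (∀ i l v, |u i l v| ≤ 1) ∧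
        ∀ e : Fin p → Edge n, dFree n β (List.ofFn e) G =
          ∑ i, c i * ∏ j, u i (j, false) (e j).1 * u i (j, true) (e j).2) ∧
    (∀ l : List (Edge n), Tame (he l)) ∧
    (∀ (k : ℕ) (w : Fin k → Edge n) (l₁ l₂ : List (Edge n)), (List.ofFn w).Perm (l₁ ++ l₂) →
      tW n β w = ∫ G, dFree n β l₁ G * he l₂ G ∂gauss (Edge n)) ∧
    ∀ (m : ℕ) (h : (Fin m → Edge n) → ℝ),
      ∫ G, (∑ w, h w * he (List.ofFn w) G) ^ 2 ∂gauss (Edge n) ≤ m.factorial * ∑ w, h w ^ 2

/-- Invariance of the coefficients. -/
def SymStatement : Prop :=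
  ∀ (n : ℕ) (β : ℝ) (k : ℕ) (z : Sl k → Fin n), 0 < k →
    (∀ π : Equiv.Perm (Fin n), tHat n β (fun l => π (z l)) = tHat n β z) ∧
      (¬ EvenWord z → tHat n β z = 0)

/-- The variance through the mean derivatives. -/
def InterpStatement : Prop :=
  ∀ (ι : Type) [Fintype ι] (D : List ι → (ι → ℝ) → ℝ),
    (∀ l, Tame (D l) ∧ GradOf (D l) fun a => D (a :: l)) → ∀ m : ℕ,
      variance (D []) (gauss ι) ≤
        (∑ j ∈ range m, (1 / ((j + 1).factorial : ℝ)) *
          ∑ w : Fin (j + 1) → ι, (∫ G, D (List.ofFn w) G ∂gauss ι) ^ 2) +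
        1 / ((m : ℝ) + 1) * ∑ a, ∫ G, D [a] G ^ 2 ∂gauss ι

/-- A Hermite transform of a network is a network. -/
def SpanStatement : Prop :=
  ∀ (n : ℕ) (G : Arr n) (Q : Type) [Fintype Q] [DecidableEq Q] (m d : ℕ)
    (f : (Q ⊕ Sl m → Fin n) → ℝ), f ∈ Net (symMat G) (Q ⊕ Sl m) d →
      (fun x => ∑ z : Sl m → Fin n, f (Sum.elim x z) * he (List.ofFn (edges z)) G) ∈
        Net (symMat G) Q (d + m)

/-- A network is small against product vectors on the good event. -/
def EigenStatement : Prop :=
  ∀ (n K : ℕ) (G : Arr n) (Q : Type) [Fintype Q] [DecidableEq Q] (P d : ℕ),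
    GoodArr K G → 0 < n → Fintype.card Q = 2 * P → P ≤ 4 * K → d ≤ K →
      (20 * ((K : ℝ) + 1)) ^ 5 ≤ n →
      ∀ T ∈ Net (symMat G) Q d, ∀ u : Q → Fin n → ℝ, (∀ q v, |u q v| ≤ 1) →
        |∑ x : Q → Fin n, T x * ∏ q, u q (x q)| ≤
          (20 * ((K : ℝ) + 1)) ^ (6 * P) * Real.sqrt ((n : ℝ) ^ P * ∑ x, T x ^ 2)

/-- The good event is likely. -/
def GoodStatement : Prop :=
  ∃ C : ℝ, 1 ≤ C ∧ ∀ n K : ℕ, 1 ≤ K → (C * ((K : ℝ) + 1)) ^ 80 ≤ n →
    ∃ s : Set (Arr n), MeasurableSet s ∧ (∀ G ∈ s, GoodArr K G) ∧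
      (gauss (Edge n)).real sᶜ ≤ ((n : ℝ) ^ (100 * (K + 1)))⁻¹

/-- Patterns and extensions. -/
def PatternStatement : Prop :=
  ∀ n k r : ℕ, 1 ≤ k → (100 * ((k : ℝ) + 1)) ^ 20 ≤ n →
    (∀ z p, z ∈ words n k r → p ∈ pats n k r → Compat z p → p = pat z) ∧
    (∀ z p, p ∈ pats n k r → Compat z p → EvenWord z ∧ r ≤ excess z) ∧
    (∀ z, z ∈ words n k r → Compat z (pat z)) ∧
    (∀ z z', z ∈ words n k r → z' ∈ words n k r → pat z = pat z' →
      ∃ π : Equiv.Perm (Fin n), z' = fun l => π (z l)) ∧
    ∀ (S : Finset (Pat n k)) (c : Pat n k → ℝ) (δ : ℕ), S ⊆ pats n k r →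
      ∑ z ∈ words n k (r + δ), ext S c z ^ 2 ≤
        2 * ((8 * ((k : ℝ) + 1)) ^ 12 / n) ^ δ *
          ∑ p ∈ S, c p ^ 2 * ((words n k r).filter fun z => pat z = p).card

end Vale.Agent.P146.Power
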