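import Vale.Agent.P146.Power.Defs

/-!
# Networks against product vectors

In an eigenbasis of the rescaled coupling a network becomes a sum over pairings of the ports of
polynomials in the eigenvalues. The traces of the Chebyshev polynomials control the coefficients of
these polynomials by the norm of the network.
-/

namespace Vale.Agent.P146.Power

open Finset Matrix

/-! ### Chebyshev polynomials of the second kind -/

/-- Chebyshev polynomials of the second kind on `[-2, 2]`. -/
noncomputable def cheb : ℕ → ℝ → ℝ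
  | 0 => fun _ => 1
  | 1 => fun x => x
  | m + 2 => fun x => x * cheb (m + 1) x - cheb m x

lemma cheb_zero (x : ℝ) : cheb 0 x = 1 := by simp [cheb]

lemma cheb_one (x : ℝ) : cheb 1 x = x := by simp [cheb]

lemma cheb_add_two (m : ℕ) (x : ℝ) : cheb (m + 2) x = x * cheb (m + 1) x - cheb m x := by
  conv_lhs => rw [cheb]

lemma cheb_inv (m : ℕ) (x : ℝ) :
    cheb (m + 1) x ^ 2 - x * cheb (m + 1) x * cheb m x + cheb m x ^ 2 = 1 := by
  induction m with
  | zero => rw [cheb_one, cheb_zero]; ring
  | succ m ih => rw [cheb_add_two]; linarith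

lemma abs_cheb_le {x : ℝ} (hx : |x| ≤ 2) (m : ℕ) : |cheb m x| ≤ (m : ℝ) + 1 := by
  induction m with
  | zero => simp [cheb_zero]
  | succ m ih =>
    have hx2 : x ^ 2 ≤ 4 := by
      rw [← sq_abs]; nlinarith [abs_nonneg x]
    have h1 : (cheb (m + 1) x - x / 2 * cheb m x) ^ 2 ≤ 1 := by
      have := cheb_inv m x
      have h3 : 0 ≤ (1 - x ^ 2 / 4) * cheb m x ^ 2 := mul_nonneg (by linarith) (sq_nonneg _)
      linarith
    have h2 := (sq_le_one_iff_abs_le_one _).1 h1
    have h3 : |x / 2 * cheb m x| ≤ (m : ℝ) + 1 := by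
      rw [abs_mul]
      refine le_trans (mul_le_of_le_one_left (abs_nonneg _) ?_) ih
      rw [abs_div, abs_of_pos (by norm_num : (0 : ℝ) < 2)]
      linarith
    have := abs_sub_abs_le_abs_sub (cheb (m + 1) x) (x / 2 * cheb m x)
    push_cast
    linarith

lemma cheb_mul_self (x : ℝ) (m : ℕ) :
    x * cheb (m + 1) x = cheb (m + 2) x + cheb m x := by
  rw [cheb_add_two]; ring

/-- The product of two Chebyshev polynomials. -/
lemma cheb_mul (x : ℝ) : ∀ (a b : ℕ), a ≤ b →
    cheb a x * cheb b x = ∑ j ∈ range (a + 1), cheb (b - a + 2 * j) x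
  | 0, b, _ => by simp [cheb_zero]
  | 1, b, h => by
    obtain ⟨c, rfl⟩ : ∃ c, b = c + 1 := ⟨b - 1, by omega⟩
    rw [cheb_one, cheb_mul_self, Finset.sum_range_succ, Finset.sum_range_one]
    simp [add_comm]
  | a + 2, b, h => by
    obtain ⟨c, rfl⟩ : ∃ c, b = a + 2 + c := ⟨b - (a + 2), by omega⟩
    have h1 := cheb_mul x (a + 1) (a + 2 + c) (by omega)
    have h2 := cheb_mul x a (a + 2 + c) (by omega)
    rw [cheb_add_two, sub_mul, mul_assoc, h1, h2, Finset.mul_sum,
      show a + 2 + c - (a + 2) = c by omega, show a + 2 + c - (a + 1) = c + 1 by omega,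
      show a + 2 + c - a = c + 2 by omega]
    have e : ∀ j, x * cheb (c + 1 + 2 * j) x = cheb (c + 2 + 2 * j) x + cheb (c + 2 * j) x :=
      fun j => by
        rw [show c + 1 + 2 * j = c + 2 * j + 1 by ring, cheb_mul_self,
          show c + 2 * j + 2 = c + 2 + 2 * j by ring]
    simp only [e, Finset.sum_add_distrib]
    rw [Finset.sum_range_succ (fun j => cheb (c + 2 + 2 * j) x) (a + 1),
      Finset.sum_range_succ (fun j => cheb (c + 2 * j) x) (a + 2),
      show c + 2 + 2 * (a + 1) = c + 2 * (a + 2) by ring]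
    ring

/-- Monomials in terms of Chebyshev polynomials. -/
lemma pow_eq_sum_cheb (l : ℕ) :
    ∃ c : ℕ → ℝ, (∀ m, l < m → c m = 0) ∧
      ∀ x : ℝ, ∀ K, l ≤ K → x ^ l = ∑ m ∈ range (K + 1), c m * cheb m x := by
  induction l with
  | zero =>
    refine ⟨fun m => if m = 0 then 1 else 0, fun m hm => if_neg (by omega), fun x K _ => ?_⟩
    simp [cheb_zero]
  | succ l ih =>
    obtain ⟨c, hc0, hc⟩ := ih
    refine ⟨fun m => (if m = 0 then 0 else c (m - 1)) + c (m + 1), fun m hm => ?_,
      fun x K hK => ?_⟩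
    · show (if m = 0 then 0 else c (m - 1)) + c (m + 1) = 0
      rw [if_neg (by omega), hc0 (m - 1) (by omega), hc0 (m + 1) (by omega), add_zero]
    obtain ⟨J, rfl⟩ : ∃ J, K = J + 1 := ⟨K - 1, by omega⟩
    rw [pow_succ', hc x J (by omega), Finset.mul_sum]
    simp only [add_mul, Finset.sum_add_distrib]
    rw [Finset.sum_range_succ' (fun m => (if m = 0 then 0 else c (m - 1)) * cheb m x) (J + 1),
      Finset.sum_range_succ (fun m => c (m + 1) * cheb m x) (J + 1),
      Finset.sum_range_succ (fun m => c (m + 1) * cheb m x) J,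
      hc0 (J + 1) (by omega), hc0 (J + 1 + 1) (by omega),
      Finset.sum_range_succ' (fun m => x * (c m * cheb m x)) J]
    simp only [Nat.succ_ne_zero, if_false, if_true, Nat.add_sub_cancel, zero_mul, add_zero,
      cheb_zero]
    have e : ∀ m, x * (c (m + 1) * cheb (m + 1) x)
        = c (m + 1) * cheb (m + 2) x + c (m + 1) * cheb m x := fun m => by
      rw [← mul_add, ← cheb_mul_self]; ring
    simp only [e, Finset.sum_add_distrib]
    rw [Finset.sum_range_succ' (fun m => c m * cheb (m + 1) x) J, cheb_one]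
    ring

/-! ### Diagonalisation -/

section Diag

variable {n : ℕ}

/-- An orthogonal basis in which `J` is diagonal. -/
structure Eig (J : Matrix (Fin n) (Fin n) ℝ) where
  V : Matrix (Fin n) (Fin n) ℝ
  lam : Fin n → ℝ
  left : Vᵀ * V = 1
  right : V * Vᵀ = 1
  eq : J = V * Matrix.diagonal lam * Vᵀ

lemma exists_eig {J : Matrix (Fin n) (Fin n) ℝ} (hJ : J.IsHermitian) : Nonempty (Eig J) := by
  refine ⟨⟨(hJ.eigenvectorUnitary : Matrix (Fin n) (Fin n) ℝ), hJ.eigenvalues, ?_, ?_, ?_⟩⟩
  · have := Unitary.coe_star_mul_self hJ.eigenvectorUnitary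
    simpa [Matrix.star_eq_conjTranspose] using this
  · have := Unitary.coe_mul_star_self hJ.eigenvectorUnitary
    simpa [Matrix.star_eq_conjTranspose] using this
  · have := hJ.spectral_theorem
    simpa [Unitary.conjStarAlgAut_apply, Matrix.star_eq_conjTranspose] using this

variable {J : Matrix (Fin n) (Fin n) ℝ}

/-- A function of the eigenvalues. -/
noncomputable def Eig.apply (E : Eig J) (f : Fin n → ℝ) : Matrix (Fin n) (Fin n) ℝ :=
  E.V * Matrix.diagonal f * E.Vᵀ

lemma Eig.apply_mul (E : Eig J) (f g : Fin n → ℝ) :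
    E.apply f * E.apply g = E.apply (fun a => f a * g a) := by
  rw [Eig.apply, Eig.apply, Eig.apply,
    show E.V * diagonal f * E.Vᵀ * (E.V * diagonal g * E.Vᵀ)
      = E.V * diagonal f * (E.Vᵀ * E.V) * (diagonal g * E.Vᵀ) by simp only [Matrix.mul_assoc],
    E.left, Matrix.mul_one, ← Matrix.mul_assoc, Matrix.mul_assoc E.V, diagonal_mul_diagonal]

lemma Eig.apply_one (E : Eig J) : E.apply (fun _ => 1) = 1 := by
  rw [Eig.apply, diagonal_one, Matrix.mul_one, E.right]

lemma Eig.apply_lam (E : Eig J) : E.apply E.lam = J := E.eq.symm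

lemma Eig.pow_eq (E : Eig J) (l : ℕ) : J ^ l = E.apply (fun a => E.lam a ^ l) := by
  induction l with
  | zero => simp [E.apply_one]
  | succ l ih =>
    rw [pow_succ, ih]
    refine (congrArg (E.apply _ * ·) E.apply_lam.symm).trans ?_
    show E.apply _ * E.apply E.lam = _
    rw [E.apply_mul]
    simp only [pow_succ]

lemma Eig.uMat_eq (E : Eig J) : ∀ m, uMat J m = E.apply (fun a => cheb m (E.lam a))
  | 0 => by simp [uMat, cheb_zero, E.apply_one]
  | 1 => by simpa [uMat, cheb_one, Eig.apply] using E.eq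
  | m + 2 => by
    rw [uMat, E.uMat_eq (m + 1), E.uMat_eq m]
    rw [show J * E.apply (fun a => cheb (m + 1) (E.lam a))
      = E.apply E.lam * E.apply (fun a => cheb (m + 1) (E.lam a)) from
        congrArg (· * E.apply _) E.apply_lam.symm, E.apply_mul]
    simp only [Eig.apply, ← Matrix.sub_mul, ← Matrix.mul_sub, diagonal_sub, cheb_add_two]

lemma Eig.trace_apply (E : Eig J) (f : Fin n → ℝ) : (E.apply f).trace = ∑ a, f a := by
  rw [Eig.apply, Matrix.trace_mul_cycle, E.left, Matrix.one_mul, Matrix.trace_diagonal]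

lemma Eig.orth (E : Eig J) (x y : Fin n) :
    ∑ a, E.V x a * E.V y a = if x = y then 1 else 0 := by
  have := congrFun (congrFun E.right x) y
  rw [Matrix.mul_apply, Matrix.one_apply] at this
  simpa using this

lemma Eig.orth' (E : Eig J) (a b : Fin n) :
    ∑ x, E.V x a * E.V x b = if a = b then 1 else 0 := by
  have := congrFun (congrFun E.left a) b
  rw [Matrix.mul_apply, Matrix.one_apply] at this
  simpa using this

lemma Eig.entry (E : Eig J) (l : ℕ) (a b : Fin n) :
    ∑ p : Fin n × Fin n, (J ^ l) p.1 p.2 * (E.V p.1 a * E.V p.2 b)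
      = if a = b then E.lam a ^ l else 0 := by
  have h1 : E.Vᵀ * J ^ l * E.V = Matrix.diagonal (fun a => E.lam a ^ l) := by
    rw [E.pow_eq, Eig.apply]
    simp only [← Matrix.mul_assoc, E.left, Matrix.one_mul]
    rw [Matrix.mul_assoc, E.left, Matrix.mul_one]
  have h2 := congrFun (congrFun h1 a) b
  rw [Matrix.diagonal_apply, Matrix.mul_apply] at h2
  rw [← h2, Fintype.sum_prod_type, Finset.sum_comm]
  refine Finset.sum_congr rfl fun y _ => ?_
  rw [Matrix.mul_apply, Finset.sum_mul]
  refine Finset.sum_congr rfl fun x _ => ?_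
  rw [Matrix.transpose_apply]
  ring

lemma Eig.abs_lam_le (E : Eig J)
    (h : ∀ x : Fin n → ℝ, |∑ i, ∑ j, x i * J i j * x j| ≤ 2 * ∑ i, x i ^ 2) (a : Fin n) :
    |E.lam a| ≤ 2 := by
  have h1 := h fun i => E.V i a
  have h2 : ∑ i, ∑ j, E.V i a * J i j * E.V j a = E.lam a := by
    have h3 := E.entry 1 a a
    rw [if_pos rfl, pow_one, pow_one, Fintype.sum_prod_type] at h3
    rw [← h3]
    exact Finset.sum_congr rfl fun i _ => Finset.sum_congr rfl fun j _ => by ring
  have h4 : ∑ i, E.V i a ^ 2 = 1 := by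
    have := E.orth' a a
    simpa [sq] using this
  rw [h2, h4] at h1
  linarith

end Diag

/-! ### Coefficients of polynomials on injective tuples -/

/-- A polynomial of degree at most `K` in each of `P` eigenvalues. -/
noncomputable def poly {n P : ℕ} (K : ℕ) (lam : Fin n → ℝ) (c : (Fin P → Fin (K + 1)) → ℝ)
    (b : Fin P → Fin n) : ℝ :=
  ∑ l, c l * ∏ i, cheb (l i) (lam (b i))

/-- One variable outside a small set. -/
lemma sum_sdiff_ge {n : ℕ} {K : ℕ} {lam : Fin n → ℝ} (hlam : ∀ a, |lam a| ≤ 2)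
    (htr : ∀ m, 1 ≤ m → m ≤ 2 * K → |∑ a, cheb m (lam a)| ≤ eps K * n)
    (s : Finset (Fin n)) (hs : 4 * ((K : ℝ) + 1) ^ 3 * s.card ≤ n) (h : Fin (K + 1) → ℝ) :
    (n : ℝ) / 2 * ∑ m, h m ^ 2 ≤
      ∑ a ∈ univ \ s, (∑ m : Fin (K + 1), h m * cheb m (lam a)) ^ 2 := by
  classical
  set F : Fin n → ℝ := fun a => (∑ m : Fin (K + 1), h m * cheb m (lam a)) ^ 2 with hF
  set N := ∑ m, h m ^ 2 with hN
  have hN0 : 0 ≤ N := Finset.sum_nonneg fun m _ => sq_nonneg _
  have heps : 0 < eps K := by unfold eps; positivity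
  have hG : ∀ a b : Fin (K + 1), |(∑ x, cheb a (lam x) * cheb b (lam x)) - if a = b then (n : ℝ) else 0|
      ≤ ((K : ℝ) + 1) * (eps K * n) := by
    intro a b
    wlog hab : (a : ℕ) ≤ b generalizing a b with H
    · have := H b a (by omega)
      simp only [eq_comm (a := a), mul_comm (cheb a _)]
      exact this
    simp only [cheb_mul _ _ _ hab]
    rw [Finset.sum_comm]
    have ha := a.2
    have hb := b.2
    by_cases he : a = b
    · subst he
      rw [if_pos rfl, Finset.sum_range_succ']
      simp only [Nat.sub_self, zero_add, mul_zero, cheb_zero, Finset.sum_const, Finset.card_univ,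
        Fintype.card_fin, nsmul_eq_mul, mul_one, add_sub_cancel_right]
      refine (Finset.abs_sum_le_sum_abs _ _).trans ((Finset.sum_le_card_nsmul _ _ (eps K * n)
        fun j hj => htr _ (by omega) ?_).trans ?_)
      · have := Finset.mem_range.1 hj; omega
      · rw [Finset.card_range, nsmul_eq_mul]
        refine mul_le_mul_of_nonneg_right ?_ (by positivity)
        have : (a : ℕ) ≤ K + 1 := by omega
        exact_mod_cast this
    · rw [if_neg he, sub_zero]
      have hne : (a : ℕ) ≠ b := fun h => he (Fin.ext h)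
      refine (Finset.abs_sum_le_sum_abs _ _).trans ((Finset.sum_le_card_nsmul _ _ (eps K * n)
        fun j hj => htr _ (by omega) ?_).trans ?_)
      · have := Finset.mem_range.1 hj; omega
      · rw [Finset.card_range, nsmul_eq_mul]
        refine mul_le_mul_of_nonneg_right ?_ (by positivity)
        have : (a : ℕ) + 1 ≤ K + 1 := by omega
        exact_mod_cast this
  -- the full sum
  have hfull : (n : ℝ) * N - ((K : ℝ) + 1) ^ 2 * (eps K * n) * N ≤ ∑ a, F a := by
    have e1 : ∑ a, F a = ∑ a : Fin (K + 1), ∑ b : Fin (K + 1),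
        h a * h b * ∑ x, cheb a (lam x) * cheb b (lam x) := by
      calc ∑ a, F a = ∑ x, ∑ a : Fin (K + 1), ∑ b : Fin (K + 1),
            h a * h b * (cheb a (lam x) * cheb b (lam x)) := by
            refine Finset.sum_congr rfl fun x _ => ?_
            simp only [hF]
            rw [sq, Finset.sum_mul_sum]
            exact Finset.sum_congr rfl fun i _ => Finset.sum_congr rfl fun j _ => by ring
        _ = _ := by
            rw [Finset.sum_comm]
            refine Finset.sum_congr rfl fun i _ => ?_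
            rw [Finset.sum_comm]
            exact Finset.sum_congr rfl fun j _ => (Finset.mul_sum _ _ _).symm
    have e2 : (n : ℝ) * N = ∑ a : Fin (K + 1), ∑ b : Fin (K + 1),
        h a * h b * if a = b then (n : ℝ) else 0 := by
      simp [hN, Finset.mul_sum]
      exact Finset.sum_congr rfl fun i _ => by ring
    have e3 : |∑ a, F a - n * N| ≤ ((K : ℝ) + 1) ^ 2 * (eps K * n) * N := by
      rw [e1, e2, ← Finset.sum_sub_distrib]
      simp only [← Finset.sum_sub_distrib, ← mul_sub]
      refine (Finset.abs_sum_le_sum_abs _ _).trans ?_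
      refine (Finset.sum_le_sum fun i _ => Finset.abs_sum_le_sum_abs _ _).trans ?_
      refine (Finset.sum_le_sum fun i _ => Finset.sum_le_sum fun j _ => (abs_mul _ _).le.trans
        (mul_le_mul_of_nonneg_left (hG i j) (abs_nonneg _))).trans ?_
      simp only [← Finset.sum_mul, abs_mul, ← Finset.mul_sum]
      have hcs : (∑ i, |h i|) * (∑ i, |h i|) ≤ ((K : ℝ) + 1) * N := by
        rw [← sq]
        refine sq_sum_le_card_mul_sum_sq.trans (le_of_eq ?_)
        simp [hN, sq_abs]
      calc (∑ i, |h i|) * (∑ i, |h i|) * (((K : ℝ) + 1) * (eps K * n))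
          ≤ ((K : ℝ) + 1) * N * (((K : ℝ) + 1) * (eps K * n)) :=
            mul_le_mul_of_nonneg_right hcs (by positivity)
        _ = _ := by ring
    linarith [(abs_le.1 e3).1]
  -- the removed part
  have hrem : ∑ a ∈ s, F a ≤ s.card * ((((K : ℝ) + 1) ^ 3) * N) := by
    rw [← nsmul_eq_mul]
    refine Finset.sum_le_card_nsmul _ _ _ fun a _ => ?_
    refine (Finset.sum_mul_sq_le_sq_mul_sq univ h fun m : Fin (K + 1) => cheb m (lam a)).trans ?_
    rw [mul_comm _ N]
    refine mul_le_mul_of_nonneg_left ?_ hN0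
    refine (Finset.sum_le_card_nsmul _ _ (((K : ℝ) + 1) ^ 2) fun m _ => ?_).trans (le_of_eq ?_)
    · rw [← sq_abs]
      refine pow_le_pow_left₀ (abs_nonneg _) ((abs_cheb_le (hlam a) m).trans ?_) 2
      have hm : (m : ℕ) ≤ K := by omega
      have : ((m : ℕ) : ℝ) ≤ K := by exact_mod_cast hm
      linarith
    · simp; ring
  have hsmall : ((K : ℝ) + 1) ^ 2 * eps K ≤ 1 / 8 := by
    unfold eps
    rw [mul_div, mul_one, div_le_iff₀ (by positivity)]
    have : (1 : ℝ) ≤ (K : ℝ) + 1 := by simp
    have := pow_le_pow_right₀ this (show 2 ≤ 6 by norm_num)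
    linarith
  rw [Finset.sum_sdiff_eq_sub (Finset.subset_univ s)]
  change _ ≤ ∑ a, F a - ∑ a ∈ s, F a
  have hnN : 0 ≤ (n : ℝ) * N := mul_nonneg (Nat.cast_nonneg _) hN0
  have a1 := mul_le_mul_of_nonneg_right (mul_le_mul_of_nonneg_right hsmall (Nat.cast_nonneg n)) hN0
  have a2 := mul_le_mul_of_nonneg_right hs hN0
  linarith

/-- The coefficients are controlled by the values on injective tuples. -/
lemma coeff_le {n K : ℕ} {lam : Fin n → ℝ} (hlam : ∀ a, |lam a| ≤ 2)
    (htr : ∀ m, 1 ≤ m → m ≤ 2 * K → |∑ a, cheb m (lam a)| ≤ eps K * n) :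
    ∀ (P : ℕ), 4 * ((K : ℝ) + 1) ^ 3 * P ≤ n → ∀ c : (Fin P → Fin (K + 1)) → ℝ,
      ((n : ℝ) / 2) ^ P * ∑ l, c l ^ 2 ≤
        ∑ b ∈ univ.filter (fun b : Fin P → Fin n => Function.Injective b), poly K lam c b ^ 2 := by
  classical
  intro P
  induction P with
  | zero =>
    intro _ c
    rw [Finset.filter_true_of_mem fun b _ => Function.injective_of_subsingleton b]
    simp [poly, Fintype.sum_unique]
  | succ P ih =>
    intro hP c
    push_cast at hP
    have hP' : 4 * ((K : ℝ) + 1) ^ 3 * P ≤ n := by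
      have : (0 : ℝ) ≤ ((K : ℝ) + 1) ^ 3 := by positivity
      linarith
    have hne : (0 : ℝ) ≤ (n : ℝ) / 2 := by positivity
    set cm : Fin (K + 1) → (Fin P → Fin (K + 1)) → ℝ := fun m l => c (Fin.cons m l) with hcm
    have hsplit : ∀ a b, poly K lam c (Fin.cons a b)
        = ∑ m : Fin (K + 1), poly K lam (cm m) b * cheb m (lam a) := by
      intro a b
      rw [poly, ← (Fin.consEquiv fun _ => Fin (K + 1)).sum_comp, Fintype.sum_prod_type]
      refine Finset.sum_congr rfl fun m _ => ?_
      rw [poly, Finset.sum_mul]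
      refine Finset.sum_congr rfl fun l _ => ?_
      simp [Fin.prod_univ_succ, hcm, Fin.consEquiv]
      ring
    have hnorm : ∑ l, c l ^ 2 = ∑ m, ∑ l, cm m l ^ 2 := by
      rw [← (Fin.consEquiv fun _ => Fin (K + 1)).sum_comp, Fintype.sum_prod_type]
      rfl
    calc ((n : ℝ) / 2) ^ (P + 1) * ∑ l, c l ^ 2
        = (n : ℝ) / 2 * ∑ m, ((n : ℝ) / 2) ^ P * ∑ l, cm m l ^ 2 := by
          rw [hnorm, ← Finset.mul_sum]; ring
      _ ≤ (n : ℝ) / 2 * ∑ m, ∑ b ∈ univ.filter (fun b : Fin P → Fin n => Function.Injective b),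
            poly K lam (cm m) b ^ 2 :=
          mul_le_mul_of_nonneg_left (Finset.sum_le_sum fun m _ => ih hP' _) hne
      _ = ∑ b ∈ univ.filter (fun b : Fin P → Fin n => Function.Injective b),
            (n : ℝ) / 2 * ∑ m, poly K lam (cm m) b ^ 2 := by
          rw [Finset.sum_comm, Finset.mul_sum]
      _ ≤ ∑ b ∈ univ.filter (fun b : Fin P → Fin n => Function.Injective b),
            ∑ a ∈ univ \ univ.image b, poly K lam c (Fin.cons a b) ^ 2 := by
          refine Finset.sum_le_sum fun b _ => ?_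
          simp only [hsplit]
          refine sum_sdiff_ge hlam htr _ ?_ _
          refine le_trans (mul_le_mul_of_nonneg_left ?_ (by positivity)) hP'
          have : (univ.image b).card ≤ P := Finset.card_image_le.trans (by simp)
          exact_mod_cast this
      _ = ∑ b ∈ univ.filter (fun b : Fin (P + 1) → Fin n => Function.Injective b),
            poly K lam c b ^ 2 := by
          rw [Finset.sum_filter, Finset.sum_filter,
            ← (Fin.consEquiv fun _ => Fin n).sum_comp, Fintype.sum_prod_type, Finset.sum_comm]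
          refine Finset.sum_congr rfl fun b _ => ?_
          simp only [Fin.consEquiv, Equiv.coe_fn_mk, Fin.cons_injective_iff]
          by_cases hb : Function.Injective b
          · simp only [hb, and_true, if_true]
            rw [← Finset.sum_filter]
            refine Finset.sum_congr ?_ fun a _ => rfl
            ext a
            simp
          · simp [hb]

/-! ### Pairings of the ports -/

variable {n : ℕ} {Q : Type} [Fintype Q] [DecidableEq Q]

/-- A pairing of the ports, as a fixed point free involution with an enumeration of its pairs. -/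
def IsPairing (P : ℕ) (π : Q → Q) : Prop :=
  ∃ σ : Fin P × Bool ≃ Q, ∀ i b, π (σ (i, b)) = σ (i, !b)

/-- All pairings. -/
abbrev Pairing (Q : Type) [Fintype Q] [DecidableEq Q] (P : ℕ) : Type :=
  {π : Q → Q // IsPairing P π}

noncomputable instance (P : ℕ) : Fintype (Pairing Q P) := Fintype.ofFinite _

/-- The chosen enumeration. -/
noncomputable def Pairing.enum {P : ℕ} (π : Pairing Q P) : Fin P × Bool ≃ Q := π.2.choose

lemma Pairing.enum_spec {P : ℕ} (π : Pairing Q P) (i : Fin P) (b : Bool) :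
    π.1 (π.enum (i, b)) = π.enum (i, !b) := π.2.choose_spec i b

lemma Pairing.ne_self {P : ℕ} (π : Pairing Q P) (q : Q) : π.1 q ≠ q := by
  intro h
  rw [← π.enum.apply_symm_apply q, π.enum_spec, π.enum.injective.eq_iff, Prod.ext_iff] at h
  exact Bool.not_ne_self _ h.2

/-- The pair of a port. -/
noncomputable def Pairing.pr {P : ℕ} (π : Pairing Q P) (q : Q) : Fin P := (π.enum.symm q).1

lemma Pairing.pr_self {P : ℕ} (π : Pairing Q P) (q : Q) : π.pr (π.1 q) = π.pr q := by
  conv_lhs => rw [← π.enum.apply_symm_apply q, π.enum_spec]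
  simp [Pairing.pr]

lemma Pairing.comp_pr {P : ℕ} (π : Pairing Q P) {α : Type} (a : Q → α) (h : ∀ q, a (π.1 q) = a q)
    (q : Q) : a (π.enum (π.pr q, false)) = a q := by
  obtain ⟨⟨i, b⟩, rfl⟩ := π.enum.surjective q
  simp only [Pairing.pr, Equiv.symm_apply_apply]
  cases b
  · rfl
  · rw [← h (π.enum (i, true)), π.enum_spec]; rfl

/-- The transform of a network in the eigenbasis. -/
noncomputable def hat {J : Matrix (Fin n) (Fin n) ℝ} (E : Eig J) (T : (Q → Fin n) → ℝ)
    (a : Q → Fin n) : ℝ :=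
  ∑ x, T x * ∏ q, E.V (x q) (a q)

lemma hat_pairing {J : Matrix (Fin n) (Fin n) ℝ} (E : Eig J) (T U : (Q → Fin n) → ℝ) :
    ∑ a, hat E T a * hat E U a = ∑ x, T x * U x := by
  have key : ∀ x y : Q → Fin n,
      ∑ a : Q → Fin n, (∏ q, E.V (x q) (a q)) * ∏ q, E.V (y q) (a q)
        = if x = y then 1 else 0 := by
    intro x y
    simp only [← Finset.prod_mul_distrib]
    rw [← Fintype.prod_sum (f := fun q a => E.V (x q) a * E.V (y q) a)]
    simp only [E.orth]
    by_cases h : x = y
    · simp [h]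
    · rw [if_neg h]
      obtain ⟨q, hq⟩ := Function.ne_iff.1 h
      exact Finset.prod_eq_zero (Finset.mem_univ q) (if_neg hq)
  simp only [hat, Finset.sum_mul_sum]
  rw [Finset.sum_comm]
  refine Finset.sum_congr rfl fun x _ => ?_
  rw [Finset.sum_comm]
  rw [Finset.sum_congr rfl fun y _ => show
      ∑ a : Q → Fin n, T x * (∏ q, E.V (x q) (a q)) * (U y * ∏ q, E.V (y q) (a q))
        = if x = y then T x * U y else 0 from by
    calc _ = T x * U y * ∑ a : Q → Fin n, (∏ q, E.V (x q) (a q)) * ∏ q, E.V (y q) (a q) := by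
          rw [Finset.mul_sum]; exact Finset.sum_congr rfl fun a _ => by ring
      _ = _ := by rw [key]; simp]
  simp

lemma hat_prod {J : Matrix (Fin n) (Fin n) ℝ} (E : Eig J) (u : Q → Fin n → ℝ) (a : Q → Fin n) :
    hat E (fun x => ∏ q, u q (x q)) a = ∏ q, ∑ y, u q y * E.V y (a q) := by
  rw [Fintype.prod_sum, hat]
  exact Finset.sum_congr rfl fun x _ => (Finset.prod_mul_distrib).symm

omit [Fintype Q] [DecidableEq Q] in
/-- A generator is a product over pairs. -/
lemma Gen.exists_pairs {M : Matrix (Fin n) (Fin n) ℝ} {d : ℕ} {f : (Q → Fin n) → ℝ}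
    (h : Gen M Q d f) : ∃ (m : ℕ) (σ : Fin m × Bool ≃ Q) (l : Fin m → ℕ), ∑ i, l i = d ∧
      ∀ x, f x = ∏ i, (M ^ l i) (x (σ (i, false))) (x (σ (i, true))) := by
  induction h with
  | @nil Q e =>
    exact ⟨0, (Equiv.equivEmpty _).trans e.symm, Fin.elim0, by simp, fun x => by simp⟩
  | @cons Q Q' e d g l h ih =>
    obtain ⟨m, σ, ls, hsum, hf⟩ := ih
    let τ : Fin (m + 1) × Bool ≃ Q :=
      ((Equiv.prodCongr ((finSuccEquiv' (Fin.last m)).trans (Equiv.optionEquivSumPUnit.{0, 0} _))
        (Equiv.refl Bool)).trans ((Equiv.sumProdDistrib _ _ _).trans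
          (Equiv.sumCongr σ (Equiv.punitProd Bool)))).trans e
    refine ⟨m + 1, τ, Fin.snoc ls l, by simp [Fin.sum_univ_castSucc, hsum], fun x => ?_⟩
    have h1 : ∀ i b, τ (Fin.castSucc i, b) = e (.inl (σ (i, b))) := fun i b => by
      simp [τ, finSuccEquiv'_below (Fin.castSucc_lt_last i)]
    have h2 : ∀ b, τ (Fin.last m, b) = e (.inr b) := fun b => by
      simp [τ, finSuccEquiv'_at]
    rw [Fin.prod_univ_castSucc]
    simp only [hf]
    simp only [Fin.snoc_castSucc, Fin.snoc_last, h1, h2]
    ring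

lemma hat_gen {J : Matrix (Fin n) (Fin n) ℝ} (E : Eig J) {P : ℕ} (σ : Fin P × Bool ≃ Q)
    (l : Fin P → ℕ) (a : Q → Fin n) :
    hat E (fun x => ∏ i, (J ^ l i) (x (σ (i, false))) (x (σ (i, true)))) a
      = ∏ i, if a (σ (i, false)) = a (σ (i, true)) then E.lam (a (σ (i, false))) ^ l i else 0 := by
  have e1 : ∀ i, (if a (σ (i, false)) = a (σ (i, true)) then E.lam (a (σ (i, false))) ^ l i else 0)
      = ∑ p : Fin n × Fin n,
        (J ^ l i) p.1 p.2 * (E.V p.1 (a (σ (i, false))) * E.V p.2 (a (σ (i, true)))) :=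
    fun i => (E.entry _ _ _).symm
  simp only [e1]
  rw [Fintype.prod_sum, hat]
  refine Fintype.sum_equiv
    { toFun := fun x i => (x (σ (i, false)), x (σ (i, true)))
      invFun := fun y q => if (σ.symm q).2 then (y (σ.symm q).1).2 else (y (σ.symm q).1).1
      left_inv := fun x => funext fun q => by
        obtain ⟨⟨i, b⟩, rfl⟩ := σ.surjective q
        cases b <;> simp
      right_inv := fun y => funext fun i => by simp } _ _ fun x => ?_
  simp only [Equiv.coe_fn_mk]
  rw [← σ.prod_comp, Fintype.prod_prod_type]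
  simp only [Fintype.prod_bool]
  rw [← Finset.prod_mul_distrib]
  exact Finset.prod_congr rfl fun i _ => by ring

/-- The transform is a sum over pairings of polynomials in the eigenvalues. -/
def HasRep {J : Matrix (Fin n) (Fin n) ℝ} (E : Eig J) (K P : ℕ) (T : (Q → Fin n) → ℝ) : Prop :=
  ∃ c : Pairing Q P → (Fin P → Fin (K + 1)) → ℝ, ∀ a,
    hat E T a = ∑ π : Pairing Q P,
      if ∀ q, a (π.1 q) = a q then poly K E.lam (c π) (fun i => a (π.enum (i, false))) else 0

lemma hasRep_gen {J : Matrix (Fin n) (Fin n) ℝ} (E : Eig J) {K P d : ℕ}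
    (hQ : Fintype.card Q = 2 * P) (hd : d ≤ K) {f : (Q → Fin n) → ℝ} (hf : Gen J Q d f) :
    HasRep E K P f := by
  classical
  obtain ⟨m, σ, l, hl, hfx⟩ := hf.exists_pairs
  obtain rfl : m = P := by
    have := Fintype.card_congr σ
    simp [Fintype.card_prod, hQ] at this
    omega
  let π₀ : Pairing Q m :=
    ⟨fun q => σ ((σ.symm q).1, !(σ.symm q).2), σ, fun i b => by simp⟩
  let τ : Fin m → Fin m := fun i => π₀.pr (σ (i, false))
  have hτ : Function.Bijective τ := by
    refine Finite.injective_iff_bijective.1 fun i j hij => ?_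
    have key : ∀ q q', π₀.pr q = π₀.pr q' → q' = q ∨ q' = π₀.1 q := by
      intro q q' h
      obtain ⟨⟨i, b⟩, rfl⟩ := π₀.enum.surjective q
      obtain ⟨⟨i', b'⟩, rfl⟩ := π₀.enum.surjective q'
      simp only [Pairing.pr, Equiv.symm_apply_apply] at h
      subst h
      rw [π₀.enum_spec]
      cases b <;> cases b' <;> simp
    rcases key _ _ hij with h | h
    · exact (congrArg Prod.fst (σ.injective h)).symm
    · simp [π₀] at h
  let eτ := Equiv.ofBijective τ hτ
  choose cl hcl0 hcl using fun i => pow_eq_sum_cheb (l i)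
  refine ⟨fun π L => if π = π₀ then ∏ j, cl (eτ.symm j) (L j) else 0, fun a => ?_⟩
  rw [Finset.sum_eq_single π₀ (fun π _ hne => ?_) (fun h => absurd (Finset.mem_univ _) h)]
  swap
  · simp [poly, hne]
  rw [show hat E f a = hat E (fun x => ∏ i, (J ^ l i) (x (σ (i, false))) (x (σ (i, true)))) a by
    rw [funext hfx], hat_gen]
  have hinv : (∀ q, a (π₀.1 q) = a q) ↔ ∀ i, a (σ (i, false)) = a (σ (i, true)) := by
    constructor
    · intro h i
      have := h (σ (i, true))
      simpa [π₀] using this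
    · intro h q
      obtain ⟨⟨i, b⟩, rfl⟩ := σ.surjective q
      cases b <;> simp [π₀, h i]
  by_cases ha : ∀ q, a (π₀.1 q) = a q
  · rw [if_pos ha]
    simp only [poly, if_true]
    simp only [hinv.1 ha, if_true]
    have e1 : ∀ i, E.lam (a (σ (i, true))) ^ l i
        = ∑ M : Fin (K + 1), cl i M * cheb M (E.lam (a (σ (i, true)))) := fun i => by
      rw [hcl i _ K ((Finset.single_le_sum (fun j _ => Nat.zero_le (l j))
        (Finset.mem_univ i)).trans (hl.le.trans hd)), Finset.sum_range]
    simp only [e1]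
    rw [← eτ.symm.prod_comp, Fintype.prod_sum]
    refine Finset.sum_congr rfl fun L _ => ?_
    rw [← Finset.prod_mul_distrib]
    refine Finset.prod_congr rfl fun j _ => ?_
    have h2 := π₀.comp_pr a ha (σ (eτ.symm j, false))
    have h3 : π₀.pr (σ (eτ.symm j, false)) = j := eτ.apply_symm_apply j
    rw [h3] at h2
    rw [h2, ← hinv.1 ha]
  · rw [if_neg ha]
    obtain ⟨i, hi⟩ := not_forall.1 (mt hinv.2 ha)
    exact Finset.prod_eq_zero (Finset.mem_univ i) (if_neg hi)

lemma jMat_eq (K : ℕ) (G : Arr n) :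
    jMat K G = (2 / ((1 + eta K) * Real.sqrt (2 * n))) • symMat G := by
  ext i j
  simp [jMat, symMat, symE]

lemma Gen.smul_base {M : Matrix (Fin n) (Fin n) ℝ} {Q : Type} {d : ℕ} {f : (Q → Fin n) → ℝ}
    (h : Gen M Q d f) (s : ℝ) : Gen (s • M) Q d fun x => s ^ d * f x := by
  induction h with
  | nil e => simpa using Gen.nil e
  | @cons Q Q' e d g l h ih =>
    convert Gen.cons e l ih using 1
    funext x
    rw [smul_pow, Matrix.smul_apply, smul_eq_mul, pow_add]
    ring

lemma hasRep_net {K P d : ℕ} {G : Arr n} (E : Eig (jMat K G)) (hn : 0 < n)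
    (hQ : Fintype.card Q = 2 * P) (hd : d ≤ K) {T : (Q → Fin n) → ℝ}
    (hT : T ∈ Net (symMat G) Q d) : HasRep E K P T := by
  classical
  refine Submodule.span_induction ?_ ?_ ?_ ?_ hT
  · rintro f ⟨d', hd', hf⟩
    set s := 2 / ((1 + eta K) * Real.sqrt (2 * n)) with hs
    have hs0 : s ≠ 0 := by
      have : 0 < eta K := by unfold eta; positivity
      have : (0 : ℝ) < n := Nat.cast_pos.2 hn
      positivity
    have h1 : Gen (jMat K G) Q d' fun x => s ^ d' * f x := by
      rw [jMat_eq]; exact hf.smul_base s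
    obtain ⟨c, hc⟩ := hasRep_gen E hQ (hd'.trans hd) h1
    refine ⟨fun π L => (s ^ d')⁻¹ * c π L, fun a => ?_⟩
    have : hat E f a = (s ^ d')⁻¹ * hat E (fun x => s ^ d' * f x) a := by
      simp only [hat, Finset.mul_sum]
      refine Finset.sum_congr rfl fun x _ => ?_
      field_simp
    rw [this, hc, Finset.mul_sum]
    refine Finset.sum_congr rfl fun π _ => ?_
    split_ifs <;> simp [poly, Finset.mul_sum, mul_assoc]
  · exact ⟨fun _ _ => 0, fun a => by simp [hat, poly]⟩
  · rintro f g _ _ ⟨c, hc⟩ ⟨c', hc'⟩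
    refine ⟨fun π L => c π L + c' π L, fun a => ?_⟩
    have : hat E (f + g) a = hat E f a + hat E g a := by
      simp only [hat, Pi.add_apply, add_mul, Finset.sum_add_distrib]
    rw [this, hc, hc', ← Finset.sum_add_distrib]
    refine Finset.sum_congr rfl fun π _ => ?_
    split_ifs <;> simp [poly, add_mul, Finset.sum_add_distrib]
  · rintro r f _ ⟨c, hc⟩
    refine ⟨fun π L => r * c π L, fun a => ?_⟩
    have : hat E (r • f) a = r * hat E f a := by
      simp [hat, Finset.mul_sum, mul_assoc]
    rw [this, hc, Finset.mul_sum]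
    refine Finset.sum_congr rfl fun π _ => ?_
    split_ifs <;> simp [poly, Finset.mul_sum, mul_assoc]

/-- Distinct pairings do not share injective tuples. -/
lemma Pairing.eq_of_injective {P : ℕ} (π π' : Pairing Q P) {α : Type} {b : Fin P → α}
    (hb : Function.Injective b) (h : ∀ q, b (π.pr (π'.1 q)) = b (π.pr q)) : π' = π := by
  refine Subtype.ext (funext fun q => ?_)
  have h1 := hb (h q)
  have h2 : π'.1 q ≠ q := π'.ne_self q
  obtain ⟨⟨i, c⟩, hi⟩ := π.enum.surjective q
  obtain ⟨⟨j, c'⟩, hj⟩ := π.enum.surjective (π'.1 q)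
  rw [← hj, ← hi] at h1
  simp only [Pairing.pr, Equiv.symm_apply_apply] at h1
  subst h1
  rw [← hj, ← hi, π.enum_spec]
  rw [← hj, ← hi, Ne, π.enum.injective.eq_iff] at h2
  cases c <;> cases c' <;> simp_all

/-- A network is small against product vectors on the good event. -/
theorem eigen_statement : EigenStatement := by
  intro n K G Q _ _ P d hG hn hQ hP hd hbig T hT u hu
  classical
  obtain ⟨hnorm, htrace⟩ := hG
  have hherm : (jMat K G).IsHermitian := by
    refine Matrix.ext fun i j => ?_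
    simp [Matrix.conjTranspose_apply, jMat, add_comm]
  obtain ⟨E⟩ := exists_eig hherm
  have hlam := E.abs_lam_le hnorm
  have htr : ∀ m, 1 ≤ m → m ≤ 2 * K → |∑ a, cheb m (E.lam a)| ≤ eps K * n := fun m h1 h2 => by
    rw [← E.trace_apply, ← E.uMat_eq]; exact htrace m h1 h2
  obtain ⟨c, hc⟩ := hasRep_net E hn hQ hd hT
  set A := ∑ π : Pairing Q P, ∑ L, c π L ^ 2 with hA
  set S := ∑ x, T x ^ 2 with hS
  have hK1 : (1 : ℝ) ≤ (K : ℝ) + 1 := by simp
  have hcap : 4 * ((K : ℝ) + 1) ^ 3 * P ≤ n := by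
    have hP' : (P : ℝ) ≤ 4 * K := by exact_mod_cast hP
    refine le_trans ?_ hbig
    have h1 : 4 * ((K : ℝ) + 1) ^ 3 * P ≤ 16 * ((K : ℝ) + 1) ^ 4 := by
      have := mul_le_mul_of_nonneg_left (show (P : ℝ) ≤ 4 * ((K : ℝ) + 1) by linarith)
        (show (0 : ℝ) ≤ 4 * ((K : ℝ) + 1) ^ 3 by positivity)
      linarith
    have h2 : ((K : ℝ) + 1) ^ 4 ≤ ((K : ℝ) + 1) ^ 5 := pow_le_pow_right₀ hK1 (by norm_num)
    have h3 : (0 : ℝ) ≤ ((K : ℝ) + 1) ^ 5 := by positivity
    rw [mul_pow]
    linarith
  -- lower bound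
  have hlow : ((n : ℝ) / 2) ^ P * A ≤ S := by
    have hS' : S = ∑ a, hat E T a ^ 2 := by
      simp only [hS, sq]; exact (hat_pairing E T T).symm
    rw [hS', hA, Finset.mul_sum]
    refine (Finset.sum_le_sum fun π _ => coeff_le hlam htr P hcap (c π)).trans ?_
    rw [Finset.sum_sigma']
    set D := (univ : Finset (Pairing Q P)).sigma
      fun _ => univ.filter fun b : Fin P → Fin n => Function.Injective b
    have hval : ∀ z ∈ D, hat E T (fun q => z.2 (z.1.pr q)) = poly K E.lam (c z.1) z.2 := by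
      rintro ⟨π, b⟩ hz
      simp only [D, Finset.mem_sigma, Finset.mem_univ, true_and, Finset.mem_filter] at hz
      rw [hc, Finset.sum_eq_single π (fun π' _ hne => if_neg fun h =>
        hne (Pairing.eq_of_injective π π' hz h)) (fun h => absurd (Finset.mem_univ _) h),
        if_pos fun q => congrArg b (π.pr_self q)]
      congr 1
      funext i
      simp [Pairing.pr]
    have hinj : Set.InjOn (fun z : (_ : Pairing Q P) × (Fin P → Fin n) => fun q => z.2 (z.1.pr q))
        D := by
      rintro ⟨π, b⟩ hz ⟨π', b'⟩ hz' he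
      simp only [D, Finset.coe_sigma, Set.mem_sigma_iff, Finset.coe_univ, Set.mem_univ, true_and,
        Finset.coe_filter, Finset.mem_univ, Set.mem_setOf_eq] at hz hz'
      have hinv : ∀ q, b (π.pr (π'.1 q)) = b (π.pr q) := fun q => by
        have h1 := congrFun he (π'.1 q)
        have h2 := congrFun he q
        simp only at h1 h2
        rw [h1, h2, π'.pr_self]
      obtain rfl : π' = π := Pairing.eq_of_injective π π' hz hinv
      obtain rfl : b = b' := funext fun i => by
        have := congrFun he (π'.enum (i, false))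
        simpa [Pairing.pr] using this
      rfl
    calc ∑ z ∈ D, poly K E.lam (c z.1) z.2 ^ 2
        = ∑ z ∈ D, hat E T (fun q => z.2 (z.1.pr q)) ^ 2 :=
          Finset.sum_congr rfl fun z hz => by rw [hval z hz]
      _ = ∑ a ∈ D.image (fun z => fun q => z.2 (z.1.pr q)), hat E T a ^ 2 :=
          (Finset.sum_image (f := fun a => hat E T a ^ 2) hinj).symm
      _ ≤ ∑ a, hat E T a ^ 2 :=
          Finset.sum_le_sum_of_subset_of_nonneg (Finset.subset_univ _) fun a _ _ => sq_nonneg _
  -- upper bound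
  set w : Q → Fin n → ℝ := fun q a => ∑ y, u q y * E.V y a with hw
  have hwn : ∀ q, ∑ a, w q a ^ 2 ≤ n := fun q => by
    have : ∑ a, w q a ^ 2 = ∑ y, u q y ^ 2 := by
      simp only [hw, sq, Finset.sum_mul_sum]
      rw [Finset.sum_comm]
      refine Finset.sum_congr rfl fun y _ => ?_
      rw [Finset.sum_comm]
      rw [Finset.sum_congr rfl fun z _ => show
          ∑ a, u q y * E.V y a * (u q z * E.V z a) = u q y * u q z * if y = z then 1 else 0 from by
        rw [← E.orth, Finset.mul_sum]; exact Finset.sum_congr rfl fun a _ => by ring]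
      simp
    rw [this]
    refine (Finset.sum_le_card_nsmul _ _ 1 fun y _ => ?_).trans (le_of_eq (by simp))
    exact (sq_le_one_iff_abs_le_one _).2 (hu q y)
  have hpair : ∀ q q', ∑ a, |w q a * w q' a| ≤ n := fun q q' => by
    calc ∑ a, |w q a * w q' a| ≤ ∑ a, (w q a ^ 2 + w q' a ^ 2) / 2 :=
          Finset.sum_le_sum fun a _ => by
            rw [abs_mul, ← sq_abs (w q a), ← sq_abs (w q' a)]
            linarith [two_mul_le_add_sq (|w q a|) (|w q' a|)]
      _ ≤ n := by
          rw [← Finset.sum_div, Finset.sum_add_distrib]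
          linarith [hwn q, hwn q']
  have hterm : ∀ π : Pairing Q P,
      |∑ a : Q → Fin n, (if ∀ q, a (π.1 q) = a q then
        poly K E.lam (c π) (fun i => a (π.enum (i, false))) else 0) * ∏ q, w q (a q)|
        ≤ (∑ L, |c π L|) * ((K : ℝ) + 1) ^ P * (n : ℝ) ^ P := by
    intro π
    have e : ∑ a : Q → Fin n, (if ∀ q, a (π.1 q) = a q then
        poly K E.lam (c π) (fun i => a (π.enum (i, false))) else 0) * ∏ q, w q (a q)
        = ∑ b : Fin P → Fin n, poly K E.lam (c π) b *
          ∏ i, (w (π.enum (i, true)) (b i) * w (π.enum (i, false)) (b i)) := by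
      simp only [ite_mul, zero_mul]
      rw [← Finset.sum_filter]
      refine Finset.sum_bij' (fun a _ i => a (π.enum (i, false))) (fun b _ q => b (π.pr q))
        (fun a _ => Finset.mem_univ _) (fun b _ => ?_) (fun a ha => ?_) (fun b _ => ?_)
        fun a ha => ?_
      · simp [π.pr_self]
      · simp only [Finset.mem_filter, Finset.mem_univ, true_and] at ha
        exact funext fun q => π.comp_pr a ha q
      · exact funext fun i => by simp [Pairing.pr]
      · simp only [Finset.mem_filter, Finset.mem_univ, true_and] at ha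
        congr 1
        rw [← π.enum.prod_comp, Fintype.prod_prod_type]
        refine Finset.prod_congr rfl fun i _ => ?_
        have h' := ha (π.enum (i, false))
        rw [π.enum_spec] at h'
        rw [Fintype.prod_bool]
        simp only [Bool.not_false] at h'
        rw [h']
    rw [e]
    refine (Finset.abs_sum_le_sum_abs _ _).trans ?_
    calc ∑ b : Fin P → Fin n, |poly K E.lam (c π) b *
          ∏ i, (w (π.enum (i, true)) (b i) * w (π.enum (i, false)) (b i))|
        ≤ ∑ b : Fin P → Fin n, ((∑ L, |c π L|) * ((K : ℝ) + 1) ^ P) *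
            ∏ i, |w (π.enum (i, true)) (b i) * w (π.enum (i, false)) (b i)| := by
          refine Finset.sum_le_sum fun b _ => ?_
          rw [abs_mul, Finset.abs_prod]
          refine mul_le_mul_of_nonneg_right ?_ (Finset.prod_nonneg fun i _ => abs_nonneg _)
          rw [poly, Finset.sum_mul]
          refine (Finset.abs_sum_le_sum_abs _ _).trans (Finset.sum_le_sum fun L _ => ?_)
          rw [abs_mul, Finset.abs_prod]
          refine mul_le_mul_of_nonneg_left ?_ (abs_nonneg _)
          refine (Finset.prod_le_prod (g := fun _ => (K : ℝ) + 1) (fun i _ => abs_nonneg _) fun i _ =>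
            (abs_cheb_le (hlam _) _).trans ?_).trans (le_of_eq ?_)
          · have hm : ((L i : ℕ)) ≤ K := by omega
            have : ((L i : ℕ) : ℝ) ≤ K := by exact_mod_cast hm
            linarith
          · simp
      _ ≤ (∑ L, |c π L|) * ((K : ℝ) + 1) ^ P * (n : ℝ) ^ P := by
          rw [← Finset.mul_sum,
            ← Fintype.prod_sum (f := fun i a => |w (π.enum (i, true)) a * w (π.enum (i, false)) a|)]
          refine mul_le_mul_of_nonneg_left ?_ (by positivity)
          refine (Finset.prod_le_prod (fun i _ => Finset.sum_nonneg fun a _ => abs_nonneg _)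
            fun i _ => hpair _ _).trans (le_of_eq (by simp))
  have hmain : |∑ x : Q → Fin n, T x * ∏ q, u q (x q)|
      ≤ (∑ π : Pairing Q P, ∑ L, |c π L|) * ((K : ℝ) + 1) ^ P * (n : ℝ) ^ P := by
    rw [← hat_pairing E T (fun x => ∏ q, u q (x q))]
    simp only [hat_prod, hc, Finset.sum_mul]
    rw [Finset.sum_comm]
    refine (Finset.abs_sum_le_sum_abs _ _).trans (Finset.sum_le_sum fun π _ => ?_)
    exact (hterm π).trans (le_of_eq (by rw [Finset.sum_mul, Finset.sum_mul]))
  -- counting
  have hcount : (∑ π : Pairing Q P, ∑ L, |c π L|) ^ 2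
      ≤ ((2 * P : ℕ) : ℝ) ^ (2 * P) * ((K : ℝ) + 1) ^ P * A := by
    rw [hA, ← Fintype.sum_prod_type (f := fun z : Pairing Q P × (Fin P → Fin (K + 1)) => |c z.1 z.2|),
      ← Fintype.sum_prod_type (f := fun z : Pairing Q P × (Fin P → Fin (K + 1)) => c z.1 z.2 ^ 2)]
    refine sq_sum_le_card_mul_sum_sq.trans ?_
    simp only [sq_abs]
    refine mul_le_mul_of_nonneg_right ?_ (Finset.sum_nonneg fun z _ => sq_nonneg _)
    have hcard : Fintype.card (Pairing Q P) ≤ (2 * P) ^ (2 * P) := by
      refine (Fintype.card_le_of_injective _ Subtype.val_injective).trans (le_of_eq ?_)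
      simp [hQ]
    rw [Finset.card_univ, Fintype.card_prod, Fintype.card_fun, Fintype.card_fin, Fintype.card_fin]
    push_cast
    refine mul_le_mul_of_nonneg_right ?_ (by positivity)
    exact_mod_cast hcard
  refine hmain.trans ?_
  have hn0 : (0 : ℝ) < n := Nat.cast_pos.2 hn
  set X := ∑ π : Pairing Q P, ∑ L, |c π L| with hX
  refine (pow_le_pow_iff_left₀ (by positivity) (by positivity) two_ne_zero).1 ?_
  rw [mul_pow ((20 * ((K : ℝ) + 1)) ^ (6 * P)), Real.sq_sqrt (by positivity)]
  calc (X * ((K : ℝ) + 1) ^ P * (n : ℝ) ^ P) ^ 2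
      ≤ (((2 * P : ℕ) : ℝ) ^ (2 * P) * ((K : ℝ) + 1) ^ P * A) * ((K : ℝ) + 1) ^ (2 * P)
          * (n : ℝ) ^ (2 * P) := by
        rw [mul_pow, mul_pow, ← pow_mul, ← pow_mul, mul_comm P 2]
        gcongr
    _ = ((2 * P : ℕ) : ℝ) ^ (2 * P) * ((K : ℝ) + 1) ^ (3 * P) * 2 ^ P * (n : ℝ) ^ P
          * (((n : ℝ) / 2) ^ P * A) := by
        rw [div_pow, two_mul P, show 3 * P = P + P + P by ring]
        simp only [pow_add]
        field_simp
    _ ≤ ((20 * ((K : ℝ) + 1)) ^ (6 * P)) ^ 2 * ((n : ℝ) ^ P * S) := by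
        conv_rhs => rw [← mul_assoc]
        refine mul_le_mul ?_ hlow (by positivity) (by positivity)
        refine mul_le_mul_of_nonneg_right ?_ (by positivity)
        have hPK : ((2 * P : ℕ) : ℝ) ≤ 8 * ((K : ℝ) + 1) := by
          have : (P : ℝ) ≤ 4 * K := by exact_mod_cast hP
          push_cast
          linarith
        rw [pow_mul ((2 * P : ℕ) : ℝ), pow_mul ((K : ℝ) + 1), ← mul_pow, ← mul_pow, ← pow_mul,
          show 6 * P * 2 = 12 * P by ring, pow_mul (20 * ((K : ℝ) + 1))]
        refine pow_le_pow_left₀ (by positivity) ?_ P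
        have h1 := pow_le_pow_left₀ (Nat.cast_nonneg _) hPK 2
        calc ((2 * P : ℕ) : ℝ) ^ 2 * ((K : ℝ) + 1) ^ 3 * 2
            ≤ (8 * ((K : ℝ) + 1)) ^ 2 * ((K : ℝ) + 1) ^ 3 * 2 := by gcongr
          _ = 128 * ((K : ℝ) + 1) ^ 5 := by ring
          _ ≤ (20 * ((K : ℝ) + 1)) ^ 12 := by
              rw [mul_pow]
              exact mul_le_mul (by norm_num) (pow_le_pow_right₀ hK1 (by norm_num)) (by positivity)
                (by norm_num)

end Vale.Agent.P146.Power
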