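import Vale.Agent.P146.Power.Defs
import Vale.Agent.P157.GaussLaw
import Vale.Agent.P166.Parisi.GaussPoincare

/-!
The variance through the mean derivatives, by interpolation between correlated copies.

For `ρ ∈ [0, 1]` and standard Gaussian copies of correlation `ρ`, the sum over words of length `j`
of the expected products of the derivatives is `F j ρ`; the derivative of `F j` is `F (j + 1)` and
every `F j` is nonnegative.
-/

namespace Vale.Agent.P146.Power

open MeasureTheory ProbabilityTheory Finset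
open Vale.Agent.P157 (gauss map_gauss_eq)
open Vale.Agent.P157.Parisi
open Vale.Agent.P166.Parisi.GaussPoincare (hasFDerivAt_of_dir)

namespace Interp

variable {ι : Type} [Fintype ι]

/-- A combination of the two halves of a doubled vector. -/
def lin (s c : ℝ) (q : ι ⊕ ι → ℝ) : ι → ℝ := fun i => s * q (.inl i) + c * q (.inr i)

/-- The weight of the independent copy. -/
noncomputable def co (t : ℝ) : ℝ := Real.sqrt (1 - t ^ 2)

lemma continuous_co : Continuous co := by unfold co; fun_prop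

lemma abs_co_le (t : ℝ) : |co t| ≤ 1 := by
  rw [co, abs_of_nonneg (Real.sqrt_nonneg _), Real.sqrt_le_one]
  nlinarith [sq_nonneg t]

omit [Fintype ι] in
lemma continuous_lin (s c : ℝ) : Continuous (lin (ι := ι) s c) := by unfold lin; fun_prop

omit [Fintype ι] in
lemma lin_apply' (s c : ℝ) (q : ι ⊕ ι → ℝ) :
    lin s c q = fun i => s * q (.inl i) + c * q (.inr i) := rfl

omit [Fintype ι] in
lemma lin_fst (q : ι ⊕ ι → ℝ) : lin 1 0 q = fun i => q (.inl i) := by simp [lin_apply']

omit [Fintype ι] in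
lemma lin_snd (q : ι ⊕ ι → ℝ) : lin 0 1 q = fun i => q (.inr i) := by simp [lin_apply']

/-- The correlation of two functions at copies of correlation `ρ`. -/
noncomputable def corr (u v : (ι → ℝ) → ℝ) (ρ : ℝ) : ℝ :=
  ∫ q, u (lin 1 0 q) * v (lin ρ (co ρ) q) ∂gauss (ι ⊕ ι)

lemma l1_lin_le {s c : ℝ} (hs : |s| ≤ 1) (hc : |c| ≤ 1) (q : ι ⊕ ι → ℝ) :
    l1 (lin s c q) ≤ l1 q := by
  simp only [l1, lin, Fintype.sum_sum_type, ← sum_add_distrib]
  refine sum_le_sum fun i _ => (abs_add_le _ _).trans ?_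
  rw [abs_mul, abs_mul]
  exact add_le_add (mul_le_of_le_one_left (abs_nonneg _) hs)
    (mul_le_of_le_one_left (abs_nonneg _) hc)

lemma bound_lin {f : (ι → ℝ) → ℝ} {C k : ℝ} (hC : 0 ≤ C) (hk : 0 ≤ k)
    (h : ∀ y, |f y| ≤ C * Real.exp (k * l1 y)) {s c : ℝ} (hs : |s| ≤ 1) (hc : |c| ≤ 1)
    (q : ι ⊕ ι → ℝ) : |f (lin s c q)| ≤ C * Real.exp (k * l1 q) :=
  (h _).trans (mul_le_mul_of_nonneg_left
    (Real.exp_le_exp.2 (mul_le_mul_of_nonneg_left (l1_lin_le hs hc q) hk)) hC)

lemma tame_lin {f : (ι → ℝ) → ℝ} (hf : Tame f) {s c : ℝ} (hs : |s| ≤ 1) (hc : |c| ≤ 1) :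
    Tame fun q => f (lin s c q) := by
  obtain ⟨C, k, hC, hk, h⟩ := hf.bound
  exact tame_of_bound (hf.1.comp (continuous_lin s c)) fun q => bound_lin hC hk h hs hc q

lemma grad_lin {f : (ι → ℝ) → ℝ} {g : ι → (ι → ℝ) → ℝ} (h : GradOf f g) (s c : ℝ) :
    GradOf (fun q => f (lin s c q))
      (Sum.elim (fun a q => s * g a (lin s c q)) fun a q => c * g a (lin s c q)) := by
  intro y v
  have e : ∀ t : ℝ, lin s c (fun k => y k + t * v k) = fun i => lin s c y i + t * lin s c v i := by
    intro t; funext i; simp only [lin]; ring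
  simp only [e]
  refine (h (lin s c y) (lin s c v)).congr_deriv ?_
  simp only [Fintype.sum_sum_type, Sum.elim_inl, Sum.elim_inr, ← sum_add_distrib]
  exact sum_congr rfl fun i _ => by simp only [lin]; ring

/-! ### The derivative of the correlation -/

lemma hasDerivAt_corr {u v : (ι → ℝ) → ℝ} {gu gv : ι → (ι → ℝ) → ℝ} {hv : ι → ι → (ι → ℝ) → ℝ}
    (tu : Tame u) (du : GradOf u gu) (tgu : ∀ a, Tame (gu a)) (tv : Tame v) (dv : GradOf v gv)
    (tgv : ∀ a, Tame (gv a)) (dgv : ∀ a, GradOf (gv a) (hv a)) (thv : ∀ a b, Tame (hv a b))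
    {ρ : ℝ} (hρ : |ρ| < 1) :
    HasDerivAt (corr u v) (∑ a, corr (gu a) (gv a) ρ) ρ := by
  obtain ⟨Cu, ku, hCu, hku, bu⟩ := tu.bound
  obtain ⟨Cv, kv, hCv, hkv, bv⟩ := tv.bound
  choose C k hC hk hb using fun a => (tgv a).bound
  have hC' : 0 ≤ ∑ a, C a := sum_nonneg fun a _ => hC a
  have hk' : 0 ≤ ∑ a, k a := sum_nonneg fun a _ => hk a
  set r := (1 - |ρ|) / 2 with hr
  have hr0 : 0 < r := by linarith
  set t1 := (1 + |ρ|) / 2 with ht1
  have ht1' : 0 < 1 - t1 ^ 2 := by nlinarith [abs_nonneg ρ]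
  have hnear : ∀ t, |t - ρ| < r → |t| ≤ t1 ∧ |t| < 1 := by
    intro t ht
    have := abs_sub_abs_le_abs_sub t ρ
    constructor <;> linarith
  have hco : ∀ t, |t - ρ| < r → 0 < 1 - t ^ 2 ∧ |-t / co t| ≤ 1 / Real.sqrt (1 - t1 ^ 2) := by
    intro t ht
    obtain ⟨h1, h2⟩ := hnear t ht
    have h3 : t ^ 2 ≤ t1 ^ 2 := by
      rw [← sq_abs t]; exact pow_le_pow_left₀ (abs_nonneg t) h1 2
    refine ⟨by linarith, ?_⟩
    rw [abs_div, abs_neg, co, abs_of_nonneg (Real.sqrt_nonneg _)]
    exact div_le_div₀ zero_le_one h2.le (Real.sqrt_pos.2 ht1')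
      (Real.sqrt_le_sqrt (by linarith))
  set M := 1 / Real.sqrt (1 - t1 ^ 2) with hM
  have hM0 : 0 ≤ M := by positivity
  set F : ℝ → (ι ⊕ ι → ℝ) → ℝ := fun t q => u (lin 1 0 q) * v (lin t (co t) q) with hF
  set F' : ℝ → (ι ⊕ ι → ℝ) → ℝ := fun t q =>
    u (lin 1 0 q) * ∑ a, gv a (lin t (co t) q) * (q (.inl a) + -t / co t * q (.inr a)) with hF'
  have h10 : |(1 : ℝ)| ≤ 1 ∧ |(0 : ℝ)| ≤ 1 := by constructor <;> simp
  have hbd : ∀ t, |t - ρ| < r → ∀ q, |F t q| ≤
      (Cu * (Cv + (Fintype.card ι) * ((∑ a, C a) * (1 + M)))) *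
        Real.exp ((ku + kv + (∑ a, k a) + 1) * l1 q) ∧
      |F' t q| ≤ (Cu * (Cv + (Fintype.card ι) * ((∑ a, C a) * (1 + M)))) *
        Real.exp ((ku + kv + (∑ a, k a) + 1) * l1 q) := by
    intro t ht q
    obtain ⟨-, h2⟩ := hnear t ht
    have hu' := bound_lin hCu hku bu h10.1 h10.2 q
    have hq := l1_nonneg q
    have hkq := mul_nonneg hk' hq
    have hX : 0 ≤ (∑ a, C a) * (1 + M) := mul_nonneg hC' (by linarith)
    constructor
    · rw [hF, abs_mul]
      refine (mul_le_mul hu' (bound_lin hCv hkv bv h2.le (abs_co_le t) q) (abs_nonneg _)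
        (by positivity)).trans ?_
      rw [mul_mul_mul_comm, ← Real.exp_add]
      gcongr
      · exact le_add_of_nonneg_right (by positivity)
      · linarith
    · rw [hF', abs_mul]
      have hS : |∑ a, gv a (lin t (co t) q) * (q (.inl a) + -t / co t * q (.inr a))| ≤
          (Fintype.card ι : ℝ) * ((∑ a, C a) * (1 + M)) *
            Real.exp ((∑ a, k a) * l1 q + l1 q) := by
        refine (abs_sum_le_sum_abs _ _).trans ?_
        refine (sum_le_card_nsmul _ _
          ((∑ a, C a) * (1 + M) * Real.exp ((∑ a, k a) * l1 q + l1 q)) fun a _ => ?_).trans_eq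
            (by rw [card_univ, nsmul_eq_mul, ← mul_assoc])
        rw [abs_mul, Real.exp_add, mul_mul_mul_comm]
        refine mul_le_mul ((bound_lin (hC a) (hk a) (hb a) h2.le (abs_co_le t) q).trans ?_) ?_
          (abs_nonneg _) (by positivity)
        · gcongr
          · exact single_le_sum (fun b _ => hC b) (mem_univ a)
          · exact single_le_sum (fun b _ => hk b) (mem_univ a)
        · refine (abs_add_le _ _).trans ?_
          rw [abs_mul, add_mul, one_mul]
          exact add_le_add (abs_le_exp_l1 q _)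
            (mul_le_mul (hco t ht).2 (abs_le_exp_l1 q _) (abs_nonneg _) hM0)
      refine (mul_le_mul hu' hS (abs_nonneg _) (by positivity)).trans ?_
      rw [mul_mul_mul_comm, ← Real.exp_add]
      gcongr
      · exact le_add_of_nonneg_left hCv
      · linarith [mul_nonneg hkv hq]
  have hd : ∀ t, |t - ρ| < r → ∀ q, HasDerivAt (fun t => F t q) (F' t q) t := by
    intro t ht q
    obtain ⟨h0, -⟩ := hco t ht
    have hc : HasDerivAt co (-t / co t) t := by
      have := (((hasDerivAt_id t).pow 2).const_sub 1).sqrt (by simpa using h0.ne')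
      refine this.congr_deriv ?_
      simp only [id_eq, co, Pi.pow_apply]
      push_cast
      field_simp
    have hZ : HasDerivAt (fun t => lin t (co t) q)
        (fun i => q (.inl i) + -t / co t * q (.inr i)) t := by
      refine hasDerivAt_pi.2 fun i => ?_
      simpa [lin] using ((hasDerivAt_id t).mul_const (q (.inl i))).fun_add
        (hc.mul_const (q (.inr i)))
    have h1 := HasFDerivAt.comp_hasDerivAt (f := fun t => lin t (co t) q) t
      (hasFDerivAt_of_dir dv (fun a => (tgv a).1) (lin t (co t) q)) hZ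
    refine (h1.const_mul (u (lin 1 0 q))).congr_deriv ?_
    simp only [hF', _root_.sum_apply, smul_apply,
      ContinuousLinearMap.proj_apply, smul_eq_mul]
  have hρ0 : |ρ - ρ| < r := by simpa using hr0
  have tU := tame_lin tu h10.1 h10.2
  have tG : ∀ a, Tame fun q => u (lin 1 0 q) * gv a (lin ρ (co ρ) q) := fun a =>
    tU.mul (tame_lin (tgv a) hρ.le (abs_co_le ρ))
  have hD := hasDerivAt_gauss_integral (F := F) (F' := F') hr0
    (fun t ht => (tU.mul (tame_lin tv (hnear t ht).2.le (abs_co_le t))).1)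
    (by
      simp only [hF']
      refine tU.1.mul (continuous_finsetSum _ fun a _ => ?_)
      exact ((tgv a).1.comp (continuous_lin _ _)).mul (by fun_prop))
    hd (fun q => (hbd ρ hρ0 q).1) (fun t ht q => (hbd t ht q).2)
  refine hD.congr_deriv ?_
  obtain ⟨h0, -⟩ := hco ρ hρ0
  have hc0 : co ρ ≠ 0 := (Real.sqrt_pos.2 h0).ne'
  have e : F' ρ = fun q => ∑ a,
      (q (.inl a) * (u (lin 1 0 q) * gv a (lin ρ (co ρ) q)) +
        -ρ / co ρ * (q (.inr a) * (u (lin 1 0 q) * gv a (lin ρ (co ρ) q)))) := by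
    funext q
    simp only [hF', mul_sum]
    exact sum_congr rfl fun a _ => by ring
  rw [e, integral_finsetSum _ fun a _ => ((tame_coord _).mul (tG a)).integrable.fun_add
    (((tame_coord _).mul (tG a)).const_mul _).integrable]
  refine sum_congr rfl fun a _ => ?_
  rw [integral_add ((tame_coord _).mul (tG a)).integrable
    (((tame_coord _).mul (tG a)).const_mul _).integrable, integral_const_mul]
  have dG := (grad_lin du 1 0).mul (grad_lin (dgv a) ρ (co ρ))
  have tA : Tame fun q => gu a (lin 1 0 q) * gv a (lin ρ (co ρ) q) :=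
    (tame_lin (tgu a) h10.1 h10.2).mul (tame_lin (tgv a) hρ.le (abs_co_le ρ))
  have tB : ∀ b, Tame fun q => u (lin 1 0 q) * hv a b (lin ρ (co ρ) q) := fun b =>
    tU.mul (tame_lin (thv a b) hρ.le (abs_co_le ρ))
  have tdG : ∀ i, Tame fun q =>
      Sum.elim (fun b q => (1:ℝ) * gu b (lin 1 0 q)) (fun b q => (0:ℝ) * gu b (lin 1 0 q)) i q *
          gv a (lin ρ (co ρ) q) +
        u (lin 1 0 q) * Sum.elim (fun b q => ρ * hv a b (lin ρ (co ρ) q))
          (fun b q => co ρ * hv a b (lin ρ (co ρ) q)) i q := by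
    have t1 := tame_lin (tgv a) hρ.le (abs_co_le ρ)
    rintro (b | b) <;> simp only [Sum.elim_inl, Sum.elim_inr]
    · exact (((tame_lin (tgu b) h10.1 h10.2).const_mul 1).mul t1).add
        (tU.mul ((tame_lin (thv a b) hρ.le (abs_co_le ρ)).const_mul ρ))
    · exact (((tame_lin (tgu b) h10.1 h10.2).const_mul 0).mul t1).add
        (tU.mul ((tame_lin (thv a b) hρ.le (abs_co_le ρ)).const_mul (co ρ)))
  rw [gauss_ibp (tG a) tdG dG, gauss_ibp (tG a) tdG dG]
  simp only [Sum.elim_inl, Sum.elim_inr, one_mul, zero_mul, zero_add, mul_left_comm (u _)]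
  rw [integral_add tA.integrable ((tB a).const_mul _).integrable, integral_const_mul,
    integral_const_mul, ← mul_assoc, div_mul_cancel₀ _ hc0, corr]
  ring

lemma continuousOn_corr {u v : (ι → ℝ) → ℝ} (tu : Tame u) (tv : Tame v) :
    ContinuousOn (corr u v) (Set.Icc 0 1) := by
  obtain ⟨Cu, ku, hCu, hku, bu⟩ := tu.bound
  obtain ⟨Cv, kv, hCv, hkv, bv⟩ := tv.bound
  refine continuousOn_of_dominated
    (bound := fun q => Cu * Cv * Real.exp ((ku + kv) * l1 q)) (fun t _ => ?_) (fun t ht => ?_)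
    ((integrable_exp_l1 _).const_mul _) (.of_forall fun q => ?_)
  · exact ((tu.1.comp (continuous_lin _ _)).mul
      (tv.1.comp (continuous_lin _ _))).aestronglyMeasurable
  · refine .of_forall fun q => ?_
    rw [Real.norm_eq_abs, abs_mul, add_mul, Real.exp_add, mul_mul_mul_comm]
    exact mul_le_mul (bound_lin hCu hku bu (by simp) (by simp) q)
      (bound_lin hCv hkv bv (by rw [abs_of_nonneg ht.1]; exact ht.2) (abs_co_le t) q)
      (abs_nonneg _) (by positivity)
  · refine Continuous.continuousOn (continuous_const.mul (tv.1.comp ?_))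
    have := continuous_co
    unfold lin
    fun_prop

/-! ### Values and sign -/

lemma integral_split {κ κ' : Type} [Fintype κ] [Fintype κ'] (H : (κ → ℝ) × (κ' → ℝ) → ℝ) :
    ∫ q, H (fun i => q (Sum.inl i), fun i => q (Sum.inr i)) ∂gauss (κ ⊕ κ') =
      ∫ p, H p ∂(gauss κ).prod (gauss κ') :=
  (measurePreserving_sumPiEquivProdPi fun _ : κ ⊕ κ' => gaussianReal 0 1).integral_comp' H

lemma corr_zero (u : (ι → ℝ) → ℝ) : corr u u 0 = (∫ y, u y ∂gauss ι) ^ 2 := by
  have e : co 0 = 1 := by simp [co]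
  rw [corr, e, sq, ← integral_prod_mul (μ := gauss ι) (ν := gauss ι) u u,
    ← integral_split fun p => u p.1 * u p.2]
  simp only [lin_fst, lin_snd]

lemma corr_one (u : (ι → ℝ) → ℝ) : corr u u 1 = ∫ y, u y ^ 2 ∂gauss ι := by
  have e : co 1 = 0 := by simp [co]
  have h := integral_split (κ := ι) (κ' := ι) fun p => u p.1 ^ 2
  rw [integral_fun_fst (fun y => u y ^ 2)] at h
  rw [corr, e]
  simpa [lin_fst, sq] using h

lemma corr_nonneg {v : (ι → ℝ) → ℝ} (hv : Continuous v) {ρ : ℝ} (h0 : 0 ≤ ρ) (h1 : ρ ≤ 1) :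
    0 ≤ corr v v ρ := by
  classical
  set s := Real.sqrt ρ with hs
  set t := Real.sqrt (1 - ρ) with ht
  have hlaw := map_gauss_eq (Λ := ι ⊕ ι)
    (Sum.elim (fun i => Sum.elim (fun k : ι => if i = k then (1:ℝ) else 0) fun _ : ι => 0)
      fun i => Sum.elim (fun k => if i = k then ρ else 0) fun k => if i = k then co ρ else 0)
    (Sum.elim
      (fun i => Sum.elim (fun k : ι => if i = k then s else 0)
        (Sum.elim (fun k : ι => if i = k then t else 0) fun _ : ι => 0))
      fun i => Sum.elim (fun k => if i = k then s else 0)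
        (Sum.elim (fun _ => 0) fun k => if i = k then t else 0))
    (fun w => by
      simp only [Fintype.sum_sum_type, Sum.elim_inl, Sum.elim_inr, mul_ite, mul_zero,
        sum_ite_eq', mem_univ, if_true, sum_const_zero, add_zero, zero_add]
      simp only [← sum_add_distrib]
      refine sum_congr rfl fun i _ => ?_
      have e1 : s ^ 2 = ρ := Real.sq_sqrt h0
      have e2 : t ^ 2 = 1 - ρ := Real.sq_sqrt (by linarith)
      have e3 : co ρ ^ 2 = 1 - ρ ^ 2 := Real.sq_sqrt (by nlinarith)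
      linear_combination w (.inr i) ^ 2 * e3 - (w (.inl i) + w (.inr i)) ^ 2 * e1 -
        (w (.inl i) ^ 2 + w (.inr i) ^ 2) * e2)
  have hm : Continuous fun l : ι ⊕ ι → ℝ =>
      v (fun i => l (.inl i)) * v (fun i => l (.inr i)) :=
    (hv.comp (by fun_prop)).mul (hv.comp (by fun_prop))
  have e := congrArg (fun ν : Measure (ι ⊕ ι → ℝ) =>
    ∫ l, v (fun i => l (.inl i)) * v (fun i => l (.inr i)) ∂ν) hlaw
  rw [integral_map (Measurable.aemeasurable (by fun_prop)) hm.aestronglyMeasurable,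
    integral_map (Measurable.aemeasurable (by fun_prop)) hm.aestronglyMeasurable] at e
  simp only [Fintype.sum_sum_type, Sum.elim_inl, Sum.elim_inr, mul_ite, mul_zero, sum_ite_eq,
    mem_univ, if_true, sum_const_zero, add_zero, zero_add, mul_one] at e
  have e' : corr v v ρ = ∫ q : ι ⊕ (ι ⊕ ι) → ℝ,
      v (fun i => q (.inl i) * s + q (.inr (.inl i)) * t) *
        v (fun i => q (.inl i) * s + q (.inr (.inr i)) * t) ∂gauss (ι ⊕ (ι ⊕ ι)) := by
    rw [← e, corr]
    simp [lin_apply', mul_comm]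
  rw [e', integral_split (fun p : (ι → ℝ) × (ι ⊕ ι → ℝ) =>
      v (fun i => p.1 i * s + p.2 (.inl i) * t) * v (fun i => p.1 i * s + p.2 (.inr i) * t))]
  set H : (ι → ℝ) × (ι ⊕ ι → ℝ) → ℝ := fun p =>
    v (fun i => p.1 i * s + p.2 (.inl i) * t) * v (fun i => p.1 i * s + p.2 (.inr i) * t)
  by_cases hi : Integrable H ((gauss ι).prod (gauss (ι ⊕ ι)))
  · rw [integral_prod _ hi]
    refine integral_nonneg fun z => ?_
    simp only [Pi.zero_apply, H]
    rw [integral_split (fun p : (ι → ℝ) × (ι → ℝ) =>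
        v (fun i => z i * s + p.1 i * t) * v (fun i => z i * s + p.2 i * t)),
      integral_prod_mul (μ := gauss ι) (ν := gauss ι) (fun y => v fun i => z i * s + y i * t)
        (fun y => v fun i => z i * s + y i * t)]
    exact mul_self_nonneg _
  · rw [integral_undef hi]

/-! ### The Taylor bound -/

/-- The Taylor polynomial at zero of a tower of derivatives. -/
noncomputable def taylor (m : ℕ) (F : ℕ → ℝ → ℝ) (t : ℝ) : ℝ :=
  ∑ j ∈ range m, F j 0 * t ^ j / (j.factorial : ℝ)

lemma taylor_succ (m : ℕ) (F : ℕ → ℝ → ℝ) (t : ℝ) :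
    taylor (m + 1) F t =
      (∑ j ∈ range m, F (j + 1) 0 * t ^ (j + 1) / ((j + 1).factorial : ℝ)) + F 0 0 := by
  simp [taylor, sum_range_succ']

lemma hasDerivAt_sum_pow (m : ℕ) (F : ℕ → ℝ → ℝ) (t : ℝ) :
    HasDerivAt (fun t => ∑ j ∈ range m, F (j + 1) 0 * t ^ (j + 1) / ((j + 1).factorial : ℝ))
      (taylor m (fun j => F (j + 1)) t) t := by
  refine HasDerivAt.fun_sum fun j _ => ?_
  refine (((hasDerivAt_pow (j + 1) t).const_mul (F (j + 1) 0)).div_const _).congr_deriv ?_
  rw [Nat.factorial_succ]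
  push_cast
  field_simp

lemma taylor_le (m : ℕ) : ∀ F : ℕ → ℝ → ℝ,
    (∀ j, ContinuousOn (F j) (Set.Icc 0 1)) →
    (∀ j, ∀ t ∈ Set.Ioo (0:ℝ) 1, HasDerivAt (F j) (F (j + 1) t) t) →
    (∀ j, ∀ t ∈ Set.Icc (0:ℝ) 1, 0 ≤ F j t) →
    ∀ r ∈ Set.Icc (0:ℝ) 1, ∀ t ∈ Set.Icc (0:ℝ) 1,
      F 0 (r * t) - taylor m F (r * t) ≤ r ^ m * (F 0 t - taylor m F t) := by
  induction m with
  | zero =>
    intro F hc hd hp r hr t ht
    have hmono : MonotoneOn (F 0) (Set.Icc 0 1) :=
      monotoneOn_of_hasDerivWithinAt_nonneg (convex_Icc 0 1) (hc 0)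
        (f' := F 1) (fun x hx => by
          rw [interior_Icc] at hx ⊢
          exact (hd 0 x hx).hasDerivWithinAt)
        (fun x hx => hp 1 x (interior_subset hx))
    simpa [taylor] using hmono ⟨mul_nonneg hr.1 ht.1, mul_le_one₀ hr.2 ht.1 ht.2⟩ ht
      (mul_le_of_le_one_left ht.1 hr.2)
  | succ m ih =>
    intro F hc hd hp r hr t ht
    rcases hr.1.eq_or_lt with h | h
    · subst h; simp [taylor_succ]
    have ih' := ih (fun j => F (j + 1)) (fun j => hc _) (fun j => hd _) (fun j => hp _) r hr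
    set h : ℝ → ℝ := fun x => F 0 x - taylor (m + 1) F x with hh
    set g : ℝ → ℝ := fun x => F 1 x - taylor m (fun j => F (j + 1)) x with hg
    have hhd : ∀ x ∈ Set.Ioo (0:ℝ) 1, HasDerivAt h (g x) x := fun x hx => by
      simp only [hh, hg, taylor_succ]
      exact (hd 0 x hx).sub ((hasDerivAt_sum_pow m F x).add_const _)
    have hhc : ContinuousOn h (Set.Icc 0 1) :=
      (hc 0).sub (Continuous.continuousOn (by unfold taylor; fun_prop))
    have hmaps : Set.MapsTo (fun x => r * x) (Set.Icc 0 1) (Set.Icc 0 1) := fun x hx =>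
      ⟨mul_nonneg hr.1 hx.1, mul_le_one₀ hr.2 hx.1 hx.2⟩
    have hmono : MonotoneOn (fun x => r ^ (m + 1) * h x - h (r * x)) (Set.Icc 0 1) := by
      refine monotoneOn_of_hasDerivWithinAt_nonneg (convex_Icc 0 1)
        ((continuousOn_const.mul hhc).sub (hhc.comp (by fun_prop) hmaps))
        (f' := fun x => r ^ (m + 1) * g x - g (r * x) * r) (fun x hx => ?_) (fun x hx => ?_)
      · rw [interior_Icc] at hx ⊢
        refine ((hhd x hx).const_mul _ |>.sub ?_).hasDerivWithinAt
        refine HasDerivAt.comp x (hhd (r * x) ⟨mul_pos ‹0 < r› hx.1, ?_⟩) ?_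
        · exact (mul_le_of_le_one_left hx.1.le hr.2).trans_lt hx.2
        · simpa using (hasDerivAt_id x).const_mul r
      · have := ih' x (interior_subset hx)
        simp only [hg, zero_add] at this ⊢
        have := mul_le_mul_of_nonneg_left this hr.1
        rw [pow_succ]
        linarith
    have := hmono (Set.left_mem_Icc.2 zero_le_one) ht ht.1
    simp only [hh, mul_zero] at this
    simp only [taylor_succ, ne_eq, add_eq_zero, one_ne_zero, and_false, not_false_eq_true,
      zero_pow, mul_zero, zero_div, sum_const_zero, zero_add, sub_self] at this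
    simp only [taylor_succ]
    linarith

lemma sub_le_taylor (m : ℕ) (F : ℕ → ℝ → ℝ) (hc : ∀ j, ContinuousOn (F j) (Set.Icc 0 1))
    (hd : ∀ j, ∀ t ∈ Set.Ioo (0:ℝ) 1, HasDerivAt (F j) (F (j + 1) t) t)
    (hp : ∀ j, ∀ t ∈ Set.Icc (0:ℝ) 1, 0 ≤ F j t) :
    F 0 1 - F 0 0 ≤
      (∑ j ∈ range m, F (j + 1) 0 / ((j + 1).factorial : ℝ)) + F 1 1 / ((m : ℝ) + 1) := by
  have hle := taylor_le m (fun j => F (j + 1)) (fun j => hc _) (fun j => hd _) (fun j => hp _)
  set G : ℝ → ℝ := fun x =>
    (∑ j ∈ range m, F (j + 1) 0 * x ^ (j + 1) / ((j + 1).factorial : ℝ)) +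
      F 1 1 * x ^ (m + 1) / ((m : ℝ) + 1) - F 0 x with hG
  have hm : ((m : ℝ) + 1) ≠ 0 := by positivity
  have hmono : MonotoneOn G (Set.Icc 0 1) := by
    refine monotoneOn_of_hasDerivWithinAt_nonneg (convex_Icc 0 1)
      (ContinuousOn.sub (Continuous.continuousOn (by fun_prop)) (hc 0))
      (f' := fun x => taylor m (fun j => F (j + 1)) x + F 1 1 * x ^ m - F 1 x)
      (fun x hx => ?_) (fun x hx => ?_)
    · rw [interior_Icc] at hx ⊢
      refine (((hasDerivAt_sum_pow m F x).add ?_).sub (hd 0 x hx)).hasDerivWithinAt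
      refine (((hasDerivAt_pow (m + 1) x).const_mul (F 1 1)).div_const _).congr_deriv ?_
      push_cast
      field_simp
    · have hx' := interior_subset hx
      have := hle x hx' 1 (Set.right_mem_Icc.2 zero_le_one)
      have h0 : 0 ≤ taylor m (fun j => F (j + 1)) 1 := sum_nonneg fun j _ => by
        have := hp (j + 1) 0 (Set.left_mem_Icc.2 zero_le_one)
        positivity
      simp only [mul_one, zero_add] at this
      nlinarith [mul_nonneg (pow_nonneg hx'.1 m) h0]
  have := hmono (Set.left_mem_Icc.2 zero_le_one) (Set.right_mem_Icc.2 zero_le_one) zero_le_one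
  simp [hG] at this
  linarith

/-! ### The tower of a family of derivatives -/

/-- The correlations of the derivatives of order `j`. -/
noncomputable def tower (D : List ι → (ι → ℝ) → ℝ) (j : ℕ) (ρ : ℝ) : ℝ :=
  ∑ w : Fin j → ι, corr (D (List.ofFn w)) (D (List.ofFn w)) ρ

lemma hasDerivAt_tower {D : List ι → (ι → ℝ) → ℝ}
    (hD : ∀ l, Tame (D l) ∧ GradOf (D l) fun a => D (a :: l)) (j : ℕ) {ρ : ℝ} (hρ : |ρ| < 1) :
    HasDerivAt (tower D j) (tower D (j + 1) ρ) ρ := by
  have h : HasDerivAt (tower D j)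
      (∑ w : Fin j → ι, ∑ a, corr (D (a :: List.ofFn w)) (D (a :: List.ofFn w)) ρ) ρ := by
    show HasDerivAt (fun ρ => tower D j ρ) _ _
    simp only [tower]
    exact HasDerivAt.fun_sum fun w _ => hasDerivAt_corr (hD _).1 (hD _).2 (fun a => (hD _).1)
      (hD _).1 (hD _).2 (fun a => (hD _).1) (fun a => (hD _).2) (fun a b => (hD _).1) hρ
  refine h.congr_deriv ?_
  rw [tower, ← (Fin.consEquiv fun _ => ι).sum_comp, Fintype.sum_prod_type, sum_comm]
  simp [List.ofFn_succ]

end Interp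

open Interp in
theorem interp_statement : InterpStatement := by
  intro ι _ D hD m
  have h := sub_le_taylor m (tower D)
    (fun j => continuousOn_finsetSum _ fun w _ => continuousOn_corr (hD _).1 (hD _).1)
    (fun j t ht => hasDerivAt_tower hD j (abs_lt.2 ⟨by linarith [ht.1], ht.2⟩))
    (fun j t ht => sum_nonneg fun w _ => corr_nonneg (hD _).1.1 ht.1 ht.2)
  simp only [tower, corr_zero, corr_one, Fintype.sum_unique, List.ofFn_zero] at h
  rw [← (Equiv.funUnique (Fin 1) ι).symm.sum_comp] at h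
  rw [variance_eq_sub (hD []).1.memLp_two]
  refine h.trans (le_of_eq ?_)
  congr 1
  · exact sum_congr rfl fun j _ => by rw [div_eq_inv_mul, one_div]
  · rw [div_eq_inv_mul, one_div]
    rfl

end Vale.Agent.P146.Power
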