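import Vale.Agent.P146.Power.Defs
import Vale.Agent.P157.GaussLaw
import Vale.Agent.P166.Parisi.GaussPoincare
import Vale.Agent.P157.Parisi.ModelFacts

/-!
From the extended free energy to the free energy.
-/

namespace Vale.Agent.P146.Power

open MeasureTheory ProbabilityTheory Finset
open Vale.Agent.P157 (gauss map_gauss_eq)
open Vale.Agent.P157.Parisi (Tame tame_coord tame_sum)
open Vale.Agent.P157.Parisi.ModelFacts (measurePreserving_curry)

variable {n : ℕ}

/-- The entries above the diagonal. -/
abbrev Upper (n : ℕ) : Type := {l : Edge n // l.1 < l.2}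

/-- The free energy as a function of the entries above the diagonal. -/
noncomputable def upFree (n : ℕ) (β : ℝ) (q : Upper n → ℝ) : ℝ :=
  Real.log (∑ σ : Fin n → Bool,
    Real.exp (β * ((Real.sqrt n)⁻¹ * ∑ l : Upper n, q l * pairSpin σ l.1)))

/-- The symmetrised entries above the diagonal. -/
noncomputable def symUp (G : Arr n) (l : Upper n) : ℝ := (G l.1 + G l.1.swap) / Real.sqrt 2

lemma freeEnergy_eq_upFree (β : ℝ) (g : Disorder n) :
    freeEnergy n β g = upFree n β fun l => g l.1.1 l.1.2 := by
  unfold freeEnergy upFree hamiltonian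
  refine congrArg Real.log (sum_congr rfl fun σ _ => ?_)
  congr 2
  congr 1
  rw [← sum_subtype (univ.filter fun l : Edge n => l.1 < l.2) (by simp)
    (fun l => g l.1 l.2 * pairSpin σ l), sum_filter, Fintype.sum_prod_type]
  simp only [pairSpin, mul_assoc]

lemma continuous_upFree (β : ℝ) : Continuous (upFree n β) := by
  unfold upFree
  exact Continuous.log (by fun_prop) fun q =>
    (sum_pos (fun σ _ => Real.exp_pos _) univ_nonempty).ne'

lemma pairSpin_swap (σ : Fin n → Bool) (e : Edge n) : pairSpin σ e.swap = pairSpin σ e :=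
  mul_comm _ _

lemma coef_mul_sqrt_two (hn : 0 < n) (β : ℝ) :
    coef n β * Real.sqrt 2 = β * (Real.sqrt n)⁻¹ := by
  have h1 : (0 : ℝ) < Real.sqrt 2 := Real.sqrt_pos.2 two_pos
  have h2 : (0 : ℝ) < Real.sqrt n := Real.sqrt_pos.2 (by exact_mod_cast hn)
  rw [coef, Real.sqrt_mul (by norm_num)]
  field_simp

lemma ham_split (hn : 0 < n) (β : ℝ) (G : Arr n) (σ : Fin n → Bool) :
    coef n β * ∑ e, G e * pairSpin σ e =
      coef n β * ∑ i, G (i, i) + β * ((Real.sqrt n)⁻¹ * ∑ l : Upper n, symUp G l * pairSpin σ l.1) := by
  have h2 : (0 : ℝ) < Real.sqrt 2 := Real.sqrt_pos.2 two_pos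
  have e : ∑ e, G e * pairSpin σ e =
      ∑ i, G (i, i) + ∑ l : Upper n, (G l.1 + G l.1.swap) * pairSpin σ l.1 := by
    have hsplit : ∀ a : Edge n, G a * pairSpin σ a =
        (if a.1 = a.2 then G a * pairSpin σ a else 0) +
          ((if a.1 < a.2 then G a * pairSpin σ a else 0) +
            (if a.2 < a.1 then G a * pairSpin σ a else 0)) := by
      intro a
      rcases lt_trichotomy a.1 a.2 with h | h | h
      · simp [h, h.ne, h.not_gt]
      · simp [h]
      · simp [h, h.ne', h.not_gt]
    have hswap : ∑ a : Edge n, (if a.2 < a.1 then G a * pairSpin σ a else 0) =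
        ∑ a : Edge n, (if a.1 < a.2 then G a.swap * pairSpin σ a else 0) := by
      rw [← (Equiv.prodComm (Fin n) (Fin n)).sum_comp
        fun a : Edge n => if a.2 < a.1 then G a * pairSpin σ a else 0]
      refine sum_congr rfl fun a _ => ?_
      simp [pairSpin, mul_comm]
    have hdiag : ∑ a : Edge n, (if a.1 = a.2 then G a * pairSpin σ a else 0) = ∑ i, G (i, i) := by
      rw [Fintype.sum_prod_type]
      refine sum_congr rfl fun i _ => ?_
      rw [sum_ite_eq univ i, if_pos (mem_univ i)]
      cases h : σ i <;> simp [pairSpin, spin, h]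
    rw [sum_congr rfl fun a _ => hsplit a, sum_add_distrib, sum_add_distrib, hswap, hdiag,
      ← sum_add_distrib]
    congr 1
    rw [← sum_subtype (univ.filter fun l : Edge n => l.1 < l.2) (by simp)
      (fun l => (G l + G l.swap) * pairSpin σ l), sum_filter]
    refine sum_congr rfl fun a _ => ?_
    split_ifs <;> ring
  rw [e, mul_add, ← mul_assoc β, ← coef_mul_sqrt_two hn β, mul_assoc, mul_sum univ _ (Real.sqrt 2)]
  congr 2
  refine sum_congr rfl fun l _ => ?_
  rw [symUp]; field_simp

lemma extFree_split (hn : 0 < n) (β : ℝ) (G : Arr n) :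
    extFree n β G = coef n β * ∑ i, G (i, i) + upFree n β (symUp G) := by
  unfold extFree upFree
  rw [sum_congr rfl fun σ _ => congrArg Real.exp (ham_split hn β G σ)]
  simp only [Real.exp_add, ← mul_sum]
  rw [Real.log_mul (Real.exp_pos _).ne' (sum_pos (fun σ _ => Real.exp_pos _) univ_nonempty).ne',
    Real.log_exp]

/-- The two laws of the entries above the diagonal agree. -/
lemma map_symUp :
    (gauss (Edge n)).map (fun G l => symUp G l) =
      (gauss (Edge n)).map fun G (l : Upper n) => G l.1 := by
  have hsq : Real.sqrt 2 ^ 2 = 2 := Real.sq_sqrt two_pos.le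
  have h := map_gauss_eq (ι := Edge n) (κ := Edge n)
    (fun (l : Upper n) e => ((if e = l.1 then 1 else 0) + (if e = l.1.swap then 1 else 0)) / Real.sqrt 2)
    (fun (l : Upper n) e => if e = l.1 then (1 : ℝ) else 0) (fun s => by
      classical
      set F : Edge n → ℝ := fun e => if h : e.1 < e.2 then s ⟨e, h⟩ else 0 with hF
      have e1 : ∀ e : Edge n, (∑ l : Upper n, s l * (if e = l.1 then (1 : ℝ) else 0)) = F e := by
        intro e
        by_cases h : e.1 < e.2
        · rw [sum_eq_single (⟨e, h⟩ : Upper n)]
          · simp [hF, h]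
          · intro l _ hl
            rw [if_neg fun hh => hl (Subtype.ext hh.symm), mul_zero]
          · simp
        · simp only [hF, dif_neg h]
          exact sum_eq_zero fun l _ => by rw [if_neg (fun (hh : e = l.1) => h (by rw [hh]; exact l.2)), mul_zero]
      have e2 : ∀ e : Edge n, (∑ l : Upper n, s l * (((if e = l.1 then (1 : ℝ) else 0) +
          (if e = l.1.swap then 1 else 0)) / Real.sqrt 2)) = (F e + F e.swap) / Real.sqrt 2 := by
        intro e
        rw [← e1 e, ← e1 e.swap, ← sum_add_distrib, sum_div]
        refine sum_congr rfl fun l _ => ?_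
        have hiff : e.swap = l.1 ↔ e = l.1.swap :=
          ⟨fun h => by rw [← h, Prod.swap_swap], fun h => by rw [h, Prod.swap_swap]⟩
        simp only [hiff]
        ring
      simp only [e1, e2]
      have hcross : ∀ e : Edge n, F e * F e.swap = 0 := fun e => by
        by_cases h : e.1 < e.2
        · simp [hF, dif_neg (show ¬ e.swap.1 < e.swap.2 from h.not_gt)]
        · simp [hF, h]
      calc ∑ e, ((F e + F e.swap) / Real.sqrt 2) ^ 2
          = ∑ e, (F e ^ 2 / 2 + F e.swap ^ 2 / 2) := sum_congr rfl fun e _ => by
            rw [div_pow, hsq, add_sq, mul_assoc, hcross]; ring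
        _ = ∑ e, F e ^ 2 := by
            rw [sum_add_distrib, (Equiv.prodComm (Fin n) (Fin n)).sum_comp (fun e => F e ^ 2 / 2) |>
              fun h => (show ∑ e : Edge n, F e.swap ^ 2 / 2 = ∑ e, F e ^ 2 / 2 from h),
              ← sum_add_distrib]
            exact sum_congr rfl fun e _ => by ring)
  convert h using 2 <;> funext G l
  · simp only [symUp, add_div, mul_add, sum_add_distrib, ite_div, zero_div, mul_ite, mul_zero,
      sum_ite_eq', mem_univ, if_true]
    ring
  · simp

lemma tame_diag : Tame fun G : Arr n => ∑ i, G (i, i) := tame_sum _ fun i _ => tame_coord _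

lemma variance_diag_le :
    variance (fun G : Arr n => ∑ i, G (i, i)) (gauss (Edge n)) ≤ n := by
  classical
  refine (variance_le_expectation_sq tame_diag.1.aestronglyMeasurable).trans ?_
  have e : (fun G : Arr n => ∑ i, G (i, i)) =
      fun G => ∑ a, G a * (if a.1 = a.2 then (1 : ℝ) else 0) := by
    funext G
    rw [Fintype.sum_prod_type]
    simp
  rw [e]
  refine le_of_eq ?_
  have h := P166.Parisi.GaussPoincare.integral_sq_linear
    (ι := Edge n) fun a => if a.1 = a.2 then (1 : ℝ) else 0
  refine (integral_congr_ae (ae_of_all _ fun G => ?_)).trans (h.trans ?_)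
  · simp
  · rw [Fintype.sum_prod_type]
    simp [ite_pow]

/-- The free energy fluctuates at most as the extended one. -/
theorem variance_transfer (hn : 0 < n) (β : ℝ) (hT : Tame (extFree n β)) :
    variance (freeEnergy n β) (disorderLaw n) ≤
      2 * variance (extFree n β) (gauss (Edge n)) + β ^ 2 := by
  have hmp : MeasurePreserving (fun (x : Arr n) i j => x (i, j)) (gauss (Edge n)) (disorderLaw n) :=
    measurePreserving_curry (Fin n) (Fin n)
  have hFm : Measurable (freeEnergy n β) := by
    have : freeEnergy n β = fun g => upFree n β fun l => g l.1.1 l.1.2 :=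
      funext (freeEnergy_eq_upFree β)
    rw [this]
    exact (continuous_upFree β).measurable.comp (by fun_prop)
  have hsym : Measurable fun G : Arr n => fun l => symUp G l := by unfold symUp; fun_prop
  have hid : Measurable fun (G : Arr n) (l : Upper n) => G l.1 := by fun_prop
  have h1 : variance (freeEnergy n β) (disorderLaw n) =
      variance (fun G => upFree n β (symUp G)) (gauss (Edge n)) := by
    rw [← hmp.map_eq, variance_map hFm.aemeasurable hmp.aemeasurable]
    have e1 : freeEnergy n β ∘ (fun (x : Arr n) i j => x (i, j)) =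
        upFree n β ∘ fun (G : Arr n) (l : Upper n) => G l.1 :=
      funext fun G => freeEnergy_eq_upFree β _
    rw [e1, ← variance_map (continuous_upFree β).aemeasurable hid.aemeasurable, ← map_symUp,
      variance_map (continuous_upFree β).aemeasurable hsym.aemeasurable]
    rfl
  set f := fun G => upFree n β (symUp G)
  set D := fun G : Arr n => coef n β * ∑ i, G (i, i)
  have hD : Tame D := tame_diag.const_mul _
  have e : f = fun G => extFree n β G - D G :=
    funext fun G => by simp only [f, D, extFree_split hn]; ring
  rw [h1, show variance f (gauss (Edge n)) = variance (fun G => extFree n β G - D G) (gauss (Edge n))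
    by rw [e]]
  have hx := hT.memLp_two
  have hy := hD.memLp_two
  have hsub : variance (fun G => extFree n β G - D G) (gauss (Edge n)) ≤
      2 * variance (extFree n β) (gauss (Edge n)) + 2 * variance D (gauss (Edge n)) := by
    have a := variance_sub hx hy
    have b := variance_add hx hy
    have c := variance_nonneg (extFree n β + D) (gauss (Edge n))
    rw [show (fun G => extFree n β G - D G) = extFree n β - D from rfl]
    linarith
  refine hsub.trans (add_le_add le_rfl ?_)
  rw [show variance D (gauss (Edge n)) =
    coef n β ^ 2 * variance (fun G : Arr n => ∑ i, G (i, i)) (gauss (Edge n)) from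
      variance_const_mul _ _ _]
  refine (mul_le_mul_of_nonneg_left (mul_le_mul_of_nonneg_left variance_diag_le (sq_nonneg _))
    two_pos.le).trans_eq ?_
  rw [coef, div_pow, Real.sq_sqrt (by positivity)]
  field_simp

end Vale.Agent.P146.Power
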