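import Vale.Agent.P146.Power.Weight
import Vale.Agent.P146.Power.Transfer

/-!
Polynomial superconcentration of the free energy, from the interfaces.
-/

namespace Vale.Agent.P146.Power

open MeasureTheory ProbabilityTheory Finset
open Vale.Agent.P157 (gauss)

variable {n : ℕ}

/-- The energy of the gradient. -/
lemma gradient_energy_le (hC : CalcStatement) (hn : 0 < n) (β : ℝ) :
    ∑ a, ∫ G, dFree n β [a] G ^ 2 ∂gauss (Edge n) ≤ 2 * β ^ 2 * n := by
  classical
  obtain ⟨hT, hR, -, -, -⟩ := hC n β hn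
  have hb : ∀ a G, dFree n β [a] G ^ 2 ≤ (2 * |coef n β|) ^ 2 := by
    intro a G
    obtain ⟨N, c, u, hc, hu, hrep⟩ := hR 1 Nat.one_pos G
    have h := hrep fun _ => a
    simp only [List.ofFn_succ, List.ofFn_zero, Fin.prod_univ_one] at h
    rw [h, ← sq_abs]
    refine pow_le_pow_left₀ (abs_nonneg _) ((abs_sum_le_sum_abs _ _).trans ?_) 2
    refine (sum_le_sum fun i _ => ?_).trans (hc.trans_eq (by simp; ring))
    rw [abs_mul, abs_mul]
    exact mul_le_of_le_one_right (abs_nonneg _)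
      (mul_le_one₀ (hu i _ _) (abs_nonneg _) (hu i _ _))
  refine (sum_le_sum (g := fun _ => (2 * |coef n β|) ^ 2) fun a _ =>
    (integral_mono (hT _).1.sq.integrable (integrable_const _) (hb a)).trans_eq (by simp)).trans ?_
  have hn' : (0 : ℝ) < n := by exact_mod_cast hn
  rw [sum_const, card_univ, nsmul_eq_mul, Fintype.card_prod, Fintype.card_fin, mul_pow, sq_abs,
    coef, div_pow, Real.sq_sqrt (by positivity)]
  refine le_of_eq ?_
  push_cast
  field_simp

/-- The variance of the extended free energy. -/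
theorem variance_extFree_le (hC : CalcStatement) (hI : InterpStatement) (hSym : SymStatement)
    (hSp : SpanStatement) (hE : EigenStatement) (hP : PatternStatement) (β : ℝ) (K : ℕ)
    (hn : 0 < n)
    (h : 1 ≤ K → (20 * ((K : ℝ) + 1)) ^ 5 ≤ n ∧ (100 * ((K : ℝ) + 1)) ^ 20 ≤ n ∧
      4 * degBase β K ≤ n ∧ ∃ s : Set (Arr n), GoodSet n K s) :
    variance (extFree n β) (gauss (Edge n)) ≤
      144 * K * degBase β K + 2 * β ^ 2 * n / ((K : ℝ) + 1) := by
  refine (hI (Edge n) (dFree n β) (fun l => (hC n β hn).1 l) K).trans (add_le_add ?_ ?_)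
  · refine (sum_le_sum (g := fun _ => 144 * degBase β K) fun j hj => ?_).trans_eq
      (by rw [sum_const, card_range, nsmul_eq_mul]; ring)
    have hj' := mem_range.1 hj
    obtain ⟨h1, h2, h3, s, hs⟩ := h (by omega)
    refine weight_le hC hSym hSp hE hP β (Nat.succ_pos j) hj' h1 (le_trans ?_ h2) h3 hs
    gcongr
    exact_mod_cast hj'
  · refine (mul_le_mul_of_nonneg_left (gradient_energy_le hC hn β) (by positivity)).trans_eq ?_
    ring

/-- The arithmetic of the threshold. -/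
lemma pow_scale {D x y N : ℝ} (hD : 1 ≤ D) (hx : 1 ≤ x) (hy0 : 0 ≤ y) (hy : y ≤ D * x)
    (hbig : D ^ 5 ≤ x) (hN : N = x ^ 100) : y ^ 81 ≤ N :=
  calc y ^ 81 ≤ (D * x) ^ 81 := pow_le_pow_left₀ hy0 hy 81
    _ = D ^ 81 * x ^ 81 := mul_pow _ _ _
    _ ≤ (D ^ 5) ^ 19 * x ^ 81 := mul_le_mul_of_nonneg_right
        ((pow_le_pow_right₀ hD (by norm_num : 81 ≤ 5 * 19)).trans_eq (pow_mul D 5 19))
        (pow_nonneg (by linarith) _)
    _ ≤ x ^ 19 * x ^ 81 := mul_le_mul_of_nonneg_right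
        (pow_le_pow_left₀ (pow_nonneg (by linarith) _) hbig 19) (pow_nonneg (by linarith) _)
    _ = x ^ (19 + 81) := (pow_add x 19 81).symm
    _ = N := hN.symm

/-- The arithmetic of the main term. -/
lemma main_term {D x y K base : ℝ} (hx : 1 ≤ x) (hK : 0 ≤ K) (hKy : K ≤ y) (hy : y ≤ D * x)
    (hD : 0 ≤ D) (hb0 : 0 ≤ base) (hb : base ≤ y ^ 70) :
    144 * K * base ≤ 144 * D ^ 71 * x ^ 99 :=
  calc 144 * K * base ≤ 144 * y * y ^ 70 :=
        mul_le_mul (mul_le_mul_of_nonneg_left hKy (by norm_num)) hb hb0 (by linarith)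
    _ = 144 * y ^ (70 + 1) := by rw [pow_succ' y 70, mul_assoc]
    _ ≤ 144 * (D * x) ^ 71 :=
        mul_le_mul_of_nonneg_left (pow_le_pow_left₀ (hK.trans hKy) hy 71) (by norm_num)
    _ = 144 * D ^ 71 * x ^ 71 := by rw [mul_pow, mul_assoc]
    _ ≤ _ := mul_le_mul_of_nonneg_left (pow_le_pow_right₀ hx (by norm_num))
        (mul_nonneg (by norm_num) (pow_nonneg hD _))

/-- The combination of the bounds. -/
lemma combine_big {v u M T E b A : ℝ} (hv : v ≤ M + E) (hM : M ≤ 144 * A * T)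
    (hE : E ≤ 2 * b * T) (hu : u ≤ 2 * v + b) (hb : b ≤ b * T) (hb0 : 0 ≤ b * T)
    {S : ℝ} (hS : 0 ≤ 4 * b * S * T) : u ≤ (288 * A + 4 * b * S + 5 * b) * T := by
  linarith

lemma combine_small {v u T b A S N : ℝ} (hv : v ≤ 2 * b * N) (hN : b * N ≤ b * (S * T))
    (hu : u ≤ 2 * v + b) (hb : b ≤ b * T) (hb0 : 0 ≤ b * T) (hA : 0 ≤ 288 * A * T) :
    u ≤ (288 * A + 4 * b * S + 5 * b) * T := by
  linarith

/-- The threshold. -/
noncomputable def threshold (C β : ℝ) : ℝ := C + 20 * (2 * β ^ 2 + 5) + 400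

/-- The variance of the free energy. -/
theorem variance_freeEnergy_le (hC : CalcStatement) (hI : InterpStatement) (hSym : SymStatement)
    (hSp : SpanStatement) (hE : EigenStatement) (hP : PatternStatement) (hG : GoodStatement)
    (β : ℝ) :
    ∃ A : ℝ, ∀ n : ℕ, 0 < n →
      variance (freeEnergy n β) (disorderLaw n) ≤ A * (n : ℝ) ^ (99 / 100 : ℝ) := by
  obtain ⟨C, hC1, hgood⟩ := hG
  set D := threshold C β with hD
  have hD400 : 400 ≤ D := by rw [hD, threshold]; nlinarith [sq_nonneg β]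
  refine ⟨288 * (2 * D) ^ 71 + 4 * β ^ 2 * (2 * D) ^ 5 + 5 * β ^ 2, fun n hn => ?_⟩
  have hn' : (1 : ℝ) ≤ n := by exact_mod_cast hn
  have hn0 : (0 : ℝ) < n := by linarith
  have htr := variance_transfer hn β ((hC n β hn).1 []).1
  set x := (n : ℝ) ^ (1 / 100 : ℝ) with hx
  have hx1 : 1 ≤ x := Real.one_le_rpow hn' (by norm_num)
  have hx0 : 0 ≤ x := by linarith
  have hpow : ∀ j : ℕ, x ^ j = (n : ℝ) ^ ((j : ℝ) / 100) := fun j => by
    rw [hx, ← Real.rpow_natCast, ← Real.rpow_mul hn0.le]; congr 1; ring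
  have hT : (n : ℝ) ^ (99 / 100 : ℝ) = x ^ 99 := by rw [hpow]; norm_num
  have hN : (n : ℝ) = x ^ 100 := by rw [hpow]; norm_num
  have hb : β ^ 2 ≤ β ^ 2 * x ^ 99 := le_mul_of_one_le_right (sq_nonneg β) (one_le_pow₀ hx1)
  have hx99 : 0 ≤ x ^ 99 := pow_nonneg hx0 _
  have hb0 : 0 ≤ β ^ 2 * x ^ 99 := mul_nonneg (sq_nonneg β) hx99
  have hD2 : 1 ≤ 2 * D := by linarith only [hD400]
  rw [hT]
  rcases le_or_gt ((2 * D) ^ 5) x with hbig | hsmall
  · set K := ⌊x⌋₊
    have hKx : (K : ℝ) ≤ x := Nat.floor_le hx0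
    have hKx' : x < (K : ℝ) + 1 := Nat.lt_floor_add_one x
    have hK0 : (0 : ℝ) ≤ K := K.cast_nonneg
    set y := D * ((K : ℝ) + 1) with hy_def
    have hKy : (K : ℝ) ≤ y := by rw [hy_def]; nlinarith only [hK0, hD400]
    have hy1 : 1 ≤ y := by rw [hy_def]; nlinarith only [hK0, hD400]
    have hy0 : 0 ≤ y := le_trans zero_le_one hy1
    have hy : y ≤ 2 * D * x := by rw [hy_def]; nlinarith only [hKx, hx1, hD400]
    have hy81 : y ^ 81 ≤ n := pow_scale hD2 hx1 hy0 hy hbig hN
    have hyle : ∀ j, j ≤ 81 → y ^ j ≤ n := fun j hj => (pow_le_pow_right₀ hy1 hj).trans hy81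
    have hbase0 : 0 ≤ degBase β K := pow_nonneg (by positivity) _
    have hbase : degBase β K ≤ y ^ 70 := by
      refine pow_le_pow_left₀ (by positivity) ?_ 70
      rw [hy_def]
      refine mul_le_mul_of_nonneg_right ?_ (by linarith only [hK0])
      rw [hD, threshold]
      linarith only [hC1]
    have hreq : 1 ≤ K → (20 * ((K : ℝ) + 1)) ^ 5 ≤ n ∧ (100 * ((K : ℝ) + 1)) ^ 20 ≤ n ∧
        4 * degBase β K ≤ n ∧ ∃ s : Set (Arr n), GoodSet n K s := by
      intro hK
      have hle : ∀ c : ℝ, c ≤ D → c * ((K : ℝ) + 1) ≤ y := fun c hc => by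
        rw [hy_def]; exact mul_le_mul_of_nonneg_right hc (by linarith only [hK0])
      refine ⟨(pow_le_pow_left₀ (by positivity) (hle 20 (by linarith only [hD400])) 5).trans
          (hyle 5 (by norm_num)),
        (pow_le_pow_left₀ (by positivity) (hle 100 (by linarith only [hD400])) 20).trans
          (hyle 20 (by norm_num)), ?_, ?_⟩
      · refine le_trans ?_ (hyle 71 (by norm_num))
        rw [pow_succ' y 70]
        refine mul_le_mul ?_ hbase hbase0 hy0
        rw [hy_def]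
        nlinarith only [hK0, hD400]
      · refine hgood n K hK ((pow_le_pow_left₀
          (mul_nonneg (zero_le_one.trans hC1) (by linarith only [hK0])) (hle C ?_) 80).trans
          (hyle 80 (by norm_num)))
        rw [hD, threshold]
        linarith only [sq_nonneg β]
    have hv := variance_extFree_le hC hI hSym hSp hE hP β K hn hreq
    have h2 : 2 * β ^ 2 * (n : ℝ) / ((K : ℝ) + 1) ≤ 2 * β ^ 2 * x ^ 99 := by
      rw [div_le_iff₀ (by linarith only [hK0]), hN, pow_succ x 99]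
      nlinarith only [mul_nonneg hb0 (sub_nonneg.2 hKx'.le)]
    exact combine_big hv (main_term hx1 hK0 hKy hy (zero_le_one.trans hD2) hbase0 hbase) h2 htr hb
      hb0 (mul_nonneg (mul_nonneg (by positivity) (pow_nonneg (zero_le_one.trans hD2) _)) hx99)
  · have hv := variance_extFree_le hC hI hSym hSp hE hP β 0 hn fun h => absurd h (by norm_num)
    simp only [Nat.cast_zero, zero_add, mul_zero, zero_mul, div_one] at hv
    have h2 : β ^ 2 * (n : ℝ) ≤ β ^ 2 * ((2 * D) ^ 5 * x ^ 99) := by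
      refine mul_le_mul_of_nonneg_left ?_ (sq_nonneg β)
      rw [hN, pow_succ' x 99]
      exact mul_le_mul_of_nonneg_right hsmall.le hx99
    exact combine_small hv h2 htr hb hb0
      (mul_nonneg (mul_nonneg (by norm_num) (pow_nonneg (zero_le_one.trans hD2) _)) hx99)

end Vale.Agent.P146.Power
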