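import Vale.Agent.P146.Power.Defs

/-!
The indicator of a pairing of finitely many ports is a network.
-/

namespace Vale.Agent.P146.Power

open Finset

variable {n : ℕ}

/-- The indicator of a pairing is a product of powers zero. -/
lemma gen_pairing (M : Matrix (Fin n) (Fin n) ℝ) :
    ∀ (N : ℕ) (Q : Type) [Fintype Q] [DecidableEq Q] (π : Q → Q), Fintype.card Q = N →
      (∀ q, π (π q) = q) → (∀ q, π q ≠ q) →
        Gen M Q 0 fun x => if ∀ q, x (π q) = x q then 1 else 0 := by
  intro N
  induction N using Nat.strong_induction_on with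
  | _ N ih =>
    intro Q _ _ π hN hinv hfix
    rcases isEmpty_or_nonempty Q with hQ | hQ
    · simpa using Gen.nil (M := M) (Equiv.equivEmpty Q)
    obtain ⟨a⟩ := hQ
    have hmem : ∀ q : {q : Q // q ≠ a ∧ q ≠ π a}, π q.1 ≠ a ∧ π q.1 ≠ π a := fun q =>
      ⟨fun h => q.2.2 ((hinv q.1).symm.trans (congrArg π h)),
        fun h => q.2.1 (((hinv q.1).symm.trans (congrArg π h)).trans (hinv a))⟩
    let e : {q : Q // q ≠ a ∧ q ≠ π a} ⊕ Bool ≃ Q :=
      { toFun := Sum.elim Subtype.val fun b => if b then π a else a
        invFun := fun q => if h1 : q = a then .inr false else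
          if h2 : q = π a then .inr true else .inl ⟨q, h1, h2⟩
        left_inv := by
          rintro (q | (_ | _))
          · simp [q.2.1, q.2.2]
          · simp
          · simp [hfix a]
        right_inv := fun q => by
          by_cases h1 : q = a
          · simp [h1]
          · by_cases h2 : q = π a
            · simp [h2, hfix a]
            · simp [h1, h2] }
    have hlt : Fintype.card {q : Q // q ≠ a ∧ q ≠ π a} < N :=
      hN ▸ Fintype.card_subtype_lt (x := a) (by simp)
    have hg := ih _ hlt {q : Q // q ≠ a ∧ q ≠ π a} (fun q => ⟨π q.1, hmem q⟩) rfl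
      (fun q => Subtype.ext (hinv q.1)) (fun q h => hfix q.1 (congrArg Subtype.val h))
    have := Gen.cons (M := M) e 0 hg
    simp only [add_zero, pow_zero, Matrix.one_apply] at this
    convert this using 1
    funext x
    by_cases h : x a = x (π a)
    · simp only [e, Equiv.coe_fn_mk, Sum.elim_inr, Sum.elim_inl, Bool.false_eq_true, if_false,
        if_true, h, one_mul]
      refine if_congr ⟨fun H q => H q.1, fun H q => ?_⟩ rfl rfl
      by_cases h1 : q = a
      · rw [h1, h]
      by_cases h2 : q = π a
      · rw [h2, hinv, h]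
      exact H ⟨q, h1, h2⟩
    · simp only [e, Equiv.coe_fn_mk, Sum.elim_inr, Bool.false_eq_true, if_false, if_true, h,
        zero_mul]
      exact if_neg fun H => h (H a).symm

lemma pairing_mem_net (M : Matrix (Fin n) (Fin n) ℝ) {Q : Type} [Fintype Q] [DecidableEq Q]
    (π : Q → Q) (hinv : ∀ q, π (π q) = q) (hfix : ∀ q, π q ≠ q) :
    (fun x : Q → Fin n => if ∀ q, x (π q) = x q then (1 : ℝ) else 0) ∈ Net M Q 0 :=
  Submodule.subset_span ⟨0, le_rfl, gen_pairing M _ Q π rfl hinv hfix⟩

end Vale.Agent.P146.Power
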