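import Vale.Agent.P146.Power.Defs

/-!
The structure of a pattern: fixed slots and a fixed-point-free pairing of the others.
-/

namespace Vale.Agent.P146.Power

open Finset

variable {n k r : ℕ}

lemma mem_fib {z : Sl k → Fin n} {l l' : Sl k} : l' ∈ fib z l ↔ z l' = z l := by simp [fib]

lemma self_mem_fib (z : Sl k → Fin n) (l : Sl k) : l ∈ fib z l := mem_fib.2 rfl

lemma fib_congr {z : Sl k → Fin n} {l l' : Sl k} (h : z l' = z l) : fib z l' = fib z l := by
  ext; simp [mem_fib, h]

lemma mem_words {z : Sl k → Fin n} : z ∈ words n k r ↔ EvenWord z ∧ excess z = r := by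
  classical simp [words]

lemma mem_pats {p : Pat n k} : p ∈ pats n k r ↔ ∃ z ∈ words n k r, pat z = p := by
  classical simp [pats]

lemma pat_of_two {z : Sl k → Fin n} {l : Sl k} (h : (fib z l).card = 2) :
    ∃ l', l' ≠ l ∧ fib z l = {l, l'} ∧ pat z l = .inr l' := by
  classical
  have h1 : ((fib z l).erase l).card = 1 := by rw [card_erase_of_mem (self_mem_fib z l), h]
  have hne : ((fib z l).erase l).Nonempty := card_pos.1 (by omega)
  refine ⟨hne.choose, (mem_erase.1 hne.choose_spec).1, ?_, by simp [pat, h, hne]⟩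
  obtain ⟨a, ha⟩ := card_eq_one.1 h1
  have hc : hne.choose = a := by
    have := hne.choose_spec; simpa [ha] using this
  rw [hc, ← insert_erase (self_mem_fib z l), ha]

lemma pat_of_ne {z : Sl k → Fin n} {l : Sl k} (h : (fib z l).card ≠ 2) : pat z l = .inl (z l) := by
  classical simp [pat, h]

/-- The links of a pattern are mutual. -/
lemma pat_link {z : Sl k → Fin n} {l l' : Sl k} (h : pat z l = .inr l') :
    l' ≠ l ∧ pat z l' = .inr l ∧ z l' = z l := by
  classical
  by_cases h2 : (fib z l).card = 2
  · obtain ⟨a, ha, hf, hp⟩ := pat_of_two h2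
    rw [h] at hp
    obtain rfl := Sum.inr_injective hp
    have hz : z l' = z l := mem_fib.1 (by rw [hf]; simp)
    refine ⟨ha, ?_, hz⟩
    obtain ⟨b, hb, hfb, hpb⟩ := pat_of_two (z := z) (l := l') (by rw [fib_congr hz, h2])
    rw [fib_congr hz, hf] at hfb
    have : l ∈ ({l', b} : Finset (Sl k)) := by rw [← hfb]; simp
    simp only [mem_insert, mem_singleton] at this
    rcases this with h' | h'
    · exact absurd h'.symm ha
    · rw [hpb, h']
  · simp [pat_of_ne h2] at h

lemma compat_iff {z : Sl k → Fin n} {p : Pat n k} :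
    Compat z p ↔ (∀ l v, p l = .inl v → z l = v) ∧ ∀ l l', p l = .inr l' → z l = z l' := by
  constructor
  · exact fun h => ⟨fun l v hl => by simpa [hl] using h l, fun l l' hl => by simpa [hl] using h l⟩
  · rintro ⟨h1, h2⟩ l
    rcases hl : p l with v | l'
    · exact h1 l v hl
    · exact h2 l l' hl

lemma core_eq_some {p : Pat n k} {l : Sl k} {v : Fin n} : core p l = some v ↔ p l = .inl v := by
  simp [core, Sum.getLeft?_eq_some_iff]

lemma core_eq_none {p : Pat n k} {l : Sl k} : core p l = none ↔ ∃ l', p l = .inr l' := by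
  rcases h : p l with v | l' <;> simp [core, h]

/-- The fixed slots of a core. -/
def coreSet (y : Sl k → Option (Fin n)) : Finset (Sl k) := univ.filter fun l => (y l).isSome

/-- The fixed vertices of a core. -/
def coreVal (y : Sl k → Option (Fin n)) : Finset (Fin n) := univ.filter fun v => ∃ l, y l = some v

lemma core_pat {z : Sl k → Fin n} {l : Sl k} {v : Fin n} :
    core (pat z) l = some v ↔ z l = v ∧ (fib z l).card ≠ 2 := by
  rw [core_eq_some]
  by_cases h : (fib z l).card = 2
  · obtain ⟨a, -, -, hp⟩ := pat_of_two h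
    simp [hp, h]
  · simp [pat_of_ne h, h]

/-- The counts of fixed slots and vertices of a pattern of excess `r`. -/
lemma core_card {p : Pat n k} (hp : p ∈ pats n k r) :
    (coreSet (core p)).card = 2 * r + 2 * (coreVal (core p)).card ∧
      (coreVal (core p)).card ≤ r := by
  classical
  obtain ⟨z, hz, rfl⟩ := mem_pats.1 hp
  obtain ⟨hev, hex⟩ := mem_words.1 hz
  set I := univ.image z
  set d := fun v : Fin n => (univ.filter fun l => z l = v).card with hd
  have hfd : ∀ l, (fib z l).card = d (z l) := fun l => rfl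
  have hsum : ∑ v ∈ I, d v = 2 * k := by
    rw [hd, ← card_eq_sum_card_fiberwise (fun l _ => mem_image_of_mem z (mem_univ l))]
    simp [mul_comm]
  have hge : ∀ v ∈ I, 2 ≤ d v ∧ Even (d v) := by
    intro v hv
    obtain ⟨l, -, rfl⟩ := mem_image.1 hv
    rw [← hfd]
    have h0 : 0 < (fib z l).card := card_pos.2 ⟨l, self_mem_fib z l⟩
    refine ⟨?_, hev l⟩
    obtain ⟨t, ht⟩ := hev l
    omega
  have hV : coreVal (core (pat z)) = I.filter fun v => d v ≠ 2 := by
    ext v
    simp only [coreVal, mem_filter, mem_univ, true_and, core_pat, I, mem_image]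
    constructor
    · rintro ⟨l, rfl, h⟩; exact ⟨⟨l, rfl⟩, h⟩
    · rintro ⟨⟨l, rfl⟩, h⟩; exact ⟨l, rfl, h⟩
  have hS : (coreSet (core (pat z))).card = ∑ v ∈ I.filter (fun v => d v ≠ 2), d v := by
    rw [card_eq_sum_card_fiberwise (t := I.filter fun v => d v ≠ 2) (f := z)]
    · refine sum_congr rfl fun v hv => congrArg card ?_
      ext l
      simp only [coreSet, mem_filter, mem_univ, true_and, Option.isSome_iff_exists]
      constructor
      · exact fun h => h.2
      · rintro rfl
        exact ⟨⟨z l, core_pat.2 ⟨rfl, (mem_filter.1 hv).2⟩⟩, rfl⟩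
    · intro l hl
      simp only [coreSet, coe_filter, mem_univ, true_and, Set.mem_setOf_eq,
        Option.isSome_iff_exists] at hl
      obtain ⟨v, hv⟩ := hl
      exact mem_filter.2 ⟨mem_image_of_mem z (mem_univ l), (core_pat.1 hv).2⟩
  have hcardI : I.card + r = k := by
    have : I.card * 2 ≤ ∑ v ∈ I, d v := by
      simpa [mul_comm] using card_nsmul_le_sum I d 2 fun v hv => (hge v hv).1
    have : excess z = k - I.card := rfl
    omega
  have hsplit := sum_filter_add_sum_filter_not I (fun v => d v ≠ 2) d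
  have hnot : ∑ v ∈ I.filter (fun v => ¬ d v ≠ 2), d v = 2 * (I.filter fun v => ¬ d v ≠ 2).card := by
    rw [sum_congr rfl fun v hv => not_not.1 (mem_filter.1 hv).2]; simp [mul_comm]
  have hcs := card_filter_add_card_filter_not (s := I) (fun v => d v ≠ 2)
  have h4 : 4 * (I.filter fun v => d v ≠ 2).card ≤ ∑ v ∈ I.filter (fun v => d v ≠ 2), d v := by
    simpa [mul_comm] using card_nsmul_le_sum (I.filter fun v => d v ≠ 2) d 4 fun v hv => by
      obtain ⟨h1, h2⟩ := mem_filter.1 hv
      obtain ⟨h3, t, ht⟩ := hge v h1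
      omega
  rw [hV, hS]
  omega

end Vale.Agent.P146.Power
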