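import Vale.Agent.P146.Power.Defs

/-!
Patterns of words: uniqueness, and the bound on extensions to a higher excess.
-/

namespace Vale.Agent.P146.Power

open Finset

variable {n k r : ℕ}

namespace Pattern

/-! ### Compatibility -/

lemma card_fib_pos (z : Sl k → Fin n) (l : Sl k) : 0 < (fib z l).card :=
  Finset.card_pos.2 ⟨l, by simp [fib]⟩

lemma mem_fib {z : Sl k → Fin n} {l l' : Sl k} : l' ∈ fib z l ↔ z l' = z l := by
  simp [fib]

lemma fib_nonempty_erase {z : Sl k → Fin n} {l : Sl k} (h : (fib z l).card = 2) :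
    ((fib z l).erase l).Nonempty := by
  rw [← Finset.card_pos, Finset.card_erase_of_mem (mem_fib.2 rfl), h]
  norm_num

lemma pat_of_ne {z : Sl k → Fin n} {l : Sl k} (h : (fib z l).card ≠ 2) :
    pat z l = .inl (z l) := by
  unfold pat
  rw [dif_neg fun h' => h h'.1]

lemma pat_of_eq {z : Sl k → Fin n} {l : Sl k} (h : (fib z l).card = 2) :
    ∃ l', pat z l = .inr l' ∧ l' ∈ (fib z l).erase l := by
  refine ⟨(fib_nonempty_erase h).choose, ?_, (fib_nonempty_erase h).choose_spec⟩
  unfold pat
  rw [dif_pos ⟨h, fib_nonempty_erase h⟩]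

lemma pat_congr {z z' : Sl k → Fin n} {l : Sl k} (h : fib z l = fib z' l)
    (h' : (fib z' l).card ≠ 2 → z l = z' l) : pat z l = pat z' l := by
  by_cases hc : (fib z' l).card = 2
  · obtain ⟨a, ha, ham⟩ := pat_of_eq (z := z) (h.symm ▸ hc)
    obtain ⟨b, hb, hbm⟩ := pat_of_eq hc
    rw [h] at ham
    have hcard : ((fib z' l).erase l).card = 1 := by
      rw [Finset.card_erase_of_mem (mem_fib.2 rfl), hc]
    rw [ha, hb, Finset.card_le_one.1 hcard.le _ ham _ hbm]
  · rw [pat_of_ne hc, pat_of_ne (by rw [h]; exact hc), h' hc]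

lemma compat_pat_iff {z z0 : Sl k → Fin n} :
    Compat z (pat z0) ↔
      (∀ l l', z0 l = z0 l' → z l = z l') ∧
        ∀ l, (fib z0 l).card ≠ 2 → z l = z0 l := by
  constructor
  · intro h
    have hfix : ∀ l, (fib z0 l).card ≠ 2 → z l = z0 l := fun l hl => by
      have := h l
      rw [pat_of_ne hl] at this
      exact this
    refine ⟨fun l l' hll => ?_, hfix⟩
    have hfib : fib z0 l = fib z0 l' := by
      ext a
      simp [mem_fib, hll]
    by_cases hc : (fib z0 l).card = 2
    · rcases eq_or_ne l' l with rfl | hne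
      · rfl
      obtain ⟨b, hb, hbm⟩ := pat_of_eq hc
      have hzb := h l
      rw [hb] at hzb
      have hcard : ((fib z0 l).erase l).card = 1 := by
        rw [Finset.card_erase_of_mem (mem_fib.2 rfl), hc]
      have : l' = b :=
        Finset.card_le_one.1 hcard.le _ (Finset.mem_erase.2 ⟨hne, mem_fib.2 hll.symm⟩) _ hbm
      rw [this]
      exact hzb
    · rw [hfix l hc, hfix l' (by rw [← hfib]; exact hc), hll]
  · rintro ⟨h1, h2⟩ l
    by_cases hc : (fib z0 l).card = 2
    · obtain ⟨b, hb, hbm⟩ := pat_of_eq hc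
      rw [hb]
      exact h1 l b (mem_fib.1 (Finset.mem_of_mem_erase hbm)).symm
    · rw [pat_of_ne hc]
      exact h2 l hc

lemma compat_self (z : Sl k → Fin n) : Compat z (pat z) :=
  compat_pat_iff.2 ⟨fun _ _ h => h, fun _ _ => rfl⟩

/-- The induced map on vertices. -/
noncomputable def vmap (z z0 : Sl k → Fin n) (v : Fin n) : Fin n := by
  classical exact if h : ∃ l, z0 l = v then z h.choose else v

lemma vmap_apply {z z0 : Sl k → Fin n} (h : ∀ l l', z0 l = z0 l' → z l = z l') (l : Sl k) :
    vmap z z0 (z0 l) = z l := by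
  have hex : ∃ l', z0 l' = z0 l := ⟨l, rfl⟩
  unfold vmap
  rw [dif_pos hex]
  exact h _ _ hex.choose_spec

lemma image_vmap {z z0 : Sl k → Fin n} (h : ∀ l l', z0 l = z0 l' → z l = z l') :
    (univ.image z0).image (vmap z z0) = univ.image z := by
  rw [Finset.image_image]
  exact Finset.image_congr fun l _ => vmap_apply h l

lemma two_mul_card_image_le {z : Sl k → Fin n} (hz : EvenWord z) :
    2 * (univ.image z).card ≤ 2 * k := by
  have h := Finset.card_eq_sum_card_image z (univ : Finset (Sl k))
  have hle : ∀ v ∈ univ.image z, 2 ≤ (univ.filter fun l => z l = v).card := by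
    intro v hv
    obtain ⟨l, -, rfl⟩ := Finset.mem_image.1 hv
    obtain ⟨c, hc⟩ := hz l
    have := card_fib_pos z l
    show 2 ≤ (fib z l).card
    omega
  have := Finset.card_nsmul_le_sum _ _ _ hle
  rw [← h] at this
  simp [Fintype.card_prod] at this
  omega

lemma mem_words {z : Sl k → Fin n} :
    z ∈ words n k r ↔ EvenWord z ∧ excess z = r := by
  simp [words]

lemma card_image_add {z : Sl k → Fin n} (h : z ∈ words n k r) :
    (univ.image z).card + r = k := by
  obtain ⟨h1, h2⟩ := mem_words.1 h
  have := two_mul_card_image_le h1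
  unfold excess at h2
  omega

lemma even_of_factor {z z0 : Sl k → Fin n} (h : ∀ l l', z0 l = z0 l' → z l = z l')
    (hz : EvenWord z0) : EvenWord z := by
  intro l
  rw [Finset.card_eq_sum_card_image z0 (fib z l)]
  refine Finset.even_sum _ fun v hv => ?_
  obtain ⟨a, ha, rfl⟩ := Finset.mem_image.1 hv
  have : (fib z l).filter (fun b => z0 b = z0 a) = fib z0 a := by
    ext b
    simp only [Finset.mem_filter, mem_fib]
    exact ⟨fun hb => hb.2, fun hb => ⟨(h b a hb).trans (mem_fib.1 ha), hb⟩⟩
  rw [this]
  exact hz a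

lemma mem_pats {p : Pat n k} :
    p ∈ pats n k r ↔ ∃ z0 ∈ words n k r, pat z0 = p := by
  simp [pats]

lemma compat_grade {z : Sl k → Fin n} {p : Pat n k} (hp : p ∈ pats n k r) (h : Compat z p) :
    EvenWord z ∧ r ≤ excess z := by
  obtain ⟨z0, hz0, rfl⟩ := mem_pats.1 hp
  have hf := (compat_pat_iff.1 h).1
  refine ⟨even_of_factor hf (mem_words.1 hz0).1, ?_⟩
  have h1 := card_image_add hz0
  have h2 : (univ.image z).card ≤ (univ.image z0).card := by
    rw [← image_vmap hf]
    exact Finset.card_image_le
  unfold excess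
  omega

lemma fib_eq_of_compat {z z0 : Sl k → Fin n} (h : ∀ l l', z0 l = z0 l' → z l = z l')
    (hc : (univ.image z).card = (univ.image z0).card) (l : Sl k) : fib z l = fib z0 l := by
  have hinj : Set.InjOn (vmap z z0) (univ.image z0 : Finset (Fin n)) :=
    Finset.injOn_of_card_image_eq (by rw [image_vmap h, hc])
  ext a
  simp only [mem_fib]
  refine ⟨fun ha => ?_, fun ha => h a l ha⟩
  exact hinj (by simp) (by simp) (by rw [vmap_apply h, vmap_apply h, ha])

lemma unique {z : Sl k → Fin n} {p : Pat n k} (hz : z ∈ words n k r) (hp : p ∈ pats n k r)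
    (h : Compat z p) : p = pat z := by
  obtain ⟨z0, hz0, rfl⟩ := mem_pats.1 hp
  obtain ⟨hf, hfix⟩ := compat_pat_iff.1 h
  funext l
  have hfib : fib z l = fib z0 l := by
    refine fib_eq_of_compat hf ?_ l
    have := card_image_add hz
    have := card_image_add hz0
    omega
  exact (pat_congr hfib fun hc => hfix l hc).symm

lemma perm_of_pat_eq {z z' : Sl k → Fin n} (hz : z ∈ words n k r) (hz' : z' ∈ words n k r)
    (h : pat z = pat z') : ∃ π : Equiv.Perm (Fin n), z' = fun l => π (z l) := by
  have hcomp : Compat z' (pat z) := h ▸ compat_self z'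
  have hf := (compat_pat_iff.1 hcomp).1
  have hc : (univ.image z').card = (univ.image z).card := by
    have := card_image_add hz
    have := card_image_add hz'
    omega
  have hinj : Set.InjOn (vmap z' z) (univ.image z : Finset (Fin n)) :=
    Finset.injOn_of_card_image_eq (by rw [image_vmap hf, hc])
  let e : {v // v ∈ univ.image z} ≃ {v // v ∈ (univ.image z).image (vmap z' z)} :=
    Equiv.ofBijective (fun v => ⟨vmap z' z v.1, Finset.mem_image_of_mem _ v.2⟩)
      ⟨fun a b hab => Subtype.ext (hinj a.2 b.2 (Subtype.ext_iff.1 hab)), fun b => by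
        obtain ⟨a, ha, hab⟩ := Finset.mem_image.1 b.2
        exact ⟨⟨a, ha⟩, Subtype.ext hab⟩⟩
  refine ⟨e.extendSubtype, funext fun l => ?_⟩
  rw [Equiv.extendSubtype_apply_of_mem e (z l) (by simp)]
  exact (vmap_apply hf l).symm

/-! ### Counting defective maps -/

/-- Maps whose image and `H` lose at least `d` vertices. -/
noncomputable def defect (H : Finset (Fin n)) (P d : ℕ) : Finset (Fin P → Fin n) :=
  univ.filter fun h => (H ∪ univ.image h).card + d ≤ H.card + P

lemma image_cons {P : ℕ} (a : Fin n) (t : Fin P → Fin n) :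
    univ.image (Fin.cons a t : Fin (P + 1) → Fin n) = insert a (univ.image t) := by
  ext b
  simp [Fin.exists_fin_succ, eq_comm]

lemma card_defect_succ (H : Finset (Fin n)) (P d : ℕ) :
    (defect H (P + 1) (d + 1)).card ≤
      (H.card + P) * (defect H P d).card + n * (defect H P (d + 1)).card := by
  classical
  have hsub : defect H (P + 1) (d + 1) ⊆
      ((defect H P d).biUnion fun t => (H ∪ univ.image t).image fun a => Fin.cons a t) ∪
        ((defect H P (d + 1)).biUnion fun t => univ.image fun a => Fin.cons a t) := by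
    intro h hh
    simp only [defect, Finset.mem_filter, Finset.mem_univ, true_and] at hh
    have hrw : h = Fin.cons (h 0) (Fin.tail h) := (Fin.cons_self_tail h).symm
    rw [hrw, image_cons, Finset.union_insert] at hh
    rw [Finset.mem_union]
    by_cases ha : h 0 ∈ H ∪ univ.image (Fin.tail h)
    · left
      rw [Finset.insert_eq_of_mem ha] at hh
      simp only [Finset.mem_biUnion, Finset.mem_image, defect, Finset.mem_filter]
      exact ⟨Fin.tail h, ⟨Finset.mem_univ _, by omega⟩, h 0, ha, hrw.symm⟩
    · right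
      rw [Finset.card_insert_of_notMem ha] at hh
      simp only [Finset.mem_biUnion, Finset.mem_image, defect, Finset.mem_filter]
      exact ⟨Fin.tail h, ⟨Finset.mem_univ _, by omega⟩, h 0, Finset.mem_univ _, hrw.symm⟩
  refine (Finset.card_le_card hsub).trans ((Finset.card_union_le _ _).trans ?_)
  gcongr
  · refine Finset.card_biUnion_le.trans ?_
    refine (Finset.sum_le_card_nsmul _ _ (H.card + P) fun t _ => ?_).trans
      (le_of_eq (by rw [smul_eq_mul, mul_comm]))
    refine Finset.card_image_le.trans ((Finset.card_union_le _ _).trans ?_)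
    gcongr
    exact Finset.card_image_le.trans (by simp)
  · refine Finset.card_biUnion_le.trans ?_
    refine (Finset.sum_le_card_nsmul _ _ n fun t _ => ?_).trans
      (le_of_eq (by rw [smul_eq_mul, mul_comm]))
    exact Finset.card_image_le.trans (by simp)

lemma defect_bound (H : Finset (Fin n)) (K : ℕ) : ∀ P d : ℕ, H.card + P ≤ K →
    (defect H P d).card * n ^ d ≤ (P * K) ^ d * n ^ P := by
  intro P
  induction P with
  | zero =>
    intro d _
    cases d with
    | zero =>
      simp only [pow_zero, mul_one]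
      exact (Finset.card_le_univ _).trans (by simp)
    | succ d =>
      have : defect H 0 (d + 1) = ∅ := by
        ext h
        simp [defect]
      simp [this]
  | succ P ih =>
    intro d hK
    cases d with
    | zero =>
      simp only [pow_zero, mul_one, one_mul]
      exact (Finset.card_le_univ _).trans (by simp)
    | succ d =>
      have h1 := ih d (by omega)
      have h2 := ih (d + 1) (by omega)
      calc (defect H (P + 1) (d + 1)).card * n ^ (d + 1)
          ≤ ((H.card + P) * (defect H P d).card + n * (defect H P (d + 1)).card) * n ^ (d + 1) :=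
            Nat.mul_le_mul_right _ (card_defect_succ H P d)
        _ = (H.card + P) * n * ((defect H P d).card * n ^ d) +
              n * ((defect H P (d + 1)).card * n ^ (d + 1)) := by ring
        _ ≤ K * n * ((P * K) ^ d * n ^ P) + n * ((P * K) ^ (d + 1) * n ^ P) := by
            gcongr
            omega
        _ = n ^ (P + 1) * K ^ (d + 1) * (P ^ d + P ^ (d + 1)) := by ring
        _ ≤ n ^ (P + 1) * K ^ (d + 1) * (P + 1) ^ (d + 1) := by
            gcongr
            have := Nat.pow_le_pow_left (Nat.le_succ P) d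
            calc P ^ d + P ^ (d + 1) = P ^ d * (P + 1) := by ring
              _ ≤ (P + 1) ^ d * (P + 1) := by gcongr
              _ = (P + 1) ^ (d + 1) := by ring
        _ = ((P + 1) * K) ^ (d + 1) * n ^ (P + 1) := by rw [mul_pow]; ring

/-! ### Words compatible with a pattern -/

/-- The vertices of degree 2. -/
noncomputable def low (z0 : Sl k → Fin n) : Finset (Fin n) :=
  (univ.filter fun l => (fib z0 l).card = 2).image z0

/-- The other vertices. -/
noncomputable def high (z0 : Sl k → Fin n) : Finset (Fin n) :=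
  (univ.filter fun l => (fib z0 l).card ≠ 2).image z0

lemma fib_congr {z : Sl k → Fin n} {l l' : Sl k} (h : z l = z l') : fib z l = fib z l' := by
  ext a
  simp [mem_fib, h]

lemma disjoint_high_low (z0 : Sl k → Fin n) : Disjoint (high z0) (low z0) := by
  rw [Finset.disjoint_left]
  intro v hv hv'
  simp only [high, low, Finset.mem_image, Finset.mem_filter, Finset.mem_univ, true_and] at hv hv'
  obtain ⟨a, ha, rfl⟩ := hv
  obtain ⟨b, hb, hab⟩ := hv'
  exact ha (fib_congr hab ▸ hb)

lemma high_union_low (z0 : Sl k → Fin n) : high z0 ∪ low z0 = univ.image z0 := by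
  ext v
  simp only [high, low, Finset.mem_union, Finset.mem_image, Finset.mem_filter, Finset.mem_univ,
    true_and]
  constructor
  · rintro (⟨a, -, h⟩ | ⟨a, -, h⟩) <;> exact ⟨a, h⟩
  · rintro ⟨a, h⟩
    by_cases hc : (fib z0 a).card = 2
    · exact Or.inr ⟨a, hc, h⟩
    · exact Or.inl ⟨a, hc, h⟩

/-- The values of a word at the vertices of degree 2 of another word. -/
noncomputable def proj (z0 z : Sl k → Fin n) (i : Fin (low z0).card) : Fin n :=
  vmap z z0 ((low z0).equivFin.symm i).1

/-- A word from values at the vertices of degree 2. -/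
noncomputable def build (z0 : Sl k → Fin n) (h : Fin (low z0).card → Fin n) (l : Sl k) : Fin n :=
  if hl : z0 l ∈ low z0 then h ((low z0).equivFin ⟨z0 l, hl⟩) else z0 l

lemma card_eq_of_mem_low {z0 : Sl k → Fin n} {l : Sl k} :
    z0 l ∈ low z0 ↔ (fib z0 l).card = 2 := by
  simp only [low, Finset.mem_image, Finset.mem_filter, Finset.mem_univ, true_and]
  exact ⟨fun ⟨a, ha, hal⟩ => fib_congr hal ▸ ha, fun h => ⟨l, h, rfl⟩⟩

lemma compat_build (z0 : Sl k → Fin n) (h : Fin (low z0).card → Fin n) :
    Compat (build z0 h) (pat z0) := by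
  refine compat_pat_iff.2 ⟨fun l l' hll => ?_, fun l hl => ?_⟩
  · unfold build
    by_cases hm : z0 l ∈ low z0
    · have hm' : z0 l' ∈ low z0 := hll ▸ hm
      rw [dif_pos hm, dif_pos hm']
      congr 2
      exact Subtype.ext hll
    · have hm' : z0 l' ∉ low z0 := hll ▸ hm
      rw [dif_neg hm, dif_neg hm', hll]
  · unfold build
    rw [dif_neg fun hm => hl (card_eq_of_mem_low.1 hm)]

lemma build_proj {z0 z : Sl k → Fin n} (h : Compat z (pat z0)) :
    build z0 (proj z0 z) = z := by
  obtain ⟨hf, hfix⟩ := compat_pat_iff.1 h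
  funext l
  unfold build
  by_cases hm : z0 l ∈ low z0
  · rw [dif_pos hm, proj, Equiv.symm_apply_apply]
    exact vmap_apply hf l
  · rw [dif_neg hm]
    exact (hfix l fun hc => hm (card_eq_of_mem_low.2 hc)).symm

lemma build_injective (z0 : Sl k → Fin n) : Function.Injective (build z0) := by
  intro h h' he
  funext i
  obtain ⟨v, rfl⟩ := (low z0).equivFin.surjective i
  obtain ⟨v, hv⟩ := v
  obtain ⟨l, -, rfl⟩ := Finset.mem_image.1 (show v ∈ (univ.filter _).image z0 from hv)
  have := congrFun he l
  unfold build at this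
  rwa [dif_pos hv, dif_pos hv] at this

lemma image_build (z0 : Sl k → Fin n) (h : Fin (low z0).card → Fin n) :
    univ.image (build z0 h) = high z0 ∪ univ.image h := by
  ext v
  simp only [Finset.mem_image, Finset.mem_univ, true_and, Finset.mem_union]
  constructor
  · rintro ⟨l, rfl⟩
    unfold build
    by_cases hm : z0 l ∈ low z0
    · exact Or.inr ⟨_, by rw [dif_pos hm]⟩
    · rw [dif_neg hm]
      refine Or.inl ?_
      have := high_union_low z0 ▸ Finset.mem_image_of_mem z0 (Finset.mem_univ l)
      exact (Finset.mem_union.1 this).resolve_right hm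
  · rintro (hv | ⟨i, rfl⟩)
    · obtain ⟨l, hl, rfl⟩ := Finset.mem_image.1 hv
      refine ⟨l, ?_⟩
      unfold build
      rw [dif_neg fun hm => (Finset.mem_filter.1 hl).2 (card_eq_of_mem_low.1 hm)]
    · obtain ⟨⟨v, hv⟩, rfl⟩ := (low z0).equivFin.surjective i
      obtain ⟨l, -, rfl⟩ := Finset.mem_image.1 (show v ∈ (univ.filter _).image z0 from hv)
      refine ⟨l, ?_⟩
      unfold build
      rw [dif_pos hv]

lemma card_split {z0 : Sl k → Fin n} (hz0 : z0 ∈ words n k r) :
    (high z0).card + (low z0).card + r = k := by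
  rw [← Finset.card_union_of_disjoint (disjoint_high_low z0), high_union_low]
  exact card_image_add hz0

lemma count_compat {z0 : Sl k → Fin n} (hz0 : z0 ∈ words n k r) (δ : ℕ)
    [DecidablePred fun z : Sl k → Fin n => Compat z (pat z0)] :
    ((words n k (r + δ)).filter fun z => Compat z (pat z0)).card * n ^ δ ≤
      (k * k) ^ δ * n ^ (low z0).card := by
  have hsplit := card_split hz0
  have hsub : ((words n k (r + δ)).filter fun z => Compat z (pat z0)) ⊆
      (defect (high z0) (low z0).card δ).image (build z0) := by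
    intro z hz
    obtain ⟨hw, hc⟩ := Finset.mem_filter.1 hz
    refine Finset.mem_image.2 ⟨proj z0 z, ?_, build_proj hc⟩
    simp only [defect, Finset.mem_filter, Finset.mem_univ, true_and]
    rw [← image_build, build_proj hc]
    have := card_image_add hw
    omega
  calc _ ≤ (defect (high z0) (low z0).card δ).card * n ^ δ :=
        Nat.mul_le_mul_right _ ((Finset.card_le_card hsub).trans Finset.card_image_le)
    _ ≤ ((low z0).card * k) ^ δ * n ^ (low z0).card :=
        defect_bound _ k _ _ (by omega)
    _ ≤ (k * k) ^ δ * n ^ (low z0).card := by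
        gcongr
        omega

lemma count_class {z0 : Sl k → Fin n} (hz0 : z0 ∈ words n k r) (hn : 2 * (k * k) ≤ n)
    [DecidablePred fun z : Sl k → Fin n => pat z = pat z0] :
    n ^ (low z0).card ≤ 2 * ((words n k r).filter fun z => pat z = pat z0).card := by
  have hsplit := card_split hz0
  have hbad := defect_bound (high z0) k (low z0).card 1 (by omega)
  have hsub : (univ \ defect (high z0) (low z0).card 1).image (build z0) ⊆
      (words n k r).filter fun z => pat z = pat z0 := by
    intro z hz
    obtain ⟨h, hh, rfl⟩ := Finset.mem_image.1 hz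
    simp only [defect, Finset.mem_sdiff, Finset.mem_filter, Finset.mem_univ, true_and,
      not_le] at hh
    have hc := compat_build z0 h
    have hp : pat z0 ∈ pats n k r := mem_pats.2 ⟨z0, hz0, rfl⟩
    obtain ⟨heven, hle⟩ := compat_grade hp hc
    have hw : build z0 h ∈ words n k r := by
      refine mem_words.2 ⟨heven, le_antisymm ?_ hle⟩
      unfold excess
      rw [image_build]
      omega
    exact Finset.mem_filter.2 ⟨hw, (unique hw hp hc).symm⟩
  have hgood := (Finset.card_le_card hsub)
  rw [Finset.card_image_of_injective _ (build_injective z0),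
    Finset.card_sdiff_of_subset (Finset.subset_univ _)] at hgood
  simp only [Finset.card_univ, Fintype.card_pi, Fintype.card_fin, Finset.prod_const] at hgood
  rcases Nat.eq_zero_or_pos n with hn0 | hn0
  · have : k = 0 := by
      rcases Nat.eq_zero_or_pos k with h | h
      · exact h
      · exfalso
        have : 0 < k * k := Nat.mul_pos h h
        omega
    have hP : (low z0).card = 0 := by omega
    rw [hP]
    simp only [pow_zero]
    have : z0 ∈ (words n k r).filter fun z => pat z = pat z0 :=
      Finset.mem_filter.2 ⟨hz0, rfl⟩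
    have := Finset.card_pos.2 ⟨_, this⟩
    omega
  have h2 : 2 * (defect (high z0) (low z0).card 1).card ≤ n ^ (low z0).card := by
    refine Nat.le_of_mul_le_mul_right ?_ hn0
    calc 2 * (defect (high z0) (low z0).card 1).card * n = 2 * ((defect (high z0) (low z0).card 1).card * n ^ 1) := by ring
      _ ≤ 2 * (((low z0).card * k) ^ 1 * n ^ (low z0).card) := by gcongr
      _ = 2 * ((low z0).card * k) * n ^ (low z0).card := by ring
      _ ≤ 2 * (k * k) * n ^ (low z0).card := by
          gcongr
          omega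
      _ ≤ n * n ^ (low z0).card := by gcongr
      _ = n ^ (low z0).card * n := by ring
  omega

/-! ### Patterns compatible with a word -/

lemma card_merged (S : Finset (Fin n)) (f : Fin n → Fin n) :
    (S.filter fun v => ∃ w ∈ S, w ≠ v ∧ f w = f v).card ≤ 2 * (S.card - (S.image f).card) := by
  classical
  set M := S.filter fun v => ∃ w ∈ S, w ≠ v ∧ f w = f v
  have key : M.card + 2 * (S.image f).card ≤ 2 * S.card := by
    rw [Finset.card_eq_sum_card_fiberwise (f := f) (t := S.image f) (s := M) (fun v hv =>
        Finset.mem_image_of_mem f (Finset.mem_filter.1 hv).1),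
      Finset.card_eq_sum_card_image f S, Finset.mul_sum, mul_comm 2 (S.image f).card,
      ← smul_eq_mul, ← Finset.sum_const, ← Finset.sum_add_distrib]
    refine Finset.sum_le_sum fun t ht => ?_
    obtain ⟨v, hv, rfl⟩ := Finset.mem_image.1 ht
    have hpos : 0 < (S.filter fun w => f w = f v).card :=
      Finset.card_pos.2 ⟨v, Finset.mem_filter.2 ⟨hv, rfl⟩⟩
    by_cases he : (M.filter fun w => f w = f v) = ∅
    · simp [he]
      exact Finset.card_pos.1 hpos
    · obtain ⟨w, hw⟩ := Finset.nonempty_iff_ne_empty.2 he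
      obtain ⟨hwM, hwf⟩ := Finset.mem_filter.1 hw
      obtain ⟨hwS, u, huS, hne, huf⟩ := Finset.mem_filter.1 hwM
      have h2 : 1 < (S.filter fun w => f w = f v).card :=
        Finset.one_lt_card.2 ⟨u, Finset.mem_filter.2 ⟨huS, huf.trans hwf⟩, w,
          Finset.mem_filter.2 ⟨hwS, hwf⟩, hne⟩
      have h3 : (M.filter fun w => f w = f v).card ≤ (S.filter fun w => f w = f v).card :=
        Finset.card_le_card (Finset.filter_subset_filter _ (Finset.filter_subset _ _))
      omega
  omega

lemma differ {z z0 : Sl k → Fin n} {δ : ℕ} (hz0 : z0 ∈ words n k r)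
    (hz : z ∈ words n k (r + δ)) (hc : Compat z (pat z0)) :
    (univ.filter fun l => pat z0 l ≠ pat z l).card ≤ 4 * δ ∧
      ∀ l, pat z0 l ≠ pat z l → ∃ l', pat z0 l = .inr l' := by
  classical
  obtain ⟨hf, hfix⟩ := compat_pat_iff.1 hc
  set S := univ.image z0
  set M := S.filter fun v => ∃ w ∈ S, w ≠ v ∧ vmap z z0 w = vmap z z0 v
  have key : ∀ l, pat z0 l ≠ pat z l → (fib z0 l).card = 2 ∧ z0 l ∈ M := by
    intro l hl
    have hsubset : fib z0 l ⊆ fib z l := fun a ha => mem_fib.2 (hf a l (mem_fib.1 ha))
    by_cases h2 : (fib z0 l).card = 2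
    · refine ⟨h2, ?_⟩
      have hne : fib z l ≠ fib z0 l := fun he =>
        hl (pat_congr he.symm (fun h => absurd (he ▸ h2) h))
      obtain ⟨a, ha, ha'⟩ := Finset.exists_of_ssubset
        (Finset.ssubset_iff_subset_ne.2 ⟨hsubset, hne.symm⟩)
      refine Finset.mem_filter.2 ⟨by simp [S], z0 a, by simp [S], fun h => ha' (mem_fib.2 h), ?_⟩
      rw [vmap_apply hf, vmap_apply hf]
      exact mem_fib.1 ha
    · exfalso
      have hev := (mem_words.1 hz0).1 l
      have hp := card_fib_pos z0 l
      have hle := Finset.card_le_card hsubset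
      have h4 : (fib z l).card ≠ 2 := by
        obtain ⟨c, hc'⟩ := hev
        omega
      exact hl (by rw [pat_of_ne h2, pat_of_ne h4, hfix l h2])
  refine ⟨?_, fun l hl => ?_⟩
  · have hD : (univ.filter fun l => pat z0 l ≠ pat z l) ⊆
        univ.filter fun l => (fib z0 l).card = 2 ∧ z0 l ∈ M := fun l hl =>
      Finset.mem_filter.2 ⟨Finset.mem_univ _, key l (Finset.mem_filter.1 hl).2⟩
    refine (Finset.card_le_card hD).trans ?_
    have h1 : (univ.filter fun l => (fib z0 l).card = 2 ∧ z0 l ∈ M).card ≤ 2 * M.card := by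
      refine Finset.card_le_mul_card_image_of_maps_to (f := z0)
        (fun l hl => (Finset.mem_filter.1 hl).2.2) 2 fun v _ => ?_
      by_cases he : ((univ.filter fun l => (fib z0 l).card = 2 ∧ z0 l ∈ M).filter
          fun l => z0 l = v) = ∅
      · simp [he]
      · obtain ⟨a, ha⟩ := Finset.nonempty_iff_ne_empty.2 he
        obtain ⟨ha1, rfl⟩ := Finset.mem_filter.1 ha
        refine le_trans (Finset.card_le_card fun b hb => ?_) (Finset.mem_filter.1 ha1).2.1.le
        exact mem_fib.2 (Finset.mem_filter.1 hb).2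
    have h2 : M.card ≤ 2 * δ := by
      refine (card_merged S (vmap z z0)).trans ?_
      rw [image_vmap hf]
      have h3 := card_image_add hz0
      have h4 := card_image_add hz
      show 2 * ((univ.image z0).card - (univ.image z).card) ≤ 2 * δ
      omega
    omega
  · obtain ⟨l', hl', -⟩ := pat_of_eq (key l hl).1
    exact ⟨l', hl'⟩

/-- A pattern from a word and a list of relinked slots. -/
noncomputable def relink (z : Sl k → Fin n) {m : ℕ} (g : Fin m → Option (Sl k × Sl k)) :
    Pat n k := fun l => by
  classical exact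
    if h : ∃ p : Sl k, ∃ i, g i = some (l, p) then .inr h.choose else pat z l

lemma count_pats {z : Sl k → Fin n} {δ : ℕ} (hz : z ∈ words n k (r + δ))
    [DecidablePred fun p : Pat n k => Compat z p] :
    ((pats n k r).filter fun p => Compat z p).card ≤ (5 * ((k + 1) * (k + 1))) ^ (4 * δ) := by
  classical
  have hsub : ((pats n k r).filter fun p => Compat z p) ⊆
      (univ : Finset (Fin (4 * δ) → Option (Sl k × Sl k))).image (relink z) := by
    intro p hp
    obtain ⟨hpm, hc⟩ := Finset.mem_filter.1 hp
    obtain ⟨z0, hz0, rfl⟩ := mem_pats.1 hpm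
    obtain ⟨hcard, hinr⟩ := differ hz0 hz hc
    set D := univ.filter fun l => pat z0 l ≠ pat z l
    choose! g hg using hinr
    have e : D ↪ Fin (4 * δ) := D.equivFin.toEmbedding.trans (Fin.castLEEmb hcard)
    refine Finset.mem_image.2
      ⟨fun i => if h : ∃ a, e a = i then some ((h.choose : Sl k), g h.choose) else none,
        Finset.mem_univ _, funext fun l => ?_⟩
    have hval : ∀ p', (∃ i, (if h : ∃ a, e a = i then some ((h.choose : Sl k), g h.choose)
        else none) = some (l, p')) → l ∈ D ∧ p' = g l := by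
      rintro p' ⟨i, hi⟩
      split_ifs at hi with h
      simp only [Option.some.injEq, Prod.mk.injEq] at hi
      obtain ⟨rfl, rfl⟩ := hi
      exact ⟨h.choose.2, rfl⟩
    unfold relink
    by_cases hl : l ∈ D
    · have hex : ∃ p' : Sl k, ∃ i, (if h : ∃ a, e a = i then
          some ((h.choose : Sl k), g h.choose) else none) = some (l, p') := by
        refine ⟨g l, e ⟨l, hl⟩, ?_⟩
        have h : ∃ a, e a = e ⟨l, hl⟩ := ⟨_, rfl⟩
        rw [dif_pos h, e.injective h.choose_spec]
      rw [dif_pos hex, (hval _ hex.choose_spec).2]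
      exact (hg l (Finset.mem_filter.1 hl).2).symm
    · rw [dif_neg fun hex => hl (hval _ hex.choose_spec).1]
      by_contra hne
      exact hl (Finset.mem_filter.2 ⟨Finset.mem_univ _, Ne.symm hne⟩)
  refine (Finset.card_le_card hsub).trans (Finset.card_image_le.trans ?_)
  simp only [Finset.card_univ, Fintype.card_pi, Finset.prod_const, Fintype.card_fin,
    Fintype.card_option, Fintype.card_prod, Fintype.card_bool]
  gcongr
  nlinarith

end Pattern

open Pattern in
theorem pattern_statement : PatternStatement := by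
  classical
  intro n k r hk hn
  refine ⟨fun z p hz hp h => unique hz hp h, fun z p hp h => compat_grade hp h,
    fun z _ => compat_self z, fun z z' hz hz' h => perm_of_pat_eq hz hz' h, ?_⟩
  intro S c δ hS
  have hn1 : (100 : ℝ) * ((k : ℝ) + 1) ≤ n ∧ (0 : ℝ) < n ∧ 2 * (k * k) ≤ n := by
    have h1 : (1 : ℝ) ≤ 100 * ((k : ℝ) + 1) := by
      have : (0 : ℝ) ≤ k := Nat.cast_nonneg k
      linarith
    have h2 : (100 * ((k : ℝ) + 1)) ^ 2 ≤ n := (pow_le_pow_right₀ h1 (by norm_num)).trans hn
    have h3 : (100 : ℝ) * ((k : ℝ) + 1) ≤ (100 * ((k : ℝ) + 1)) ^ 2 := le_self_pow₀ h1 two_ne_zero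
    refine ⟨h3.trans h2, by linarith, ?_⟩
    have h4 : ((2 * (k * k) : ℕ) : ℝ) ≤ n := by
      push_cast
      nlinarith
    exact_mod_cast h4
  obtain ⟨-, hn0, hn2⟩ := hn1
  set Nmax : ℕ := (5 * ((k + 1) * (k + 1))) ^ (4 * δ)
  have hpoint : ∀ z ∈ words n k (r + δ), ext S c z ^ 2 ≤
      (Nmax : ℝ) * ∑ p ∈ S.filter (Compat z), c p ^ 2 := by
    intro z hz
    have hle : (S.filter (Compat z)).card ≤ Nmax :=
      (Finset.card_le_card (Finset.filter_subset_filter _ hS)).trans (count_pats hz)
    unfold ext
    calc (∑ p ∈ S.filter (Compat z), c p) ^ 2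
        ≤ ((S.filter (Compat z)).card : ℝ) * ∑ p ∈ S.filter (Compat z), c p ^ 2 :=
          sq_sum_le_card_mul_sum_sq
      _ ≤ _ := mul_le_mul_of_nonneg_right (by exact_mod_cast hle)
          (Finset.sum_nonneg fun p _ => sq_nonneg _)
  have hclass : ∀ p ∈ S, (Nmax : ℝ) * ((words n k (r + δ)).filter fun z => Compat z p).card ≤
      2 * ((8 * ((k : ℝ) + 1)) ^ 12 / n) ^ δ *
        ((words n k r).filter fun z => pat z = p).card := by
    intro p hp
    obtain ⟨z0, hz0, rfl⟩ := mem_pats.1 (hS hp)
    have ha := count_compat hz0 δ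
    have hb := count_class hz0 hn2
    set A := ((words n k (r + δ)).filter fun z => Compat z (pat z0)).card
    set B := ((words n k r).filter fun z => pat z = pat z0).card
    have hnat : Nmax * A * n ^ δ ≤ 2 * ((8 * (k + 1)) ^ 12) ^ δ * B := by
      calc Nmax * A * n ^ δ = Nmax * (A * n ^ δ) := by ring
        _ ≤ Nmax * ((k * k) ^ δ * (2 * B)) :=
            Nat.mul_le_mul_left _ (ha.trans (Nat.mul_le_mul_left _ hb))
        _ = 2 * ((5 * ((k + 1) * (k + 1))) ^ 4 * (k * k)) ^ δ * B := by
            simp only [Nmax, mul_pow, pow_mul]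
            ring
        _ ≤ _ := by
            gcongr
            calc (5 * ((k + 1) * (k + 1))) ^ 4 * (k * k)
                ≤ (5 * ((k + 1) * (k + 1))) ^ 4 * ((k + 1) * (k + 1)) := by gcongr <;> omega
              _ = 625 * (k + 1) ^ 10 := by ring
              _ ≤ 8 ^ 12 * (k + 1) ^ 12 :=
                  Nat.mul_le_mul (by norm_num) (Nat.pow_le_pow_right (by omega) (by norm_num))
              _ = (8 * (k + 1)) ^ 12 := by ring
    have hR : (Nmax : ℝ) * A * (n : ℝ) ^ δ ≤ 2 * ((8 * ((k : ℝ) + 1)) ^ 12) ^ δ * B := by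
      exact_mod_cast hnat
    rw [div_pow, mul_div_assoc', div_mul_eq_mul_div, le_div_iff₀ (pow_pos hn0 δ)]
    exact hR
  calc ∑ z ∈ words n k (r + δ), ext S c z ^ 2
      ≤ ∑ z ∈ words n k (r + δ), (Nmax : ℝ) * ∑ p ∈ S.filter (Compat z), c p ^ 2 :=
        Finset.sum_le_sum hpoint
    _ = ∑ p ∈ S, (Nmax : ℝ) * (((words n k (r + δ)).filter fun z => Compat z p).card : ℝ) *
          c p ^ 2 := by
        simp only [Finset.sum_filter, Finset.mul_sum]
        rw [Finset.sum_comm]
        refine Finset.sum_congr rfl fun p _ => ?_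
        rw [← Finset.mul_sum, ← Finset.sum_filter, Finset.sum_const, nsmul_eq_mul]
        ring
    _ ≤ _ := by
        rw [Finset.mul_sum]
        refine Finset.sum_le_sum fun p hp => ?_
        calc (Nmax : ℝ) * (((words n k (r + δ)).filter fun z => Compat z p).card : ℝ) * c p ^ 2
            ≤ (2 * ((8 * ((k : ℝ) + 1)) ^ 12 / n) ^ δ *
                ((words n k r).filter fun z => pat z = p).card) * c p ^ 2 :=
              mul_le_mul_of_nonneg_right (hclass p hp) (sq_nonneg _)
          _ = _ := by ring

end Vale.Agent.P146.Power
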