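import Vale.Agent.P146.Power.Core

/-!
The recursion over the excess.
-/

namespace Vale.Agent.P146.Power

open MeasureTheory Finset Real

variable {n K k r : ℕ}

/-- The square of the coefficients of the words of excess `r`. -/
noncomputable def gradeSq (n : ℕ) (β : ℝ) (k r : ℕ) : ℝ := ∑ z ∈ words n k r, tHat n β z ^ 2

/-- The ratio lost by merging. -/
noncomputable def ratio (n k : ℕ) : ℝ := (8 * ((k : ℝ) + 1)) ^ 12 / n

/-- The bound of all cores of excess `r`. -/
noncomputable def gradeBd (n : ℕ) (β : ℝ) (K k r : ℕ) : ℝ :=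
  ∑ y ∈ (pats n k r).image core, coreBd β K (stubs y).card / (n : ℝ) ^ (r + (coreVal y).card)

lemma ext_eq_sum_cores (S : Finset (Pat n k)) (c : Pat n k → ℝ) (z : Sl k → Fin n) :
    ext S c z = ∑ y ∈ S.image core, ext (S.filter fun p => core p = y) c z := by
  classical
  simp only [ext, filter_comm (p := fun p => core p = _)]
  exact (sum_fiberwise_of_maps_to (fun p hp => mem_image_of_mem _ (mem_filter.1 hp).1) c).symm

lemma sum_eq_sum_words (r : ℕ) {φ : (Sl k → Fin n) → ℝ}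
    (h : ∀ z, φ z ≠ 0 → EvenWord z ∧ r ≤ excess z) :
    ∑ z, φ z = ∑ δ ∈ range (k + 1), ∑ z ∈ words n k (r + δ), φ z := by
  classical
  simp only [words, sum_filter]
  rw [sum_comm]
  refine sum_congr rfl fun z _ => ?_
  by_cases hz : φ z = 0
  · simp [hz]
  obtain ⟨he, hr⟩ := h z hz
  rw [sum_eq_single_of_mem (excess z - r)
    (mem_range.2 (by have : excess z ≤ k := Nat.sub_le _ _; omega))]
  · rw [if_pos ⟨he, by omega⟩]
  · exact fun δ _ hne => if_neg fun hh => hne (by omega)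

lemma geom_le {q : ℝ} (h0 : 0 ≤ q) (h1 : q ≤ 1 / 8) (k : ℕ) :
    ∑ δ ∈ range (k + 1), q ^ δ ≤ 8 / 7 := by
  have h := geom_sum_mul q (k + 1)
  have := pow_nonneg h0 (k + 1)
  nlinarith [sum_nonneg (s := range (k + 1)) fun δ (_ : δ ∈ range (k + 1)) => pow_nonneg h0 δ]

/-- One step of the recursion. -/
theorem grade_le (hC : CalcStatement) (hSym : SymStatement) (hSp : SpanStatement)
    (hE : EigenStatement) (hP : PatternStatement) (β : ℝ) (hk : 1 ≤ k) (hkK : k ≤ K)
    (hn : (20 * ((K : ℝ) + 1)) ^ 5 ≤ n) (hn' : (100 * ((k : ℝ) + 1)) ^ 20 ≤ n)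
    (hq : ratio n k ≤ 1 / 8) {s : Set (Arr n)} (hs : GoodSet n K s) (r : ℕ) :
    sqrt (gradeSq n β k r) ≤ sqrt (3 * k.factorial * gradeBd n β K k r) +
      ∑ δ ∈ Ico 1 (k + 1), sqrt (2 * ratio n k ^ δ) * sqrt (gradeSq n β k (r + δ)) := by
  classical
  obtain ⟨huniq, hge, hself, hperm, hext⟩ := hP n k r hk hn'
  set P := pats n k r
  set c : Pat n k → ℝ := fun p =>
    if h : ∃ z ∈ words n k r, pat z = p then tHat n β h.choose else 0 with hc
  set N : Pat n k → ℝ := fun p => ((words n k r).filter fun z => pat z = p).card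
  set ε := ratio n k
  have hε0 : 0 ≤ ε := div_nonneg (by positivity) (Nat.cast_nonneg _)
  have hcz : ∀ z ∈ words n k r, c (pat z) = tHat n β z := by
    intro z hz
    have h : ∃ z' ∈ words n k r, pat z' = pat z := ⟨z, hz, rfl⟩
    simp only [hc, dif_pos h]
    obtain ⟨σ, hσ⟩ := hperm _ z h.choose_spec.1 hz h.choose_spec.2
    exact ((congrArg (tHat n β) hσ).trans ((hSym n β k _ hk).1 σ)).symm
  have hT : ∑ p ∈ P, c p ^ 2 * N p = gradeSq n β k r := by
    rw [gradeSq, ← sum_fiberwise_of_maps_to (g := pat) (t := P)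
      (fun z hz => mem_pats.2 ⟨z, hz, rfl⟩) fun z => tHat n β z ^ 2]
    refine sum_congr rfl fun p _ => ?_
    rw [sum_congr rfl fun z hz => by
      rw [← hcz z (mem_filter.1 hz).1, (mem_filter.1 hz).2], sum_const, nsmul_eq_mul, mul_comm]
  have hzero : ∀ S : Finset (Pat n k), S ⊆ P → ∀ z, ext S c z ≠ 0 → EvenWord z ∧ r ≤ excess z := by
    intro S hS z hz
    obtain ⟨p, hp, -⟩ := exists_ne_zero_of_sum_ne_zero hz
    obtain ⟨hp1, hp2⟩ := mem_filter.1 hp
    exact hge z p (hS hp1) hp2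
  have hmain : ∀ z ∈ words n k r, ext P c z = tHat n β z := by
    intro z hz
    have e : P.filter (Compat z) = {pat z} := by
      ext p
      simp only [mem_filter, mem_singleton]
      exact ⟨fun h => huniq z p hz h.1 h.2,
        fun h => h ▸ ⟨mem_pats.2 ⟨z, hz, rfl⟩, hself z hz⟩⟩
    rw [ext, e, sum_singleton, hcz z hz]
  -- the pairing, core by core
  set Y := P.image core
  set Sy : (Sl k → Option (Fin n)) → Finset (Pat n k) := fun y => P.filter fun p => core p = y
  set W : (Sl k → Option (Fin n)) → ℝ := fun y => ∑ p ∈ Sy y, c p ^ 2 * N p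
  set A : (Sl k → Option (Fin n)) → ℝ := fun y =>
    coreBd β K (stubs y).card / (n : ℝ) ^ (r + (coreVal y).card)
  have hA0 : ∀ y, 0 ≤ A y := fun y => div_nonneg (by unfold coreBd; positivity) (by positivity)
  have hW0 : ∀ y, 0 ≤ W y := fun y => sum_nonneg fun p _ => mul_nonneg (sq_nonneg _) (Nat.cast_nonneg _)
  have hcore : ∀ y ∈ Y, |∑ z, tHat n β z * ext (Sy y) c z| ≤
      sqrt (3 * k.factorial * A y) * sqrt (W y) := by
    intro y hy
    obtain ⟨p, hp, hpy⟩ := mem_image.1 hy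
    have hS : ∀ q ∈ Sy y, q ∈ pats n k r ∧ core q = y := fun q hq => mem_filter.1 hq
    have h := core_pairing hC hSp hE β hk hkK hn hs hS ⟨p, mem_filter.2 ⟨hp, hpy⟩⟩ c
    rw [← sqrt_mul (mul_nonneg (by positivity) (hA0 y) : (0:ℝ) ≤ 3 * k.factorial * A y)]
    refine abs_le_sqrt (h.trans ?_)
    have h2 : ∑ z, ext (Sy y) c z ^ 2 ≤ 3 * W y := by
      rw [sum_eq_sum_words r fun z hz => hzero _ (filter_subset _ _) z (by simpa using hz)]
      refine (sum_le_sum fun δ _ => hext (Sy y) c δ (filter_subset _ _)).trans ?_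
      rw [← sum_mul, ← mul_sum]
      refine mul_le_mul_of_nonneg_right ?_ (hW0 y)
      have := geom_le hε0 hq k
      change 2 * ∑ δ ∈ range (k + 1), ε ^ δ ≤ 3
      linarith
    calc A y * (k.factorial * ∑ z, ext (Sy y) c z ^ 2) ≤ A y * (k.factorial * (3 * W y)) :=
          mul_le_mul_of_nonneg_left (mul_le_mul_of_nonneg_left h2 (Nat.cast_nonneg _)) (hA0 y)
      _ = _ := by ring
  have hpair : |∑ z, tHat n β z * ext P c z| ≤
      sqrt (3 * k.factorial * gradeBd n β K k r) * sqrt (gradeSq n β k r) := by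
    simp only [ext_eq_sum_cores P, mul_sum]
    rw [sum_comm]
    refine (abs_sum_le_sum_abs _ _).trans ((sum_le_sum hcore).trans
      ((sum_sqrt_mul_sqrt_le Y (fun y => mul_nonneg (by positivity) (hA0 y)) hW0).trans_eq ?_))
    congr 1
    · rw [← mul_sum]; rfl
    · rw [← hT]
      exact congrArg sqrt (sum_fiberwise_of_maps_to (fun p hp => mem_image_of_mem _ hp) _)
  -- the corrections
  set T := gradeSq n β k r
  have hT0 : 0 ≤ T := sum_nonneg fun z _ => sq_nonneg _
  have hcross : ∀ δ, |∑ z ∈ words n k (r + δ), tHat n β z * ext P c z| ≤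
      sqrt (2 * ε ^ δ) * sqrt (gradeSq n β k (r + δ)) * sqrt T := by
    intro δ
    have h := hext P c δ subset_rfl
    rw [hT] at h
    refine (abs_le_sqrt (sum_mul_sq_le_sq_mul_sq _ _ _)).trans ?_
    rw [mul_comm (sqrt _) (sqrt (gradeSq n β k (r + δ))), mul_assoc,
      ← sqrt_mul (by positivity : (0:ℝ) ≤ 2 * ε ^ δ), ← sqrt_mul (show (0:ℝ) ≤ gradeSq n β k (r + δ) from sum_nonneg fun z _ => sq_nonneg _)]
    exact sqrt_le_sqrt (mul_le_mul_of_nonneg_left h (sum_nonneg fun z _ => sq_nonneg _))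
  have hsplit := sum_eq_sum_words r (φ := fun z => tHat n β z * ext P c z)
    fun z hz => hzero P subset_rfl z (right_ne_zero_of_mul hz)
  rw [range_eq_Ico, sum_eq_sum_Ico_succ_bot (Nat.succ_pos k)] at hsplit
  simp only [add_zero, zero_add] at hsplit
  have hw : ∑ z ∈ words n k r, tHat n β z * ext P c z = T :=
    sum_congr rfl fun z hz => by rw [hmain z hz, sq]
  rw [hw] at hsplit
  have hrec : T ≤ (sqrt (3 * k.factorial * gradeBd n β K k r) +
      ∑ δ ∈ Ico 1 (k + 1), sqrt (2 * ε ^ δ) * sqrt (gradeSq n β k (r + δ))) * sqrt T := by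
    have e : T = ∑ z, tHat n β z * ext P c z -
        ∑ δ ∈ Ico 1 (k + 1), ∑ z ∈ words n k (r + δ), tHat n β z * ext P c z := by
      rw [hsplit]; simp [T, gradeSq]
    rw [add_mul, sum_mul]
    have h2 := abs_sum_le_sum_abs (fun δ => ∑ z ∈ words n k (r + δ), tHat n β z * ext P c z)
      (Ico 1 (k + 1))
    have h3 := sum_le_sum (s := Ico 1 (k + 1)) fun δ _ => hcross δ
    have h4 := le_abs_self (∑ z, tHat n β z * ext P c z)
    have h5 := neg_abs_le (∑ δ ∈ Ico 1 (k + 1), ∑ z ∈ words n k (r + δ), tHat n β z * ext P c z)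
    linarith
  rcases eq_or_lt_of_le (sqrt_nonneg T) with h0 | h0
  · rw [← h0]
    exact add_nonneg (sqrt_nonneg _) (sum_nonneg fun δ _ => mul_nonneg (sqrt_nonneg _) (sqrt_nonneg _))
  · exact le_of_mul_le_mul_right (by rw [mul_self_sqrt hT0]; exact hrec) h0

end Vale.Agent.P146.Power
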