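import Vale.Agent.P146.Power.Defs

/-!
Contractions of networks of matrix powers: the Hermite transform of a network is a network.

Generators are closed under relabelling of ports and under applying a power of the matrix at one
port; contracting two ports with a power of the matrix therefore gives a multiple of a generator.
The recursion of the Hermite polynomials consists of such contractions only.
-/

namespace Vale.Agent.P146.Power

open Finset

namespace SpanAux

variable {n : ℕ} {M : Matrix (Fin n) (Fin n) ℝ}

/-- A pair of values, as a function on `Bool`. -/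
def pick {α : Type*} (v w : α) (b : Bool) : α := cond b w v

@[simp] lemma pick_false {α : Type*} (v w : α) : pick v w false = v := rfl

@[simp] lemma pick_true {α : Type*} (v w : α) : pick v w true = w := rfl

/-- Exchange the last two ports. -/
def flipB {A B : Type} (e : A ⊕ Bool ≃ B) : A ⊕ Bool ≃ B :=
  (Equiv.sumCongr (Equiv.refl A) Equiv.boolNot).trans e

lemma gen_of_eq {Q : Type} {d d' : ℕ} {f g : (Q → Fin n) → ℝ} (h : Gen M Q d f) (hd : d = d')
    (hfg : ∀ x, f x = g x) : Gen M Q d' g := by
  obtain rfl : f = g := funext hfg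
  exact hd ▸ h

lemma gen_reindex {Q : Type} {d : ℕ} {g : (Q → Fin n) → ℝ} (h : Gen M Q d g) :
    ∀ {R : Type} (φ : Q ≃ R), Gen M R d fun y => g fun q => y (φ q) := by
  induction h with
  | nil e => exact fun φ => Gen.nil (φ.symm.trans e)
  | cons e l h _ => exact fun φ => Gen.cons (e.trans φ) l h

lemma gen_flip {Q Q' : Type} (hM : M.IsSymm) (e : Q' ⊕ Bool ≃ Q) (l : ℕ)
    (g : (Q' → Fin n) → ℝ) (x : Q → Fin n) :
    (M ^ l) (x (flipB e (.inr false))) (x (flipB e (.inr true))) *
        g (fun q => x (flipB e (.inl q))) =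
      (M ^ l) (x (e (.inr false))) (x (e (.inr true))) * g fun q => x (e (.inl q)) := by
  simp [flipB, (hM.pow l).apply]

/-- Applying a power of the matrix at one port. -/
lemma gen_apply (hM : M.IsSymm) (j : ℕ) {Q : Type} {d : ℕ} {g : (Q → Fin n) → ℝ}
    (h : Gen M Q d g) :
    ∀ [DecidableEq Q] (q : Q), Gen M Q (d + j)
      fun x => ∑ v, (M ^ j) (x q) v * g (Function.update x q v) := by
  induction h with
  | nil e =>
    intro _ q
    exact (e q).elim
  | @cons Q Q' e d g l h ih =>
    intro _ q
    classical
    obtain ⟨u, rfl⟩ := e.surjective q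
    rcases u with q' | b
    · refine gen_of_eq (Gen.cons e l (ih q')) (by omega) fun x => ?_
      dsimp only
      rw [mul_sum]
      refine sum_congr rfl fun v _ => ?_
      have hg : (fun r => Function.update x (e (.inl q')) v (e (.inl r))) =
          Function.update (fun r => x (e (.inl r))) q' v := by
        funext r
        by_cases hr : r = q'
        · subst hr; simp
        · simp [Function.update_of_ne, hr]
      rw [hg, Function.update_of_ne (by simp), Function.update_of_ne (by simp)]
      ring
    · refine gen_of_eq (Gen.cons e (l + j) h) (by omega) fun x => ?_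
      have hg : ∀ v, (fun r => Function.update x (e (.inr b)) v (e (.inl r))) =
          fun r => x (e (.inl r)) := by
        intro v
        funext r
        simp [Function.update_of_ne]
      simp only [hg, ← mul_assoc, ← sum_mul]
      congr 1
      cases b
      · simp only [Function.update_self, Function.update_of_ne (e.injective.ne (show
          (Sum.inr true : Q' ⊕ Bool) ≠ .inr false by simp))]
        rw [add_comm, pow_add, Matrix.mul_apply]
      · simp only [Function.update_self, Function.update_of_ne (e.injective.ne (show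
          (Sum.inr false : Q' ⊕ Bool) ≠ .inr true by simp))]
        rw [pow_add, Matrix.mul_apply]
        refine sum_congr rfl fun v _ => ?_
        rw [(hM.pow j).apply (x (e (.inr true))) v, mul_comm]

/-- An equivalence fixing the last two ports restricts to the others. -/
lemma exists_left {A B : Type} (Φ : A ⊕ Bool ≃ B ⊕ Bool) (h : ∀ t, Φ (.inr t) = .inr t) :
    ∃ ψ : A ≃ B, ∀ a, Φ (.inl a) = .inl (ψ a) := by
  have h₁ : ∀ a, ∃ b, Φ (.inl a) = .inl b := by
    intro a
    rcases hΦ : Φ (.inl a) with b | t
    · exact ⟨b, rfl⟩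
    · exact absurd (Φ.injective (hΦ.trans (h t).symm)) (by simp)
  have h₂ : ∀ b, ∃ a, Φ (.inl a) = .inl b := by
    intro b
    obtain ⟨a | t, ha⟩ := Φ.surjective (.inl b)
    · exact ⟨a, ha⟩
    · rw [h t] at ha; simp at ha
  choose f hf using h₁
  refine ⟨Equiv.ofBijective f ⟨fun a a' haa => ?_, fun b => ?_⟩, hf⟩
  · simpa using Φ.injective ((hf a).trans ((congrArg Sum.inl haa).trans (hf a').symm))
  · obtain ⟨a, ha⟩ := h₂ b
    exact ⟨a, by simpa [hf a] using ha⟩

/-- Two ports and the others. -/
noncomputable def split2 {Q : Type} (a b : Q) (h : a ≠ b) :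
    {q : Q // q ≠ a ∧ q ≠ b} ⊕ Bool ≃ Q :=
  Equiv.ofBijective (Sum.elim Subtype.val (pick a b)) (by
    constructor
    · rintro (⟨u, hu⟩ | u) (⟨v, hv⟩ | v) huv
      · exact congrArg Sum.inl (Subtype.ext huv)
      · cases v
        · exact absurd huv hu.1
        · exact absurd huv hu.2
      · cases u
        · exact absurd huv.symm hv.1
        · exact absurd huv.symm hv.2
      · cases u <;> cases v
        · rfl
        · exact absurd huv h
        · exact absurd huv.symm h
        · rfl
    · intro q
      by_cases h₁ : q = a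
      · exact ⟨.inr false, h₁.symm⟩
      by_cases h₂ : q = b
      · exact ⟨.inr true, h₂.symm⟩
      exact ⟨.inl ⟨q, h₁, h₂⟩, rfl⟩)

@[simp] lemma split2_inr {Q : Type} (a b : Q) (h : a ≠ b) (t : Bool) :
    split2 a b h (.inr t) = pick a b t := rfl

@[simp] lemma split2_inl {Q : Type} (a b : Q) (h : a ≠ b) (q : {q : Q // q ≠ a ∧ q ≠ b}) :
    split2 a b h (.inl q) = q := rfl

lemma gen_mem {Q : Type} {d d' : ℕ} {f : (Q → Fin n) → ℝ} (h : Gen M Q d' f) (hd : d' ≤ d) :
    f ∈ Net M Q d :=
  Submodule.subset_span ⟨d', hd, h⟩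

lemma net_mono {Q : Type} {d d' : ℕ} (hd : d ≤ d') : Net M Q d ≤ Net M Q d' :=
  Submodule.span_mono fun _ ⟨e, he, h⟩ => ⟨e, he.trans hd, h⟩

/-- A linear substitution maps networks to networks when it does so on generators. -/
lemma net_map {Q R ι : Type} [Fintype ι] {d D : ℕ} (a : (R → Fin n) → ι → ℝ)
    (σ : (R → Fin n) → ι → Q → Fin n)
    (h : ∀ d' g, d' ≤ d → Gen M Q d' g → (fun x => ∑ i, a x i * g (σ x i)) ∈ Net M R D)
    {f : (Q → Fin n) → ℝ} (hf : f ∈ Net M Q d) :
    (fun x => ∑ i, a x i * f (σ x i)) ∈ Net M R D := by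
  induction hf using Submodule.span_induction with
  | mem g hg =>
    obtain ⟨d', hd', hg⟩ := hg
    exact h d' g hd' hg
  | zero =>
    convert Submodule.zero_mem (Net M R D) using 1
    funext x
    simp
  | add u v _ _ hu hv =>
    convert Submodule.add_mem _ hu hv using 1
    funext x
    simp [mul_add, sum_add_distrib]
  | smul c u _ hu =>
    convert Submodule.smul_mem _ c hu using 1
    funext x
    simp [mul_sum]
    exact sum_congr rfl fun i _ => by ring

lemma net_reindex {Q R : Type} {d : ℕ} (φ : Q ≃ R) {f : (Q → Fin n) → ℝ} (hf : f ∈ Net M Q d) :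
    (fun y => f fun q => y (φ q)) ∈ Net M R d := by
  have := net_map (ι := Unit) (R := R) (D := d) (fun _ _ => 1) (fun y _ q => y (φ q))
    (fun d' g hd' hg => by simpa using gen_mem (gen_reindex hg φ) hd') hf
  simpa using this

/-- Attaching one more pair to a network. -/
lemma net_cons {Q R : Type} {d D : ℕ} (e : Q ⊕ Bool ≃ R) (l : ℕ) (hD : d + l ≤ D)
    {f : (Q → Fin n) → ℝ} (hf : f ∈ Net M Q d) :
    (fun x => (M ^ l) (x (e (.inr false))) (x (e (.inr true))) * f fun q => x (e (.inl q))) ∈
      Net M R D := by
  have := net_map (ι := Unit) (R := R) (D := D)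
    (fun x _ => (M ^ l) (x (e (.inr false))) (x (e (.inr true)))) (fun x _ q => x (e (.inl q)))
    (fun d' g hd' hg => by simpa using gen_mem (Gen.cons e l hg) (by omega)) hf
  simpa using this

/-- Contracting a port of a pair with a port of another pair. -/
lemma contract_mixed (hM : M.IsSymm) {Q R S : Type} {d : ℕ} {g : (Q → Fin n) → ℝ}
    (h : Gen M Q d g) (l j : ℕ) (e : Q ⊕ Bool ≃ R) (φ : S ⊕ Bool ≃ R) (q : Q)
    (h₀ : φ (.inr false) = e (.inr false)) (h₁ : φ (.inr true) = e (.inl q)) :
    (fun x => ∑ v, ∑ w, (M ^ j) v w *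
        ((M ^ l) (Sum.elim x (pick v w) (φ.symm (e (.inr false))))
            (Sum.elim x (pick v w) (φ.symm (e (.inr true)))) *
          g fun r => Sum.elim x (pick v w) (φ.symm (e (.inl r))))) ∈ Net M S (d + l + j) := by
  classical
  have hΦf : φ.symm (e (.inr false)) = .inr false := by rw [← h₀, φ.symm_apply_apply]
  have hΦq : φ.symm (e (.inl q)) = .inr true := by rw [← h₁, φ.symm_apply_apply]
  obtain ⟨s, hs⟩ : ∃ s, φ.symm (e (.inr true)) = .inl s := by
    rcases hu : φ.symm (e (.inr true)) with s | t
    · exact ⟨s, rfl⟩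
    · cases t
      · simpa using e.injective (φ.symm.injective (hu.trans hΦf.symm))
      · simpa using e.injective (φ.symm.injective (hu.trans hΦq.symm))
  set Φ := (e.trans φ.symm).trans (Equiv.swap (Sum.inr true) (Sum.inl s)) with hΦ
  have hfix : ∀ t, Φ (.inr t) = .inr t := by
    intro t
    cases t
    · simp [hΦ, hΦf, Equiv.swap_apply_of_ne_of_ne]
    · simp [hΦ, hs]
  obtain ⟨ψ, hψ⟩ := exists_left Φ hfix
  have hψq : ψ q = s := by
    have := hψ q
    simp [hΦ, hΦq] at this
    exact this.symm
  have hψr : ∀ r, r ≠ q → φ.symm (e (.inl r)) = .inl (ψ r) := by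
    intro r hr
    have := hψ r
    rw [hΦ] at this
    simp only [Equiv.trans_apply] at this
    rwa [Equiv.swap_apply_of_ne_of_ne] at this
    · intro hc
      exact hr (by simpa using e.injective (φ.symm.injective (hc.trans hΦq.symm)))
    · intro hc
      simpa using e.injective (φ.symm.injective (hc.trans hs.symm))
  refine gen_mem (d' := d + (l + j)) (gen_of_eq (gen_reindex (gen_apply hM (l + j) h q) ψ)
    rfl fun x => ?_) (by omega)
  rw [sum_comm]
  refine sum_congr rfl fun w _ => ?_
  have hg : ∀ v, (fun r => Sum.elim x (pick v w) (φ.symm (e (.inl r)))) =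
      Function.update (fun r => x (ψ r)) q w := by
    intro v
    funext r
    by_cases hr : r = q
    · subst hr; simp [hΦq]
    · simp [Function.update_of_ne hr, hψr r hr]
  simp only [hg, hΦf, hs, Sum.elim_inr, Sum.elim_inl, pick_false, hψq, ← mul_assoc, ← sum_mul]
  congr 1
  rw [pow_add, Matrix.mul_apply]
  refine sum_congr rfl fun v _ => ?_
  rw [(hM.pow l).apply (x s) v, mul_comm]

/-- Contracting two ports of a generator. -/
lemma contract_gen (hM : M.IsSymm) (j : ℕ) {R : Type} {d : ℕ} {g : (R → Fin n) → ℝ}
    (h : Gen M R d g) :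
    ∀ {S : Type} (φ : S ⊕ Bool ≃ R),
      (fun x => ∑ v, ∑ w, (M ^ j) v w * g fun r => Sum.elim x (pick v w) (φ.symm r)) ∈
        Net M S (d + j) := by
  induction h with
  | nil e =>
    intro S φ
    exact (e (φ (.inr false))).elim
  | @cons Q Q' e d g l h ih =>
    intro S φ
    classical
    have hswap : ∀ (x : S → Fin n) (F : (Q → Fin n) → ℝ),
        (∑ v, ∑ w, (M ^ j) v w * F fun r => Sum.elim x (pick v w) ((flipB φ).symm r)) =
          ∑ v, ∑ w, (M ^ j) v w * F fun r => Sum.elim x (pick v w) (φ.symm r) := by
      intro x F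
      rw [sum_comm]
      refine sum_congr rfl fun v _ => sum_congr rfl fun w _ => ?_
      rw [(hM.pow j).apply v w]
      congr 2
      funext r
      obtain ⟨u, rfl⟩ := (flipB φ).surjective r
      rw [Equiv.symm_apply_apply]
      rcases u with s | t
      · simp [flipB]
      · cases t <;> simp [flipB]
    obtain ⟨u₁, hu₁⟩ := e.surjective (φ (.inr false))
    obtain ⟨u₂, hu₂⟩ := e.surjective (φ (.inr true))
    rcases u₁ with q₁ | t₁ <;> rcases u₂ with q₂ | t₂
    · -- both ports outside the first pair
      have hne : q₁ ≠ q₂ := by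
        rintro rfl
        simpa using φ.injective (hu₁.symm.trans hu₂)
      let S' := {r : Q' // r ≠ q₁ ∧ r ≠ q₂}
      let sp : S' ⊕ Bool ≃ Q' := split2 q₁ q₂ hne
      have hspf : ∀ t, sp (.inr t) = pick q₁ q₂ t := fun _ => rfl
      let sh : (S' ⊕ Bool) ⊕ Bool ≃ (S' ⊕ Bool) ⊕ Bool :=
        ((Equiv.sumAssoc S' Bool Bool).trans
          (Equiv.sumCongr (Equiv.refl S') (Equiv.sumComm Bool Bool))).trans
          (Equiv.sumAssoc S' Bool Bool).symm
      let Φ : (S' ⊕ Bool) ⊕ Bool ≃ S ⊕ Bool :=
        sh.trans ((Equiv.sumCongr sp (Equiv.refl Bool)).trans (e.trans φ.symm))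
      have hfix : ∀ t, Φ (.inr t) = .inr t := by
        intro t
        cases t <;> simp [Φ, sh, hspf, hu₁, hu₂]
      obtain ⟨ψ, hψ⟩ := exists_left Φ hfix
      have hpair : ∀ t, φ.symm (e (.inr t)) = .inl (ψ (.inr t)) := by
        intro t
        rw [← hψ (.inr t)]
        simp [Φ, sh]
      have hrest : ∀ q, φ.symm (e (.inl (sp (.inl q)))) = .inl (ψ (.inl q)) := by
        intro q
        rw [← hψ (.inl q)]
        simp [Φ, sh]
      have hsp : ∀ (x : S → Fin n) (v w : Fin n),
          (fun r => Sum.elim x (pick v w) (φ.symm (e (.inl r)))) =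
            fun r => Sum.elim (fun q => x (ψ (.inl q))) (pick v w) (sp.symm r) := by
        intro x v w
        funext r
        obtain ⟨u, rfl⟩ := sp.surjective r
        rw [Equiv.symm_apply_apply]
        rcases u with q | t
        · simp [hrest]
        · cases t <;> simp [hspf, hu₁, hu₂]
      have := net_cons (D := d + l + j) ψ l (by omega) (ih sp)
      convert this using 1
      funext x
      simp only [hpair, hsp, Sum.elim_inl, mul_sum]
      exact sum_congr rfl fun v _ => sum_congr rfl fun w _ => by ring
    · -- the second port is in the first pair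
      have hφ₀ : flipB φ (.inr false) = e (.inr t₂) := by simpa [flipB] using hu₂.symm
      have hφ₁ : flipB φ (.inr true) = e (.inl q₁) := by simpa [flipB] using hu₁.symm
      cases t₂
      · convert contract_mixed hM h l j e (flipB φ) q₁ hφ₀ hφ₁ using 1
        funext x
        exact (hswap x fun y =>
          (M ^ l) (y (e (.inr false))) (y (e (.inr true))) * g fun q => y (e (.inl q))).symm
      · have := contract_mixed hM h l j (flipB e) (flipB φ) q₁ (by simpa [flipB] using hφ₀)
          (by simpa [flipB] using hφ₁)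
        convert this using 1
        funext x
        refine Eq.trans (hswap x fun y =>
          (M ^ l) (y (e (.inr false))) (y (e (.inr true))) * g fun q => y (e (.inl q))).symm ?_
        refine sum_congr rfl fun v _ => sum_congr rfl fun w _ => congrArg _ ?_
        exact (gen_flip hM e l g fun r => Sum.elim x (pick v w) ((flipB φ).symm r)).symm
    · -- the first port is in the first pair
      cases t₁
      · exact contract_mixed hM h l j e φ q₂ hu₁.symm hu₂.symm
      · have := contract_mixed hM h l j (flipB e) φ q₂ (by simpa [flipB] using hu₁.symm)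
          (by simpa [flipB] using hu₂.symm)
        convert this using 1
        funext x
        refine sum_congr rfl fun v _ => sum_congr rfl fun w _ => congrArg _ ?_
        exact (gen_flip hM e l g fun r => Sum.elim x (pick v w) (φ.symm r)).symm
    · -- the first pair itself
      have hne : t₁ ≠ t₂ := by
        rintro rfl
        simpa using φ.injective (hu₁.symm.trans hu₂)
      obtain ⟨τ, hτ₀, hτ₁⟩ : ∃ τ : Bool ≃ Bool, τ false = t₁ ∧ τ true = t₂ := by
        cases t₁ <;> cases t₂
        · simp at hne
        · exact ⟨Equiv.refl _, rfl, rfl⟩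
        · exact ⟨Equiv.boolNot, rfl, rfl⟩
        · simp at hne
      let Φ : Q' ⊕ Bool ≃ S ⊕ Bool :=
        ((Equiv.sumCongr (Equiv.refl Q') τ).trans e).trans φ.symm
      have hfix : ∀ t, Φ (.inr t) = .inr t := by
        intro t
        cases t <;> simp [Φ, hτ₀, hτ₁, hu₁, hu₂]
      obtain ⟨ψ, hψ⟩ := exists_left Φ hfix
      have hrest : ∀ q, φ.symm (e (.inl q)) = .inl (ψ q) := fun q => by
        rw [← hψ q]; simp [Φ]
      have := Submodule.smul_mem (Net M S (d + l + j))
        (∑ v, ∑ w, (M ^ j) v w *
          (M ^ l) (Sum.elim (fun _ : Unit => v) (pick v w)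
              (Sum.inr (τ.symm false) : Unit ⊕ Bool))
            (pick v w (τ.symm true)))
        (gen_mem (gen_reindex h ψ) (by omega : d ≤ d + l + j))
      convert this using 1
      funext x
      have hp : ∀ t, φ.symm (e (.inr t)) = .inr (τ.symm t) := fun t => by
        rw [← hfix (τ.symm t)]; simp [Φ]
      simp [hrest, hp, sum_mul, mul_assoc]

lemma contract_net (hM : M.IsSymm) (j : ℕ) {R S : Type} {d : ℕ} (φ : S ⊕ Bool ≃ R)
    {f : (R → Fin n) → ℝ} (hf : f ∈ Net M R d) :
    (fun x => ∑ v, ∑ w, (M ^ j) v w * f fun r => Sum.elim x (pick v w) (φ.symm r)) ∈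
      Net M S (d + j) := by
  have := net_map (ι := Fin n × Fin n) (R := S) (D := d + j) (fun _ p => (M ^ j) p.1 p.2)
    (fun x p r => Sum.elim x (pick p.1 p.2) (φ.symm r))
    (fun d' g hd' hg => by
      simp only [Fintype.sum_prod_type]
      exact net_mono (by omega : d' + j ≤ d + j) (contract_gen hM j hg φ)) hf
  simpa only [Fintype.sum_prod_type] using this

/-- Identifying two pairs of ports. -/
lemma double_net (hM : M.IsSymm) {R S : Type} {d : ℕ} (φ : (S ⊕ Bool) ⊕ Bool ≃ R)
    {f : (R → Fin n) → ℝ} (hf : f ∈ Net M R d) :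
    (fun y => ∑ a, ∑ b, f fun r => Sum.elim (Sum.elim y (pick a b)) (pick a b) (φ.symm r)) ∈
      Net M S d := by
  let tr : (S ⊕ Bool) ⊕ Bool ≃ (S ⊕ Bool) ⊕ Bool :=
    { toFun := Sum.elim (Sum.elim (fun s => .inl (.inl s)) (pick (.inl (.inr false)) (.inr false)))
        (pick (.inl (.inr true)) (.inr true))
      invFun := Sum.elim (Sum.elim (fun s => .inl (.inl s)) (pick (.inl (.inr false)) (.inr false)))
        (pick (.inl (.inr true)) (.inr true))
      left_inv := by rintro ((s | t) | t) <;> first | rfl | (cases t <;> rfl)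
      right_inv := by rintro ((s | t) | t) <;> first | rfl | (cases t <;> rfl) }
  have h₁ := contract_net (j := 0) hM (tr.trans φ) hf
  have h₂ := contract_net (j := 0) hM (Equiv.refl (S ⊕ Bool)) h₁
  simp only [add_zero] at h₂
  convert h₂ using 1
  funext y
  simp only [pow_zero, Matrix.one_apply, ite_mul, one_mul, zero_mul, sum_ite_eq, mem_univ,
    if_true, Equiv.refl_symm, Equiv.refl_apply]
  refine sum_congr rfl fun a _ => sum_congr rfl fun b _ => congrArg f (funext fun r => ?_)
  obtain ⟨((s | t) | t), rfl⟩ := (tr.trans φ).surjective r <;>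
    rw [Equiv.symm_apply_apply] <;>
    simp only [Equiv.trans_apply, Equiv.symm_apply_apply] <;>
    first | rfl | (cases t <;> rfl)

/-- The slots of letter `i`, and the others. -/
noncomputable def slSplit {m : ℕ} (i : Fin (m + 1)) : Sl m ⊕ Bool ≃ Sl (m + 1) :=
  Equiv.ofBijective (Sum.elim (fun s => (i.succAbove s.1, s.2)) fun b => (i, b)) (by
    constructor
    · rintro (⟨a, s⟩ | s) (⟨b, t⟩ | t) hab <;>
        simp [Fin.succAbove_ne, (Fin.succAbove_ne i _).symm] at hab ⊢
      · exact hab
      · exact hab
    · rintro ⟨k, b⟩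
      by_cases hk : k = i
      · exact ⟨.inr b, by simp [hk]⟩
      · obtain ⟨j, hj⟩ := Fin.exists_succAbove_eq hk
        exact ⟨.inl (j, b), by simp [hj]⟩)

/-- The endpoints with letter `i` set to `(v, w)`. -/
noncomputable def glue {m : ℕ} (i : Fin (m + 1)) (z : Sl m → Fin n) (v w : Fin n)
    (s : Sl (m + 1)) : Fin n :=
  Sum.elim z (pick v w) ((slSplit i).symm s)

lemma glue_self {m : ℕ} (i : Fin (m + 1)) (z : Sl m → Fin n) (v w : Fin n) (b : Bool) :
    glue i z v w (i, b) = pick v w b := by
  have : (i, b) = slSplit i (.inr b) := rfl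
  rw [glue, this, Equiv.symm_apply_apply, Sum.elim_inr]

lemma glue_above {m : ℕ} (i : Fin (m + 1)) (z : Sl m → Fin n) (v w : Fin n) (j : Fin m)
    (b : Bool) : glue i z v w (i.succAbove j, b) = z (j, b) := by
  have : (i.succAbove j, b) = slSplit i (.inl (j, b)) := rfl
  rw [glue, this, Equiv.symm_apply_apply, Sum.elim_inl]

lemma edges_glue_self {m : ℕ} (i : Fin (m + 1)) (z : Sl m → Fin n) (v w : Fin n) :
    edges (glue i z v w) i = (v, w) := by
  simp [edges, glue_self]

lemma edges_glue_above {m : ℕ} (i : Fin (m + 1)) (z : Sl m → Fin n) (v w : Fin n) (j : Fin m) :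
    edges (glue i z v w) (i.succAbove j) = edges z j := by
  simp [edges, glue_above]

lemma sum_glue {m : ℕ} (i : Fin (m + 1)) (F : (Sl (m + 1) → Fin n) → ℝ) :
    ∑ z, F z = ∑ z : Sl m → Fin n, ∑ v, ∑ w, F (glue i z v w) := by
  let E : (Sl m → Fin n) × Fin n × Fin n ≃ (Sl (m + 1) → Fin n) :=
    { toFun := fun p => glue i p.1 p.2.1 p.2.2
      invFun := fun z => (fun s => z (i.succAbove s.1, s.2), z (i, false), z (i, true))
      left_inv := fun p => by simp [glue_self, glue_above]
      right_inv := fun z => by
        funext s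
        obtain ⟨⟨j, b⟩ | b, rfl⟩ := (slSplit i).surjective s
        · exact glue_above i _ _ _ j b
        · cases b <;> exact glue_self i _ _ _ _ }
  rw [← E.sum_comp]
  simp only [Fintype.sum_prod_type]
  rfl

/-- The ports with letter `i` split off. -/
noncomputable def port (Q : Type) {m : ℕ} (i : Fin (m + 1)) :
    (Q ⊕ Sl m) ⊕ Bool ≃ Q ⊕ Sl (m + 1) :=
  (Equiv.sumAssoc Q (Sl m) Bool).trans (Equiv.sumCongr (Equiv.refl Q) (slSplit i))

lemma elim_glue {Q : Type} {m : ℕ} (i : Fin (m + 1)) (x : Q → Fin n) (z : Sl m → Fin n)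
    (v w : Fin n) :
    Sum.elim x (glue i z v w) =
      fun r => Sum.elim (Sum.elim x z) (pick v w) ((port Q i).symm r) := by
  funext r
  obtain ⟨((q | s) | b), rfl⟩ := (port Q i).surjective r <;> rw [Equiv.symm_apply_apply] <;>
    simp [port, glue]

lemma sel_ofFn {α : Type*} : ∀ {m : ℕ} (g : Fin (m + 1) → α),
    sel (List.ofFn g) = List.ofFn fun i => (g i, List.ofFn fun j => g (i.succAbove j))
  | 0, g => by simp [sel]
  | m + 1, g => by
    rw [List.ofFn_succ, sel, sel_ofFn, List.map_ofFn, List.ofFn_succ]
    simp [List.ofFn_succ, Function.comp_def]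

lemma he_cons (e : Edge n) (l : List (Edge n)) (G : Arr n) :
    he (e :: l) G =
      symE G e * he l G - ((sel l).map fun p => symDelta e p.1 * he p.2 G).sum := by
  rw [he]
  exact congrArg (fun L : List ℝ => symE G e * he l G - L.sum)
    (List.attach_map_val (l := sel l) (f := fun p => symDelta e p.1 * he p.2 G))

lemma sum_symDelta (g : Fin n → Fin n → ℝ) (a b : Fin n) :
    ∑ v, ∑ w, g v w * symDelta (v, w) (a, b) = (g a b + g b a) / 2 := by
  rw [← Fintype.sum_prod_type' fun v w => g v w * symDelta (v, w) (a, b)]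
  simp [symDelta, mul_add, mul_div_assoc', ← sum_div, sum_add_distrib]

lemma symMat_isSymm (G : Arr n) : (symMat G).IsSymm := by
  ext i j
  simp [symMat, symE, add_comm]

/-- The Hermite transform of a network is a network. -/
lemma transform_mem (G : Arr n) : ∀ (m : ℕ) (Q : Type) (d : ℕ) (f : (Q ⊕ Sl m → Fin n) → ℝ),
    f ∈ Net (symMat G) (Q ⊕ Sl m) d →
      (fun x => ∑ z : Sl m → Fin n, f (Sum.elim x z) * he (List.ofFn (edges z)) G) ∈
        Net (symMat G) Q (d + m) := by
  intro m
  induction m using Nat.strong_induction_on with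
  | _ m IH =>
    intro Q d f hf
    have hM := symMat_isSymm G
    rcases m with _ | m
    · have := net_reindex (Equiv.sumEmpty Q (Sl 0)) hf
      rw [add_zero]
      convert this using 1
      funext x
      simp [he]
      congr 1
      funext r
      rcases r with q | s
      · rfl
      · exact s.1.elim0
    -- the first letter is contracted with the matrix
    have h₁ := IH m (by omega) Q (d + 1) _ (contract_net hM 1 (port Q 0) hf)
    -- or identified with another letter
    let S : (Q → Fin n) → ℝ := fun x => ∑ z : Sl m → Fin n, ∑ v, ∑ w,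
      f (Sum.elim x (glue 0 z v w)) *
        ((sel (List.ofFn (edges z))).map fun p => symDelta (v, w) p.1 * he p.2 G).sum
    have h₂ : S ∈ Net (symMat G) Q (d + (m + 1)) := by
      rcases m with _ | m
      · convert Submodule.zero_mem (Net (symMat G) Q (d + 1)) using 1
        funext x
        simp [S, sel]
      have hmem : ∀ (i : Fin (m + 1)) (φ : ((Q ⊕ Sl m) ⊕ Bool) ⊕ Bool ≃ Q ⊕ Sl (m + 2)),
          (fun x => ∑ z : Sl m → Fin n, (∑ a, ∑ b, f fun r =>
              Sum.elim (Sum.elim (Sum.elim x z) (pick a b)) (pick a b) (φ.symm r)) *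
            he (List.ofFn (edges z)) G) ∈ Net (symMat G) Q (d + (m + 2)) := fun i φ =>
        net_mono (by omega) (IH m (by omega) Q d _ (double_net hM φ hf))
      let φ : Fin (m + 1) → ((Q ⊕ Sl m) ⊕ Bool) ⊕ Bool ≃ Q ⊕ Sl (m + 2) := fun i =>
        (Equiv.sumCongr (port Q i) (Equiv.refl Bool)).trans (port Q 0)
      have := Submodule.sum_mem (t := (univ : Finset (Fin (m + 1)))) _ fun i (_ : i ∈ univ) =>
        Submodule.smul_mem _ (1 / 2 : ℝ)
          (Submodule.add_mem _ (hmem i (φ i)) (hmem i (flipB (φ i))))
      convert this using 1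
      funext x
      simp only [S, sel_ofFn, List.map_ofFn, List.sum_ofFn, Function.comp_def, mul_sum,
        Finset.sum_apply, Pi.smul_apply, Pi.add_apply, smul_eq_mul]
      calc ∑ z : Sl (m + 1) → Fin n, ∑ v, ∑ w, ∑ i, f (Sum.elim x (glue 0 z v w)) *
            (symDelta (v, w) (edges z i) *
              he (List.ofFn fun j => edges z (i.succAbove j)) G)
          = ∑ i, ∑ z : Sl (m + 1) → Fin n, ∑ v, ∑ w, f (Sum.elim x (glue 0 z v w)) *
            (symDelta (v, w) (edges z i) *
              he (List.ofFn fun j => edges z (i.succAbove j)) G) := by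
            conv_rhs => rw [sum_comm]
            refine sum_congr rfl fun z _ => ?_
            conv_rhs => rw [sum_comm]
            exact sum_congr rfl fun v _ => sum_comm
        _ = _ := by
            refine sum_congr rfl fun i _ => ?_
            rw [sum_glue i]
            simp only [edges_glue_self, edges_glue_above, ← mul_assoc, ← sum_mul, sum_symDelta]
            rw [mul_add, mul_sum, mul_sum, ← sum_add_distrib]
            refine sum_congr rfl fun z _ => ?_
            rw [← mul_assoc, ← mul_assoc, ← add_mul, ← mul_add, ← sum_add_distrib]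
            congr 1
            rw [mul_sum]
            refine sum_congr rfl fun a _ => ?_
            rw [← sum_add_distrib, mul_sum]
            refine sum_congr rfl fun b _ => ?_
            have hY : ∀ v w, Sum.elim x (glue 0 (glue i z a b) v w) = fun r =>
                Sum.elim (Sum.elim (Sum.elim x z) (pick a b)) (pick v w) ((φ i).symm r) := by
              intro v w
              rw [elim_glue, elim_glue]
              funext r
              obtain ⟨(u | t), rfl⟩ := (φ i).surjective r <;> simp [φ]
            have hflip : (fun r => Sum.elim (Sum.elim (Sum.elim x z) (pick a b)) (pick a b)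
                ((flipB (φ i)).symm r)) = fun r =>
                  Sum.elim (Sum.elim (Sum.elim x z) (pick a b)) (pick b a) ((φ i).symm r) := by
              funext r
              obtain ⟨(u | t), rfl⟩ := (flipB (φ i)).surjective r <;>
                rw [Equiv.symm_apply_apply]
              · simp [flipB]
              · cases t <;> simp [flipB]
            rw [hY, hY, hflip]
            ring
    have h₁' : (fun x => ∑ z : Sl m → Fin n,
        (∑ v, ∑ w, (symMat G ^ 1) v w *
          f fun r => Sum.elim (Sum.elim x z) (pick v w) ((port Q 0).symm r)) *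
          he (List.ofFn (edges z)) G) ∈ Net (symMat G) Q (d + (m + 1)) :=
      net_mono (by omega) h₁
    convert Submodule.sub_mem _ h₁' h₂ using 1
    funext x
    simp only [S, Pi.sub_apply, sum_glue 0, sum_mul, ← sum_sub_distrib]
    refine sum_congr rfl fun z _ => sum_congr rfl fun v _ => sum_congr rfl fun w _ => ?_
    have hz : List.ofFn (edges (glue 0 z v w)) = (v, w) :: List.ofFn (edges z) := by
      rw [List.ofFn_succ, edges_glue_self]
      congr 1
      exact congrArg List.ofFn (funext fun j => by
        rw [← Fin.succAbove_zero_apply, edges_glue_above])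
    rw [hz, he_cons, ← elim_glue]
    simp [symMat]
    ring

end SpanAux

open SpanAux in
theorem span_statement : SpanStatement := fun _ G Q _ _ m d f hf => transform_mem G m Q d f hf

open SpanAux in
/-- The indicator of the tuples fixed by a pairing is a network. -/
theorem gen_involution {n : ℕ} (M : Matrix (Fin n) (Fin n) ℝ) {Q : Type} [Fintype Q]
    (π : Q → Q) (hπ : Function.Involutive π) (hfix : ∀ q, π q ≠ q) :
    (fun x : Q → Fin n => if ∀ q, x (π q) = x q then (1 : ℝ) else 0) ∈ Net M Q 0 := by
  refine gen_mem (d' := 0) ?_ le_rfl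
  suffices H : ∀ (N : ℕ) (Q : Type) [Fintype Q] (π : Q → Q), Function.Involutive π →
      (∀ q, π q ≠ q) → Fintype.card Q = N →
        Gen M Q 0 fun x : Q → Fin n => if ∀ q, x (π q) = x q then (1 : ℝ) else 0 from
    H _ Q π hπ hfix rfl
  intro N
  induction N using Nat.strong_induction_on with
  | _ N IH =>
    intro Q _ π hπ hfix hN
    classical
    by_cases hQ : IsEmpty Q
    · exact gen_of_eq (Gen.nil (Equiv.equivEmpty Q)) rfl fun x => by simp
    obtain ⟨a⟩ := not_isEmpty_iff.1 hQ
    let Q' := {q : Q // q ≠ a ∧ q ≠ π a}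
    let π' : Q' → Q' := fun q => ⟨π q.1,
      fun h => q.2.2 ((hπ q.1).symm.trans (congrArg π h)), fun h => q.2.1 (hπ.injective h)⟩
    let e : Q' ⊕ Bool ≃ Q := split2 a (π a) (hfix a).symm
    have hlt : Fintype.card Q' < N := by
      have h := Fintype.card_congr e
      simp [Fintype.card_sum, hN] at h
      omega
    have hrec := IH _ hlt Q' π' (fun q => Subtype.ext (hπ q.1))
      (fun q h => hfix q.1 (congrArg Subtype.val h)) rfl
    refine gen_of_eq (Gen.cons e 0 hrec) rfl fun x => ?_
    simp only [pow_zero, Matrix.one_apply]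
    show (if x a = x (π a) then (1 : ℝ) else 0) *
        (if ∀ q : Q', x (π q.1) = x q.1 then (1 : ℝ) else 0) = _
    by_cases h : ∀ q, x (π q) = x q
    · rw [if_pos h, if_pos (h a).symm, if_pos (fun q : Q' => h q.1), one_mul]
    · rw [if_neg h]
      by_cases h₁ : x a = x (π a)
      · rw [if_pos h₁, one_mul, if_neg]
        intro h₂
        refine h fun q => ?_
        by_cases hqa : q = a
        · rw [hqa, h₁]
        by_cases hqb : q = π a
        · rw [hqb, hπ, h₁]
        exact h₂ ⟨q, hqa, hqb⟩
      · rw [if_neg h₁, zero_mul]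

end Vale.Agent.P146.Power
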