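import Vale.Agent.P146.Power.PatFacts
import Vale.Agent.P146.Power.Pairing

/-!
Splitting a word at the stubs of a core.
-/

namespace Vale.Agent.P146.Power

open Finset

variable {n k : ℕ}

/-- The letters at the fixed slots, or the first one. -/
def stubs (y : Sl k → Option (Fin n)) : Finset (Fin k) :=
  if (coreSet y).Nonempty then (coreSet y).image Prod.fst else univ.filter fun i => i.val = 0

lemma fst_mem_stubs {y : Sl k → Option (Fin n)} {l : Sl k} (h : y l ≠ none) : l.1 ∈ stubs y := by
  have hl : l ∈ coreSet y := by simpa [coreSet, Option.isSome_iff_ne_none] using h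
  rw [stubs, if_pos ⟨l, hl⟩]
  exact mem_image_of_mem _ hl

lemma stubs_card_le (y : Sl k → Option (Fin n)) : (stubs y).card ≤ (coreSet y).card + 1 := by
  unfold stubs
  split
  · exact card_image_le.trans (Nat.le_succ _)
  · refine (card_le_one.2 fun a ha b hb => ?_).trans (Nat.le_add_left _ _)
    simp only [mem_filter, mem_univ, true_and] at ha hb
    exact Fin.ext (ha.trans hb.symm)

/-- Stubs first, the rest after. -/
noncomputable def posEquiv (y : Sl k → Option (Fin n)) :
    Fin (stubs y).card ⊕ Fin (stubs y)ᶜ.card ≃ Fin k :=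
  (Equiv.sumCongr ((stubs y).equivFin).symm
    (((stubs y)ᶜ.equivFin).symm.trans (Equiv.subtypeEquivRight fun i => by simp))).trans
    (Equiv.sumCompl fun i => i ∈ stubs y)

lemma posEquiv_inr_notMem (y : Sl k → Option (Fin n)) (j : Fin (stubs y)ᶜ.card) :
    posEquiv y (.inr j) ∉ stubs y := by
  exact mem_compl.1 (((stubs y)ᶜ.equivFin).symm j).2

/-- The slots of the stubs and of the rest. -/
noncomputable def slotEquiv (y : Sl k → Option (Fin n)) :
    Sl (stubs y).card ⊕ Sl (stubs y)ᶜ.card ≃ Sl k :=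
  (Equiv.sumProdDistrib _ _ Bool).symm.trans (Equiv.prodCongr (posEquiv y) (Equiv.refl _))

lemma slotEquiv_inl (y : Sl k → Option (Fin n)) (a : Sl (stubs y).card) :
    slotEquiv y (.inl a) = (posEquiv y (.inl a.1), a.2) := rfl

lemma slotEquiv_inr (y : Sl k → Option (Fin n)) (b : Sl (stubs y)ᶜ.card) :
    slotEquiv y (.inr b) = (posEquiv y (.inr b.1), b.2) := rfl

lemma core_inr (y : Sl k → Option (Fin n)) (b : Sl (stubs y)ᶜ.card) :
    y (slotEquiv y (.inr b)) = none := by
  by_contra h
  exact posEquiv_inr_notMem y b.1 (fst_mem_stubs h)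

/-- The free slots of the stubs. -/
abbrev Port (y : Sl k → Option (Fin n)) : Type :=
  {a : Sl (stubs y).card // y (slotEquiv y (.inl a)) = none}

/-- The endpoints of the stubs. -/
noncomputable def full (y : Sl k → Option (Fin n)) (x : Port y → Fin n) (a : Sl (stubs y).card) : Fin n :=
  if h : y (slotEquiv y (.inl a)) = none then x ⟨a, h⟩
  else (y (slotEquiv y (.inl a))).get (Option.isSome_iff_ne_none.2 h)

/-- The word with given free endpoints. -/
noncomputable def zOf (y : Sl k → Option (Fin n)) (x : Port y → Fin n) (w : Sl (stubs y)ᶜ.card → Fin n)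
    (l : Sl k) : Fin n :=
  Sum.elim (full y x) w ((slotEquiv y).symm l)

lemma zOf_inl (y : Sl k → Option (Fin n)) (x : Port y → Fin n) (w : Sl (stubs y)ᶜ.card → Fin n)
    (a : Sl (stubs y).card) : zOf y x w (slotEquiv y (.inl a)) = full y x a := by simp [zOf]

lemma zOf_inr (y : Sl k → Option (Fin n)) (x : Port y → Fin n) (w : Sl (stubs y)ᶜ.card → Fin n)
    (b : Sl (stubs y)ᶜ.card) : zOf y x w (slotEquiv y (.inr b)) = w b := by simp [zOf]

lemma zOf_port (y : Sl k → Option (Fin n)) (x : Port y → Fin n) (w : Sl (stubs y)ᶜ.card → Fin n)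
    (q : Port y) : zOf y x w (slotEquiv y (.inl q.1)) = x q := by
  rw [zOf_inl, full, dif_pos q.2]

lemma zOf_core {y : Sl k → Option (Fin n)} {x : Port y → Fin n}
    {w : Sl (stubs y)ᶜ.card → Fin n} {l : Sl k} {v : Fin n} (h : y l = some v) :
    zOf y x w l = v := by
  obtain ⟨s, rfl⟩ := (slotEquiv y).surjective l
  rcases s with a | b
  · have hne : y (slotEquiv y (.inl a)) ≠ none := by simp [h]
    rw [zOf_inl, full, dif_neg hne]
    simp [h]
  · simp [core_inr] at h

lemma zOf_injective (y : Sl k → Option (Fin n)) :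
    Function.Injective fun p : (Port y → Fin n) × (Sl (stubs y)ᶜ.card → Fin n) =>
      zOf y p.1 p.2 := by
  rintro ⟨x, w⟩ ⟨x', w'⟩ h
  refine Prod.ext (funext fun q => ?_) (funext fun b => ?_)
  · simpa [zOf_port] using congrFun h (slotEquiv y (.inl q.1))
  · simpa [zOf_inr] using congrFun h (slotEquiv y (.inr b))

lemma exists_zOf {y : Sl k → Option (Fin n)} {z : Sl k → Fin n}
    (h : ∀ l v, y l = some v → z l = v) : ∃ x w, zOf y x w = z := by
  refine ⟨fun q => z (slotEquiv y (.inl q.1)), fun b => z (slotEquiv y (.inr b)), funext fun l => ?_⟩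
  obtain ⟨s, rfl⟩ := (slotEquiv y).surjective l
  rcases s with a | b
  · rcases hy : y (slotEquiv y (.inl a)) with _ | v
    · exact zOf_port y _ _ ⟨a, hy⟩
    · rw [zOf_core hy, h _ _ hy]
  · rw [zOf_inr]

lemma edges_zOf_perm (y : Sl k → Option (Fin n)) (x : Port y → Fin n)
    (w : Sl (stubs y)ᶜ.card → Fin n) :
    (List.ofFn (edges (zOf y x w))).Perm (List.ofFn (edges (full y x)) ++ List.ofFn (edges w)) := by
  have hi : ∀ i, edges (zOf y x w) (posEquiv y (.inl i)) = edges (full y x) i := fun i => by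
    simp only [edges, ← slotEquiv_inl y (i, false), ← slotEquiv_inl y (i, true), zOf_inl]
  have hj : ∀ j, edges (zOf y x w) (posEquiv y (.inr j)) = edges w j := fun j => by
    simp only [edges, ← slotEquiv_inr y (j, false), ← slotEquiv_inr y (j, true), zOf_inr]
  have hm : ∀ {j : ℕ} (f : Fin j → Edge n),
      ((List.ofFn f : List (Edge n)) : Multiset (Edge n)) = ∑ i, ({f i} : Multiset (Edge n)) := by
    intro j f
    rw [← Fin.univ_val_map f, sum_eq_multiset_sum, ← Multiset.sum_map_singleton (univ.val.map f), Multiset.map_map]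
    rfl
  rw [← Multiset.coe_eq_coe, ← Multiset.coe_add, hm, hm, hm,
    ← Equiv.sum_comp (posEquiv y), Fintype.sum_sum_type]
  simp only [hi, hj]

/-- The number of free slots of the stubs. -/
lemma card_port (y : Sl k → Option (Fin n)) :
    Fintype.card (Port y) + (coreSet y).card = 2 * (stubs y).card := by
  classical
  have h1 : (coreSet y).card =
      (univ.filter fun a : Sl (stubs y).card => ¬ y (slotEquiv y (.inl a)) = none).card := by
    symm
    refine card_bij (fun a _ => slotEquiv y (.inl a)) (fun a ha => ?_) (fun a _ b _ h => ?_)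
      fun l hl => ?_
    · simpa [coreSet, Option.isSome_iff_ne_none] using (mem_filter.1 ha).2
    · simpa using h
    · have hl' : y l ≠ none := by simpa [coreSet, Option.isSome_iff_ne_none] using hl
      obtain ⟨s, rfl⟩ := (slotEquiv y).surjective l
      rcases s with a | b
      · exact ⟨a, by simp [hl'], rfl⟩
      · simp [core_inr] at hl'
  rw [h1, Fintype.card_subtype, card_filter_add_card_filter_not]
  simp [mul_comm]

/-- The slots left free by a core. -/
noncomputable def freeEquiv (y : Sl k → Option (Fin n)) :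
    Port y ⊕ Sl (stubs y)ᶜ.card ≃ {l : Sl k // y l = none} :=
  Equiv.ofBijective
    (Sum.elim (fun q => ⟨slotEquiv y (.inl q.1), q.2⟩)
      fun b => ⟨slotEquiv y (.inr b), core_inr y b⟩) <| by
    constructor
    · rintro (q | b) (q' | b') h <;>
        simp only [Sum.elim_inl, Sum.elim_inr, Subtype.mk.injEq, EmbeddingLike.apply_eq_iff_eq,
          reduceCtorEq, Sum.inl.injEq, Sum.inr.injEq] at h
      · rw [Subtype.ext h]
      · rw [h]
    · rintro ⟨l, hl⟩
      obtain ⟨s, rfl⟩ := (slotEquiv y).surjective l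
      rcases s with a | b
      · exact ⟨.inl ⟨a, hl⟩, rfl⟩
      · exact ⟨.inr b, rfl⟩

lemma zOf_free (y : Sl k → Option (Fin n)) (x : Port y → Fin n)
    (w : Sl (stubs y)ᶜ.card → Fin n) (q : Port y ⊕ Sl (stubs y)ᶜ.card) :
    zOf y x w (freeEquiv y q).1 = Sum.elim x w q := by
  rcases q with q | b
  · exact zOf_port y x w q
  · exact zOf_inr y x w b

/-- Agreement with a pattern of this core is invariance under its pairing. -/
lemma compat_pairing {r : ℕ} {p : Pat n k} (hp : p ∈ pats n k r) {y : Sl k → Option (Fin n)}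
    (hy : core p = y) :
    ∃ π : (Port y ⊕ Sl (stubs y)ᶜ.card) → Port y ⊕ Sl (stubs y)ᶜ.card,
      (∀ q, π (π q) = q) ∧ (∀ q, π q ≠ q) ∧
        ∀ x w, Compat (zOf y x w) p ↔ ∀ q, Sum.elim x w (π q) = Sum.elim x w q := by
  classical
  obtain ⟨z0, -, rfl⟩ := mem_pats.1 hp
  have hnone : ∀ l : Sl k, y l = none ↔ ∃ l', pat z0 l = .inr l' := fun l => by
    rw [← hy, core_eq_none]
  choose g hg using fun l : {l : Sl k // y l = none} => (hnone l.1).1 l.2
  have hg2 : ∀ l, y (g l) = none := fun l => (hnone _).2 ⟨_, (pat_link (hg l)).2.1⟩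
  set gg : {l : Sl k // y l = none} → {l : Sl k // y l = none} := fun l => ⟨g l, hg2 l⟩
  have hinv : ∀ l, gg (gg l) = l := fun l =>
    Subtype.ext (Sum.inr_injective ((hg (gg l)).symm.trans (pat_link (hg l)).2.1))
  refine ⟨fun q => (freeEquiv y).symm (gg (freeEquiv y q)), fun q => by simp [hinv],
    fun q h => ?_, fun x w => ?_⟩
  · have h' : gg (freeEquiv y q) = freeEquiv y q := by
      simpa using congrArg (freeEquiv y) h
    exact (pat_link (hg (freeEquiv y q))).1 (congrArg Subtype.val h')
  · rw [compat_iff]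
    constructor
    · intro h q
      rw [← zOf_free y x w q, ← zOf_free y x w, Equiv.apply_symm_apply]
      exact (h.2 _ _ (hg _)).symm
    · refine fun h => ⟨fun l v hl => zOf_core (by rw [← hy, core_eq_some]; exact hl),
        fun l l' hl => ?_⟩
      have hl0 : y l = none := (hnone l).2 ⟨l', hl⟩
      have := h ((freeEquiv y).symm ⟨l, hl0⟩)
      rw [← zOf_free y x w, ← zOf_free y x w, Equiv.apply_symm_apply,
        Equiv.apply_symm_apply] at this
      have e : g ⟨l, hl0⟩ = l' := Sum.inr_injective ((hg ⟨l, hl0⟩).symm.trans hl)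
      rw [← this]
      show zOf y x w (g ⟨l, hl0⟩) = _
      rw [e]

end Vale.Agent.P146.Power
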