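import Vale.Agent.P146.Power.Defs

/-!
P146, polynomial superconcentration: invariance of the Hermite coefficients under relabelling the
vertices and under gauge flips.  Both maps preserve the Gaussian law and the extended free energy,
and the Hermite polynomials of the symmetrised entries are equivariant.
-/

namespace Vale.Agent.P146.Power

open MeasureTheory ProbabilityTheory Finset
open Vale.Agent.P157 (gauss)

variable {n : ℕ}

/-- The entry at relabelled endpoints. -/
def edgePerm (π : Equiv.Perm (Fin n)) : Equiv.Perm (Edge n) := π.prodCongr π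

/-- The gauge sign of an entry. -/
def gaugeSign (ε : Fin n → Bool) (e : Edge n) : ℝ := spin (ε e.1) * spin (ε e.2)

/-- The array relabelled by `π` and gauged by `ε`. -/
def relabel (π : Equiv.Perm (Fin n)) (ε : Fin n → Bool) (G : Arr n) : Arr n :=
  fun e => gaugeSign ε e * G (edgePerm π e)

lemma edgePerm_apply (π : Equiv.Perm (Fin n)) (e : Edge n) :
    edgePerm π e = (π e.1, π e.2) := rfl

lemma edgePerm_swap (π : Equiv.Perm (Fin n)) (e : Edge n) :
    edgePerm π e.swap = (edgePerm π e).swap := rfl

lemma gaugeSign_swap (ε : Fin n → Bool) (e : Edge n) : gaugeSign ε e.swap = gaugeSign ε e := by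
  simp [gaugeSign, mul_comm]

lemma spin_mul_self (b : Bool) : spin b * spin b = 1 := by
  cases b <;> simp [spin]

lemma gaugeSign_mul_self (ε : Fin n → Bool) (e : Edge n) :
    gaugeSign ε e * gaugeSign ε e = 1 := by
  have h1 := spin_mul_self (ε e.1)
  have h2 := spin_mul_self (ε e.2)
  unfold gaugeSign
  calc _ = (spin (ε e.1) * spin (ε e.1)) * (spin (ε e.2) * spin (ε e.2)) := by ring
    _ = 1 := by rw [h1, h2, one_mul]

lemma symE_relabel (π : Equiv.Perm (Fin n)) (ε : Fin n → Bool) (G : Arr n) (e : Edge n) :
    symE (relabel π ε G) e = gaugeSign ε e * symE G (edgePerm π e) := by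
  simp only [symE, relabel, gaugeSign_swap, edgePerm_swap]
  ring

lemma sel_map {α γ : Type*} (f : α → γ) : ∀ l : List α,
    sel (l.map f) = (sel l).map fun p => (f p.1, p.2.map f)
  | [] => rfl
  | x :: l => by simp [sel, sel_map f l, List.map_map, Function.comp_def]

lemma prod_map_sel {α : Type*} (g : α → ℝ) : ∀ {l : List α} {p : α × List α}, p ∈ sel l →
    (l.map g).prod = g p.1 * (p.2.map g).prod
  | [], p, h => by simp [sel] at h
  | x :: l, p, h => by
    simp only [sel, List.mem_cons, List.mem_map] at h
    rcases h with rfl | ⟨q, hq, rfl⟩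
    · simp
    · simp [prod_map_sel g hq]
      ring

lemma he_cons_sel (e : Edge n) (l : List (Edge n)) (G : Arr n) :
    he (e :: l) G =
      symE G e * he l G - ((sel l).map fun p => symDelta e p.1 * he p.2 G).sum := by
  have hmap := List.attach_map_val (l := sel l)
    (f := fun p : Edge n × List (Edge n) => symDelta e p.1 * he p.2 G)
  rw [he]
  rw [← hmap]

lemma symDelta_edgePerm (π : Equiv.Perm (Fin n)) (e f : Edge n) :
    symDelta (edgePerm π e) (edgePerm π f) = symDelta e f := by
  simp only [symDelta, ← edgePerm_swap, (edgePerm π).injective.eq_iff]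

lemma symDelta_mul_gaugeSign (ε : Fin n → Bool) (e f : Edge n) :
    symDelta e f * (gaugeSign ε e * gaugeSign ε f) = symDelta e f := by
  by_cases h : e = f
  · subst h; rw [gaugeSign_mul_self, mul_one]
  by_cases h' : e = f.swap
  · subst h'; rw [gaugeSign_swap, gaugeSign_mul_self, mul_one]
  simp [symDelta, h, h']

/-- The Hermite polynomials are equivariant. -/
lemma he_relabel (π : Equiv.Perm (Fin n)) (ε : Fin n → Bool) (G : Arr n) (l : List (Edge n)) :
    he l (relabel π ε G) = (l.map (gaugeSign ε)).prod * he (l.map (edgePerm π)) G := by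
  induction hk : l.length using Nat.strong_induction_on generalizing l with
  | _ k ih =>
  match l with
  | [] => simp [he]
  | e :: l =>
    simp only [List.length_cons] at hk
    rw [he_cons_sel, List.map_cons, List.map_cons, he_cons_sel, sel_map, List.map_map, symE_relabel,
      ih _ (by omega) l rfl, List.prod_cons, mul_sub, ← List.sum_map_mul_left]
    congr 1
    · ring
    · refine congrArg List.sum (List.map_congr_left fun p hp => ?_)
      have hl := length_of_mem_sel hp
      simp only [Function.comp_apply]
      rw [ih _ (by omega) p.2 rfl, symDelta_edgePerm, prod_map_sel (gaugeSign ε) hp]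
      conv_lhs => rw [← symDelta_mul_gaugeSign ε e p.1]
      ring

/-- The spins seen after relabelling. -/
def spinPerm (π : Equiv.Perm (Fin n)) (ε : Fin n → Bool) :
    (Fin n → Bool) ≃ (Fin n → Bool) where
  toFun σ := fun j => σ (π.symm j) == ε (π.symm j)
  invFun τ := fun i => τ (π i) == ε i
  left_inv σ := by
    funext i
    simp only [Equiv.symm_apply_apply]
    cases σ i <;> cases ε i <;> rfl
  right_inv τ := by
    funext j
    simp only [Equiv.apply_symm_apply]
    cases τ j <;> cases ε (π.symm j) <;> rfl

lemma extFree_relabel (π : Equiv.Perm (Fin n)) (ε : Fin n → Bool) (β : ℝ) (G : Arr n) :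
    extFree n β (relabel π ε G) = extFree n β G := by
  unfold extFree
  congr 1
  refine Fintype.sum_equiv (spinPerm π ε) _ _ fun σ => ?_
  congr 2
  refine Fintype.sum_equiv (edgePerm π) _ _ fun e => ?_
  have hs : ∀ a b : Bool, spin (a == b) = spin a * spin b := by
    intro a b; cases a <;> cases b <;> simp [spin]
  simp only [relabel, pairSpin, gaugeSign, spinPerm, Equiv.coe_fn_mk, edgePerm_apply,
    Equiv.symm_apply_apply, hs]
  ring

lemma continuous_he : ∀ l : List (Edge n), Continuous (he l) := by
  intro l
  induction hk : l.length using Nat.strong_induction_on generalizing l with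
  | _ k ih =>
  match l with
  | [] =>
    have : he ([] : List (Edge n)) = fun _ => (1 : ℝ) := by funext G; simp [he]
    rw [this]; exact continuous_const
  | e :: l =>
    simp only [List.length_cons] at hk
    have : he (e :: l) = fun G =>
        symE G e * he l G - ((sel l).map fun p => symDelta e p.1 * he p.2 G).sum :=
      funext fun G => he_cons_sel e l G
    rw [this]
    have h1 := ih _ (by omega) l rfl
    refine Continuous.sub (by unfold symE; fun_prop) (continuous_list_sum _ fun p hp => ?_)
    have hl := length_of_mem_sel hp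
    exact continuous_const.mul (ih _ (by omega) p.2 rfl)

lemma continuous_extFree (β : ℝ) : Continuous (extFree n β) := by
  unfold extFree
  refine Continuous.log (by fun_prop) fun G => ?_
  exact (Finset.sum_pos (fun σ _ => Real.exp_pos _) Finset.univ_nonempty).ne'

/-- Relabelling and gauging preserve the Gaussian law. -/
lemma measurePreserving_relabel (π : Equiv.Perm (Fin n)) (ε : Fin n → Bool) :
    MeasurePreserving (relabel π ε) (gauss (Edge n)) (gauss (Edge n)) := by
  have hfun : ⇑(MeasurableEquiv.piCongrLeft (fun _ : Edge n => ℝ) (edgePerm π).symm) =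
      fun (G : Arr n) e => G (edgePerm π e) := by
    funext G e
    simp [MeasurableEquiv.coe_piCongrLeft, Equiv.piCongrLeft_apply_eq_cast]
  have h1 : MeasurePreserving (fun (G : Arr n) e => G (edgePerm π e))
      (gauss (Edge n)) (gauss (Edge n)) :=
    hfun ▸ measurePreserving_piCongrLeft (fun _ : Edge n => gaussianReal 0 1) (edgePerm π).symm
  have h2 : MeasurePreserving (fun (G : Arr n) e => gaugeSign ε e * G e)
      (gauss (Edge n)) (gauss (Edge n)) := by
    refine measurePreserving_pi _ _ fun e => ⟨by fun_prop, ?_⟩
    have h := gaussianReal_map_const_mul (μ := 0) (v := 1) (gaugeSign ε e)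
    rw [mul_zero] at h
    rw [h]
    congr 1
    ext
    simp [pow_two, gaugeSign_mul_self]
  exact h2.comp h1

lemma tW_relabel (π : Equiv.Perm (Fin n)) (ε : Fin n → Bool) (β : ℝ) {k : ℕ}
    (w : Fin k → Edge n) :
    tW n β w = (∏ i, gaugeSign ε (w i)) * tW n β (fun i => edgePerm π (w i)) := by
  unfold tW
  have hmp := measurePreserving_relabel π ε
  have hcont : Continuous fun G => extFree n β G * he (List.ofFn w) G :=
    (continuous_extFree β).mul (continuous_he _)
  calc ∫ G, extFree n β G * he (List.ofFn w) G ∂gauss (Edge n)
      = ∫ G, extFree n β (relabel π ε G) * he (List.ofFn w) (relabel π ε G) ∂gauss (Edge n) := by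
        conv_lhs => rw [← hmp.map_eq]
        exact integral_map hmp.measurable.aemeasurable hcont.aestronglyMeasurable
    _ = _ := by
        rw [← integral_const_mul]
        refine integral_congr_ae (ae_of_all _ fun G => ?_)
        simp only [extFree_relabel, he_relabel, List.map_ofFn, Function.comp_def, List.prod_ofFn]
        ring

lemma prod_gaugeSign_edges {k : ℕ} (ε : Fin n → Bool) (z : Sl k → Fin n) :
    ∏ i, gaugeSign ε (edges z i) = ∏ l : Sl k, spin (ε (z l)) := by
  rw [Fintype.prod_prod_type]
  refine prod_congr rfl fun i _ => ?_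
  simp [gaugeSign, edges, mul_comm]

/-- Invariance of the coefficients. -/
theorem sym_statement : SymStatement := by
  intro n β k z _
  refine ⟨fun π => ?_, fun hodd => ?_⟩
  · have h := tW_relabel π (fun _ => true) β (edges z)
    have h1 : ∏ i, gaugeSign (fun _ => true) (edges z i) = 1 := by simp [gaugeSign, spin]
    rw [h1, one_mul] at h
    exact h.symm
  · simp only [EvenWord, not_forall] at hodd
    obtain ⟨l, hl⟩ := hodd
    have h := tW_relabel (1 : Equiv.Perm (Fin n)) (fun j => decide (j ≠ z l)) β (edges z)
    have h1 : ∏ i, gaugeSign (fun j => decide (j ≠ z l)) (edges z i) = -1 := by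
      rw [prod_gaugeSign_edges]
      have hsp : ∀ l', spin (decide (z l' ≠ z l)) = if z l' = z l then (-1 : ℝ) else 1 := by
        intro l'; by_cases h : z l' = z l <;> simp [spin, h]
      simp only [hsp]
      rw [prod_ite, prod_const, prod_const, one_pow, mul_one]
      exact (Nat.not_even_iff_odd.1 hl).neg_one_pow
    have h2 : (fun i => edgePerm (1 : Equiv.Perm (Fin n)) (edges z i)) = edges z := by
      funext i; simp [edgePerm_apply]
    rw [h1, h2, ← tHat] at h
    linarith

end Vale.Agent.P146.Power
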