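import Vale.Agent.P146.Power.Count

/-!
The weight of one degree.
-/

namespace Vale.Agent.P146.Power

open MeasureTheory Finset Real
open Vale.Agent.P157 (gauss)

variable {n K k : ℕ}

/-- The base of the polynomial bound. -/
noncomputable def degBase (β : ℝ) (K : ℕ) : ℝ := (20 * (2 * β ^ 2 + 5) * ((K : ℝ) + 1)) ^ 70

lemma sum_sq_tHat_le (hSym : SymStatement) (β : ℝ) (hk : 1 ≤ k) :
    ∑ z : Sl k → Fin n, tHat n β z ^ 2 ≤ ∑ r ∈ range k, gradeSq n β k r := by
  classical
  simp only [gradeSq, words, sum_filter]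
  rw [sum_comm]
  refine sum_le_sum fun z _ => ?_
  by_cases hz : EvenWord z
  · have hlt : excess z < k := by
      have : 0 < (univ.image z).card :=
        card_pos.2 ⟨z (⟨0, hk⟩, false), mem_image_of_mem z (mem_univ _)⟩
      unfold excess; omega
    refine le_of_eq ?_
    rw [sum_eq_single_of_mem (excess z) (mem_range.2 hlt) fun r _ hr => if_neg fun h => hr h.2.symm,
      if_pos ⟨hz, rfl⟩]
  · rw [(hSym n β k z hk).2 hz]
    exact (by norm_num : (0 : ℝ) ^ 2 ≤ 0).trans
      (sum_nonneg fun r _ => by split_ifs <;> norm_num)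

/-- The weight of degree `k`. -/
theorem weight_le (hC : CalcStatement) (hSym : SymStatement) (hSp : SpanStatement)
    (hE : EigenStatement) (hP : PatternStatement) (β : ℝ) (hk : 1 ≤ k) (hkK : k ≤ K)
    (hn : (20 * ((K : ℝ) + 1)) ^ 5 ≤ n) (hn' : (100 * ((k : ℝ) + 1)) ^ 20 ≤ n)
    (hn'' : 4 * degBase β K ≤ n) {s : Set (Arr n)} (hs : GoodSet n K s) :
    1 / (k.factorial : ℝ) * ∑ w : Fin k → Edge n,
        (∫ G, dFree n β (List.ofFn w) G ∂gauss (Edge n)) ^ 2 ≤ 144 * degBase β K := by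
  classical
  have hn0R : (0 : ℝ) < n := lt_of_lt_of_le (by positivity) hn
  have hn0 : 0 < n := by exact_mod_cast hn0R
  set Q := degBase β K
  have hQ0 : 0 ≤ Q := by unfold Q degBase; positivity
  set q := ratio n k
  have hq0 : 0 ≤ q := div_nonneg (by positivity) (Nat.cast_nonneg _)
  have hq : q ≤ 1 / 64 := by
    rw [show q = (8 * ((k : ℝ) + 1)) ^ 12 / n from rfl, div_le_iff₀ hn0R]
    have h1 : (1 : ℝ) ≤ 8 * ((k : ℝ) + 1) := by linarith [(k.cast_nonneg : (0 : ℝ) ≤ k)]
    have h2 : (8 * ((k : ℝ) + 1)) ^ 13 ≤ (100 * ((k : ℝ) + 1)) ^ 13 := by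
      gcongr; norm_num
    have h3 : (100 * ((k : ℝ) + 1)) ^ 13 * (100 * ((k : ℝ) + 1)) ^ 7 ≤ n := by
      rw [← pow_add]; exact hn'
    have h4 : (64 : ℝ) ≤ (100 * ((k : ℝ) + 1)) ^ 7 := by
      refine le_trans ?_ (pow_le_pow_left₀ (by norm_num : (0:ℝ) ≤ 100)
        (by linarith [(k.cast_nonneg : (0 : ℝ) ≤ k)]) 7)
      norm_num
    have h5 : (8 * ((k : ℝ) + 1)) ^ 12 ≤ (8 * ((k : ℝ) + 1)) ^ 13 :=
      pow_le_pow_right₀ h1 (by norm_num)
    nlinarith [mul_le_mul (h5.trans h2) h4 (by norm_num) (by positivity)]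
  set U := ∑ r ∈ range k, sqrt (gradeSq n β k r) with hU
  have hempty : ∀ r, k ≤ r → gradeSq n β k r = 0 := by
    intro r hr
    have : words n k r = ∅ := eq_empty_of_forall_notMem fun z hz => by
      have := excess_lt (p := pat z) hk (mem_pats.2 ⟨z, hz, rfl⟩)
      omega
    simp [gradeSq, this]
  have hshift : ∀ δ, ∑ r ∈ range k, sqrt (gradeSq n β k (r + δ)) ≤ U := by
    intro δ
    calc ∑ r ∈ range k, sqrt (gradeSq n β k (r + δ))
        = ∑ r ∈ range k, if r + δ < k then sqrt (gradeSq n β k (r + δ)) else 0 :=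
          sum_congr rfl fun r _ => by
            split_ifs with h
            · rfl
            · rw [hempty _ (not_lt.1 h), sqrt_zero]
      _ = ∑ x ∈ ((range k).filter fun r => r + δ < k).image (· + δ), sqrt (gradeSq n β k x) := by
          rw [sum_image fun a _ b _ h => Nat.add_right_cancel h, sum_filter]
      _ ≤ U := sum_le_sum_of_subset_of_nonneg
          (fun x hx => by
            obtain ⟨r, hr, rfl⟩ := mem_image.1 hx
            exact mem_range.2 (mem_filter.1 hr).2)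
          fun x _ _ => sqrt_nonneg _
  -- the geometric factors
  have hsq : sqrt q ≤ 1 / 8 := by
    refine (sqrt_le_sqrt hq).trans_eq ?_
    rw [show (1 : ℝ) / 64 = (1 / 8) ^ 2 by norm_num, sqrt_sq (by norm_num)]
  have hcorr : ∑ δ ∈ Ico 1 (k + 1), sqrt (2 * q ^ δ) ≤ 1 / 2 := by
    have h2 : sqrt 2 ≤ 3 / 2 := sqrt_le_iff.2 ⟨by norm_num, by norm_num⟩
    have e : ∀ δ, sqrt (q ^ δ) = sqrt q ^ δ := fun δ => by
      induction δ with
      | zero => simp
      | succ δ ih => rw [pow_succ, sqrt_mul (pow_nonneg hq0 δ), ih, pow_succ]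
    have h := geom_le (sqrt_nonneg q) hsq k
    rw [range_eq_Ico, sum_eq_sum_Ico_succ_bot (Nat.succ_pos k)] at h
    simp only [pow_zero, zero_add] at h
    simp only [sqrt_mul (show (0 : ℝ) ≤ 2 by norm_num), e, ← mul_sum]
    nlinarith [sqrt_nonneg (2 : ℝ), sum_nonneg (s := Ico 1 (k + 1)) fun δ (_ : δ ∈ Ico 1 (k + 1)) =>
      pow_nonneg (sqrt_nonneg q) δ]
  have hmain : ∑ r ∈ range k, sqrt (3 * k.factorial * gradeBd n β K k r) ≤
      6 * sqrt (k.factorial * Q) := by
    set x := sqrt (Q / n)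
    have hx : x ≤ 1 / 2 := by
      refine (sqrt_le_iff.2 ⟨by norm_num, ?_⟩)
      rw [div_le_iff₀ hn0R]
      nlinarith
    have hgeom : ∑ r ∈ range k, x ^ r ≤ 2 := by
      have h := geom_sum_mul x k
      have := pow_nonneg (sqrt_nonneg (Q / n)) k
      nlinarith [sum_nonneg (s := range k) fun δ (_ : δ ∈ range k) =>
        pow_nonneg (sqrt_nonneg (Q / n)) δ]
    have hterm : ∀ r, sqrt (3 * k.factorial * gradeBd n β K k r) ≤
        3 * sqrt (k.factorial * Q) * x ^ r := by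
      intro r
      refine sqrt_le_iff.2 ⟨mul_nonneg (mul_nonneg (by norm_num) (sqrt_nonneg _)) (pow_nonneg (sqrt_nonneg _) r), ?_⟩
      rw [mul_pow, mul_pow, sq_sqrt (mul_nonneg (Nat.cast_nonneg _) hQ0 : (0:ℝ) ≤ k.factorial * Q),
        ← pow_mul, mul_comm r 2, pow_mul,
        sq_sqrt (div_nonneg hQ0 hn0R.le : (0:ℝ) ≤ Q / n), div_pow]
      have h := gradeBd_le β hk hkK hn0 r
      calc 3 * (k.factorial : ℝ) * gradeBd n β K k r ≤
            3 * k.factorial * (Q ^ (r + 1) / (n : ℝ) ^ r) :=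
            mul_le_mul_of_nonneg_left h (by positivity)
        _ ≤ 3 ^ 2 * k.factorial * (Q ^ (r + 1) / (n : ℝ) ^ r) := by
            gcongr; norm_num
        _ = _ := by rw [pow_succ]; ring
    refine (sum_le_sum fun r _ => hterm r).trans ?_
    rw [← mul_sum]
    nlinarith [sqrt_nonneg ((k.factorial : ℝ) * Q)]
  have hUle : U ≤ 6 * sqrt (k.factorial * Q) + 1 / 2 * U := by
    calc U ≤ ∑ r ∈ range k, (sqrt (3 * k.factorial * gradeBd n β K k r) +
          ∑ δ ∈ Ico 1 (k + 1), sqrt (2 * q ^ δ) * sqrt (gradeSq n β k (r + δ))) :=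
          sum_le_sum fun r _ => grade_le hC hSym hSp hE hP β hk hkK hn hn'
            (hq.trans (by norm_num)) hs r
      _ ≤ 6 * sqrt (k.factorial * Q) + (∑ δ ∈ Ico 1 (k + 1), sqrt (2 * q ^ δ)) * U := by
          rw [sum_add_distrib, sum_comm (s := range k) (t := Ico 1 (k + 1)), sum_mul]
          refine add_le_add hmain (sum_le_sum fun δ _ => ?_)
          rw [← mul_sum]
          exact mul_le_mul_of_nonneg_left (hshift δ) (sqrt_nonneg _)
      _ ≤ _ := add_le_add le_rfl (mul_le_mul_of_nonneg_right hcorr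
          (sum_nonneg fun r _ => sqrt_nonneg _))
  have hU0 : 0 ≤ U := sum_nonneg fun r _ => sqrt_nonneg _
  have hgrade : ∀ r, 0 ≤ gradeSq n β k r := fun r => sum_nonneg fun z _ => sq_nonneg _
  have hsum : ∑ r ∈ range k, gradeSq n β k r ≤ U ^ 2 := by
    calc ∑ r ∈ range k, gradeSq n β k r
        = ∑ r ∈ range k, sqrt (gradeSq n β k r) ^ 2 :=
          sum_congr rfl fun r _ => (sq_sqrt (hgrade r)).symm
      _ ≤ U ^ 2 := sum_sq_le_sq_sum_of_nonneg fun r _ => sqrt_nonneg _
  -- words and coefficients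
  obtain ⟨-, -, -, hsplit, -⟩ := hC n β hn0
  have hmean : ∀ w : Fin k → Edge n, tW n β w = ∫ G, dFree n β (List.ofFn w) G ∂gauss (Edge n) := by
    intro w
    rw [hsplit k w (List.ofFn w) [] (by simp)]
    simp [he]
  let E : (Sl k → Fin n) ≃ (Fin k → Edge n) :=
    { toFun := edges
      invFun := fun e l => if l.2 then (e l.1).2 else (e l.1).1
      left_inv := fun w => funext fun l => by rcases l with ⟨i, _ | _⟩ <;> rfl
      right_inv := fun e => funext fun i => rfl }
  rw [← E.sum_comp fun w => (∫ G, dFree n β (List.ofFn w) G ∂gauss (Edge n)) ^ 2]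
  have hfinal : ∑ z : Sl k → Fin n, (∫ G, dFree n β (List.ofFn (E z)) G ∂gauss (Edge n)) ^ 2 ≤
      144 * (k.factorial * Q) := by
    refine le_trans (le_of_eq (sum_congr rfl fun z _ => by rw [← hmean]; rfl))
      ((sum_sq_tHat_le hSym β hk).trans (hsum.trans ?_))
    have h12 : U ≤ 12 * sqrt (k.factorial * Q) := by linarith
    refine (pow_le_pow_left₀ hU0 h12 2).trans_eq ?_
    rw [mul_pow, sq_sqrt (mul_nonneg (Nat.cast_nonneg _) hQ0 : (0:ℝ) ≤ k.factorial * Q)]
    norm_num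
  rw [one_div, inv_mul_le_iff₀ (by positivity)]
  linarith

end Vale.Agent.P146.Power
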